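import Vale.Agent.P049.TS.Asm.Mono
import Vale.Agent.P049.TS.Alg.RSt
import Vale.Agent.P049.TS.Alg.Base
import Vale.Agent.P049.TS.Avg.Adm
import Vale.Agent.P049.TS.Tilt.Trace
import Vale.Agent.P049.TS.Shell.Sign

/-!
The frozen table for the phases I and II of the stub process (helper49 NOTE 3).

`sR n` (file `Alg/Base`) is the base `σ` of all scales: `σ^1000 ≤ n < (σ+1)^1000`.  `Nk n d k = nd - 2k` is the number
of free stubs after `k` joins; `k1` / `k2` = first `k` with `N_k ≤ σ^802` / `N_k ≤ σ^699`.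
-/

namespace Vale.Agent.P049.TS.Asm

open Matrix Finset

/-- the number of free stubs after `k` joins, as a real number -/
noncomputable def Nk (n d k : ℕ) : ℝ := (n : ℝ) * d - 2 * k

/-- first `k` with `N_k ≤ σ^802` (end of the tilt) -/
def k1 (n d : ℕ) : ℕ := (n * d - sR n ^ 802 + 1) / 2

/-- first `k` with `N_k ≤ σ^699` (end of phase II) -/
def k2 (n d : ℕ) : ℕ := (n * d - sR n ^ 699 + 1) / 2

/-- the integer part of `d (d-2) n / √(d-1)` -/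
def kapN (n d : ℕ) : ℕ := Nat.sqrt (d ^ 2 * (d - 2) ^ 2 * n ^ 2 / (d - 1))

/-- `ε tr Z_ε³` is `kap + O(1)` at the start and is almost conserved -/
noncomputable def kap (n d : ℕ) : ℝ := (kapN n d : ℝ)

/-- the strength of the tilt -/
noncomputable def lam (n : ℕ) : ℝ := (sR n : ℝ) ^ 186

/-- target of `ε tr Z_ε` -/
noncomputable def t1 (n d k : ℕ) : ℝ :=
  -(lam n * kap n d * ((Nk n d (min k (k1 n d)))⁻¹ - (Nk n d 0)⁻¹))

/-- the size of the kick -/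
noncomputable def K1 (n d : ℕ) : ℝ :=
  lam n * kap n d * ((Nk n d (k1 n d))⁻¹ - (Nk n d 0)⁻¹)

/-- target of `tr Z_ε² - N` -/
noncomputable def tD (n d k : ℕ) : ℝ :=
  -(2 * K1 n d * kap n d * ((Nk n d (max k (k1 n d)))⁻¹ - (Nk n d (k1 n d))⁻¹))

variable {ι : Type*} [Fintype ι] [DecidableEq ι]

/-- `V = Σ_a (w_a - 1)²` -/
noncomputable def gV (F : Finset ι) (Z : Matrix ι ι ℝ) : ℝ := ∑ a ∈ F, ((Z ^ 2) a a - 1) ^ 2

/-- potential of `T₁` -/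
noncomputable def f1 (n d k : ℕ) (ε : ℝ) (Z : Matrix ι ι ℝ) : ℝ :=
  (ε * Z.trace - t1 n d k) ^ 2 / (sR n : ℝ) ^ 754

/-- potential of `D = T₂ - N` -/
noncomputable def fD (n d k : ℕ) (Z : Matrix ι ι ℝ) : ℝ :=
  ((Z ^ 2).trace - Nk n d k - tD n d k) ^ 2 / (sR n : ℝ) ^ 1366

/-- potential of `T₃` -/
noncomputable def f3 (n d k : ℕ) (ε : ℝ) (Z : Matrix ι ι ℝ) : ℝ :=
  (ε * (Z ^ 3).trace - kap n d) ^ 2 / (if k < k1 n d then (sR n : ℝ) ^ 1900 else (sR n : ℝ) ^ 1986)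

/-- potential of `T₄` -/
noncomputable def f4 (n d k : ℕ) (Z : Matrix ι ι ℝ) : ℝ :=
  (Z ^ 4).trace * Nk n d k / (sR n : ℝ) ^ 2003

/-- potential of `V` -/
noncomputable def fV (n d k : ℕ) (F : Finset ι) (Z : Matrix ι ι ℝ) : ℝ :=
  gV F Z / (if k < k1 n d then (sR n : ℝ) ^ 610 else (sR n : ℝ) ^ 690)

/-- potential of `S₁ = Σ Z_aa²` -/
noncomputable def fS (n : ℕ) (F : Finset ι) (Z : Matrix ι ι ℝ) : ℝ := Sd F Z / (sR n : ℝ) ^ 80

/-- potential of `W = tr Z₊² Z₋²` (only up to `k1`) -/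
noncomputable def fW (n d k : ℕ) (Zp Zm : Matrix ι ι ℝ) : ℝ :=
  if k < k1 n d then (Zp ^ 2 * Zm ^ 2).trace / ((sR n : ℝ) ^ 60 * Nk n d k) else 0

/-- all potentials of one sign -/
noncomputable def fOne (n d k : ℕ) (ε : ℝ) (F : Finset ι) (Z : Matrix ι ι ℝ) : ℝ :=
  f1 n d k ε Z + fD n d k Z + f3 n d k ε Z + f4 n d k Z + fV n d k F Z + fS n F Z

/-- the potential of the phases I and II -/
noncomputable def PhiA (n d k : ℕ) (s : RSt ι) : ℝ :=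
  fOne n d k 1 s.F s.Zp + fOne n d k (-1) s.F s.Zm + fW n d k s.Zp s.Zm

/-! ### The hypotheses of the rate lemmas -/

/-- `log σ` -/
noncomputable def LL (n : ℕ) : ℝ := Real.log (sR n)
/-- `log N_k` -/
noncomputable def XX (n d k : ℕ) : ℝ := Real.log (Nk n d k)

/-- the operator bound: `b⁴ = σ^2003 / N` -/
noncomputable def bP (n d k : ℕ) : ℝ := mo (LL n) (XX n d k) (2003 / 4) (-(1 / 4))
/-- `t² = 2N` -/
noncomputable def tP (n d k : ℕ) : ℝ := √2 * mo (LL n) (XX n d k) 0 (1 / 2)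
/-- `s² = σ^80` -/
noncomputable def sP (n d k : ℕ) : ℝ := mo (LL n) (XX n d k) 40 0
/-- `v² = σ^610` or `σ^690` -/
noncomputable def vP (n d k : ℕ) : ℝ :=
  if k < k1 n d then mo (LL n) (XX n d k) 305 0 else mo (LL n) (XX n d k) 345 0
/-- `w² = 4N` -/
noncomputable def wP (n d k : ℕ) : ℝ := 2 * mo (LL n) (XX n d k) 0 (1 / 2)
/-- `cw² = σ^60 N` -/
noncomputable def cP (n d k : ℕ) : ℝ := mo (LL n) (XX n d k) 30 (1 / 2)

/-- what `PhiA ≤ 1` and the structure of the process give for one sign -/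
structure OneA (n d k : ℕ) (ε : ℝ) (F : Finset ι) (Z : Matrix ι ι ℝ) : Prop where
  symm : Z.IsSymm
  supp : ∀ a, a ∉ F → ∀ b, Z a b = 0
  row : ∀ a ∈ F, ∑ b, Z a b = 1
  /-- all sign facts (`Shell/Sign`), `μ = 1/√(d-1)` -/
  sg : Sg F Z (√((d : ℝ) - 1))⁻¹ ε
  /-- `Y = εZ ≥ -1` (on the orthogonal complement of `1_F` even `≥ -μ`) -/
  lob : ∀ v : ι → ℝ, 0 ≤ ε * (v ⬝ᵥ (Z *ᵥ v)) + v ⬝ᵥ v
  T4 : (Z ^ 4).trace ≤ bP n d k ^ 4
  T2 : (Z ^ 2).trace ≤ tP n d k ^ 2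
  T2N : (F.card : ℝ) ≤ 2 * (Z ^ 2).trace
  S : ∑ a ∈ F, Z a a ^ 2 ≤ sP n d k ^ 2
  V : ∑ a ∈ F, ((Z ^ 2) a a - 1) ^ 2 ≤ vP n d k ^ 2
  W : ∑ a ∈ F, (Z ^ 2) a a ^ 2 ≤ wP n d k ^ 2
  d1 : |ε * Z.trace - t1 n d k| ≤ (sR n : ℝ) ^ 377
  dD : |(Z ^ 2).trace - Nk n d k - tD n d k| ≤ (sR n : ℝ) ^ 683
  d3 : |ε * (Z ^ 3).trace - kap n d| ≤
    if k < k1 n d then (sR n : ℝ) ^ 950 else (sR n : ℝ) ^ 993

/-- the hypotheses of the rate lemmas -/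
structure EnvA (n d k : ℕ) (F : Finset ι) (Zp Zm : Matrix ι ι ℝ) (forb : ι → ι → Prop) : Prop where
  d3 : 3 ≤ d
  k_lt : k < k2 n d
  card : (F.card : ℝ) = Nk n d k
  p : OneA n d k 1 F Zp
  m : OneA n d k (-1) F Zm
  Wc : k < k1 n d → (Zp ^ 2 * Zm ^ 2).trace ≤ cP n d k ^ 2
  tp : Tilt.TPar F forb (lam n) ((d : ℝ) * (d + 1))

/-- the tilt used in the phases I (`k < k1`) and II (no tilt) -/
noncomputable def hA (n d k : ℕ) (F : Finset ι) (forb : ι → ι → Prop) (Zp Zm : Matrix ι ι ℝ) :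
    ι → ι → ℝ := fun a b => if k < k1 n d then Tilt.hT F forb Zp Zm (lam n) a b else 0

/-- `(ε, Z)` is `(1, Z₊)` or `(-1, Z₋)` -/
def Sgn (Zp Zm : Matrix ι ι ℝ) (ε : ℝ) (Z : Matrix ι ι ℝ) : Prop :=
  (ε = 1 ∧ Z = Zp) ∨ (ε = -1 ∧ Z = Zm)

/-- the common right-hand side of all rate lemmas: `σ^(-1) N` -/
noncomputable def rT (n d k : ℕ) : ℝ := mo (LL n) (XX n d k) (-1) 1

end Vale.Agent.P049.TS.Asm
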