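import Vale.Agent.P049.TS.Alg.Base

/-!
Sums of rates: `∑_k C / (s N_k) ≤ ε` for large `n`, where `N_k = n d - 2 k` and `s ^ 1000 ~ n`.
-/

namespace Vale.Agent.P049.TS.Asm

open Finset Filter

theorem sum_range_inv_le (m : ℕ) : ∑ i ∈ Finset.range m, (1 : ℝ) / ((i : ℝ) + 1) ≤
    1 + Real.log m := by
  have h := harmonic_le_one_add_log m
  unfold harmonic at h
  push_cast at h
  refine le_trans (le_of_eq ?_) h
  exact Finset.sum_congr rfl fun i _ => one_div _

/-- the free stubs decrease by two in each step -/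
theorem sum_inv_le {m ka kb : ℕ} (h : 2 * kb ≤ m) :
    ∑ k ∈ Finset.Ico ka kb, (1 : ℝ) / ((m : ℝ) - 2 * k) ≤ 1 + Real.log m := by
  refine le_trans ?_ (sum_range_inv_le m)
  have e : ∑ k ∈ Finset.Ico ka kb, (1 : ℝ) / ((m : ℝ) - 2 * k) =
      ∑ i ∈ (Finset.Ico ka kb).image (fun k => m - 2 * k - 1), (1 : ℝ) / ((i : ℝ) + 1) := by
    rw [Finset.sum_image]
    · refine Finset.sum_congr rfl fun k hk => ?_
      rw [Finset.mem_Ico] at hk
      have h1 : ((m - 2 * k - 1 : ℕ) : ℝ) + 1 = (m : ℝ) - 2 * k := by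
        have h2 : (m - 2 * k - 1) + 1 + 2 * k = m := by omega
        have h3 : (((m - 2 * k - 1) + 1 + 2 * k : ℕ) : ℝ) = m := by rw [h2]
        push_cast at h3
        linarith
      rw [h1]
    · intro x hx y hy hxy
      rw [Finset.coe_Ico, Set.mem_Ico] at hx hy
      simp only at hxy
      omega
  rw [e]
  refine Finset.sum_le_sum_of_subset_of_nonneg ?_ fun i _ _ => by positivity
  intro i hi
  obtain ⟨k, hk, rfl⟩ := Finset.mem_image.1 hi
  rw [Finset.mem_Ico] at hk
  rw [Finset.mem_range]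
  omega

theorem tendsto_log_div (a b : ℝ) :
    Tendsto (fun s : ℕ => (a + b * Real.log ((s : ℝ) + 1)) / s) atTop (nhds 0) := by
  have h0 : Tendsto (fun s : ℕ => ((s : ℝ) + 1)) atTop atTop :=
    tendsto_atTop_add_const_right _ _ tendsto_natCast_atTop_atTop
  have h1 : Tendsto (fun x : ℝ => Real.log x / x) atTop (nhds 0) := by
    have := Real.isLittleO_log_id_atTop.tendsto_div_nhds_zero
    simpa using this
  have h2 := h1.comp h0
  have h3 : Tendsto (fun s : ℕ => ((s : ℝ) + 1) / s) atTop (nhds 1) := by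
    have h4 : Tendsto (fun s : ℕ => 1 + 1 / (s : ℝ)) atTop (nhds (1 + 0)) :=
      tendsto_const_nhds.add tendsto_one_div_atTop_nhds_zero_nat
    rw [add_zero] at h4
    refine h4.congr' ?_
    filter_upwards [eventually_gt_atTop 0] with s hs
    have : (s : ℝ) ≠ 0 := by positivity
    field_simp
  have h5 : Tendsto (fun s : ℕ => a / (s : ℝ)) atTop (nhds 0) :=
    tendsto_const_div_atTop_nhds_zero_nat a
  have h6 := h5.add ((h2.mul h3).const_mul b)
  simp only [zero_mul, mul_zero, add_zero] at h6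
  refine h6.congr' ?_
  filter_upwards [eventually_gt_atTop 0] with s hs
  have h7 : (s : ℝ) ≠ 0 := by positivity
  have h8 : (s : ℝ) + 1 ≠ 0 := by positivity
  simp only [Function.comp]
  field_simp

/-- the total of the rates `C / (s N_k)` is at most `ε` for large `s` -/
theorem exists_rate_bound (d : ℕ) (C ε : ℝ) (hC : 0 ≤ C) (hε : 0 < ε) :
    ∃ s₀ : ℕ, 0 < s₀ ∧ ∀ n, s₀ ≤ sR n → ∀ ka kb, 2 * kb ≤ n * d →
      ∑ k ∈ Finset.Ico ka kb, C / ((sR n : ℝ) * (((n * d : ℕ) : ℝ) - 2 * k)) ≤ ε := by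
  have h := tendsto_log_div (C * (1 + d)) (C * 1000)
  obtain ⟨s₀, hs₀⟩ := eventually_atTop.1 (h.eventually_lt_const hε)
  refine ⟨s₀ + 1, Nat.succ_pos _, fun n hn ka kb hk => ?_⟩
  have hs : (0 : ℝ) < sR n := by
    have : 0 < sR n := by omega
    exact_mod_cast this
  have h1 := hs₀ (sR n) (by omega)
  refine le_trans ?_ h1.le
  have h2 : ∑ k ∈ Finset.Ico ka kb, C / ((sR n : ℝ) * (((n * d : ℕ) : ℝ) - 2 * k)) =
      C / sR n * ∑ k ∈ Finset.Ico ka kb, 1 / (((n * d : ℕ) : ℝ) - 2 * k) := by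
    rw [Finset.mul_sum]
    refine Finset.sum_congr rfl fun k hk' => ?_
    rw [div_mul_div_comm, mul_one]
  have h3 : Real.log ((n * d : ℕ) : ℝ) ≤ d + 1000 * Real.log ((sR n : ℝ) + 1) := by
    rcases Nat.eq_zero_or_pos (n * d) with h0 | h0
    · rw [h0, Nat.cast_zero, Real.log_zero]
      have : 0 ≤ Real.log ((sR n : ℝ) + 1) := Real.log_nonneg (by linarith)
      positivity
    · have hn0 : 0 < n := Nat.pos_of_mul_pos_right h0
      have hd0 : 0 < d := Nat.pos_of_mul_pos_left h0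
      have h5 : Real.log n ≤ 1000 * Real.log ((sR n : ℝ) + 1) := by
        have h4 : (n : ℝ) ≤ ((sR n : ℝ) + 1) ^ 1000 := by
          exact_mod_cast (lt_sR_succ_pow n).le
        have := Real.log_le_log (by exact_mod_cast hn0) h4
        rwa [Real.log_pow] at this
      have h6 : Real.log d ≤ d := (Real.log_le_sub_one_of_pos (by exact_mod_cast hd0)).trans
        (by linarith)
      rw [Nat.cast_mul, Real.log_mul (by positivity) (by positivity)]
      linarith
  rw [h2, div_mul_eq_mul_div]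
  refine div_le_div_of_nonneg_right ?_ hs.le
  calc C * ∑ k ∈ Finset.Ico ka kb, 1 / (((n * d : ℕ) : ℝ) - 2 * k)
      ≤ C * (1 + Real.log ((n * d : ℕ) : ℝ)) := mul_le_mul_of_nonneg_left (sum_inv_le hk) hC
    _ ≤ C * (1 + (d + 1000 * Real.log ((sR n : ℝ) + 1))) :=
        mul_le_mul_of_nonneg_left (by linarith) hC
    _ = _ := by ring

/-- `n ≥ s₀ ^ 1000` implies `s₀ ≤ sR n` -/
theorem le_sR {n s₀ : ℕ} (h : s₀ ^ 1000 ≤ n) : s₀ ≤ sR n := (le_sR_iff n s₀).2 h

end Vale.Agent.P049.TS.Asm
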