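import Vale.Agent.P049.TS.Asm.Phase
import Vale.Agent.P049.TS.Asm.Rates
import Vale.Agent.P049.TS.Asm.Par

/-!
The assembly of the four phases.

* `Phase.of_rate`: a phase from rate inequalities `∑ ω (Φ' - Φ) ≤ C N / s`;
* `Ev`: for all large `n`, in terms of the base `sR n`;
* `glue4`: the hypotheses `hA`, `hB`, `hC` of `final_of`, `final_U` from four phases.
-/

namespace Vale.Agent.P049.TS.Asm

open Finset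

/-- for all large `n` -/
def Ev (d : ℕ) (P : ℕ → Prop) : Prop := ∃ s₀ : ℕ, ∀ n, s₀ ≤ sR n → Even (d * n) → P n

variable {d : ℕ}

theorem Ev.and {P Q : ℕ → Prop} (hP : Ev d P) (hQ : Ev d Q) : Ev d fun n => P n ∧ Q n := by
  obtain ⟨s, hs⟩ := hP
  obtain ⟨t, ht⟩ := hQ
  exact ⟨max s t, fun n hn he =>
    ⟨hs n ((le_max_left _ _).trans hn) he, ht n ((le_max_right _ _).trans hn) he⟩⟩

theorem Ev.mono {P Q : ℕ → Prop} (hP : Ev d P) (h : ∀ n, Even (d * n) → P n → Q n) : Ev d Q := by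
  obtain ⟨s, hs⟩ := hP
  exact ⟨s, fun n hn he => h n he (hs n hn he)⟩

theorem Ev.of_forall {P : ℕ → Prop} (h : ∀ n, P n) : Ev d P := ⟨0, fun n _ _ => h n⟩

theorem Ev.of_sR (s₀ : ℕ) : Ev d fun n => s₀ ≤ sR n := ⟨s₀, fun _ hn _ => hn⟩

theorem Ev.exists {P : ℕ → Prop} (hP : Ev d P) : ∃ n₀, ∀ n ≥ n₀, Even (d * n) → P n := by
  obtain ⟨s, hs⟩ := hP
  exact ⟨s ^ 1000, fun n hn he => hs n (le_sR hn) he⟩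

/-- A phase from rate inequalities. `om` are the weights, `∑ om ≥ N² / 4`. -/
theorem Phase.of_rate {n ka kb : ℕ} {Φ : ℕ → RSt (Fin (n * d)) → ℝ} {C : ℝ} (hC : 0 ≤ C)
    (hs : 0 < sR n) (hkb : 2 * kb ≤ n * d)
    (step : ∀ k, ka ≤ k → k < kb → ∀ σ, Reach (vertF n d) (start (vertF n d) d) k σ →
      Φ k σ ≤ 1 → ∃ om : Fin (n * d) × Fin (n * d) → ℝ,
        (∀ p ∈ admS (vertF n d) σ, 0 ≤ om p) ∧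
        Nk n d k ^ 2 / 4 ≤ ∑ p ∈ admS (vertF n d) σ, om p ∧
        ∑ p ∈ admS (vertF n d) σ, om p * (Φ (k + 1) (σ.join p.1 p.2) - Φ k σ) ≤
          C * (Nk n d k / sR n))
    (ent : ∀ k, ka ≤ k → k < kb → ∀ σ, Reach (vertF n d) (start (vertF n d) d) k σ → Φ k σ ≤ 1 →
      ∀ i j, |σ.Zp i j| ≤ (n * d : ℕ) ∧ |σ.Zm i j| ≤ (n * d : ℕ))
    (sum : ∑ k ∈ Finset.Ico ka kb, (4 * C) / ((sR n : ℝ) * (((n * d : ℕ) : ℝ) - 2 * k)) ≤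
      1 / 4) :
    Phase n d ka kb Φ (1 / 4) fun k => (4 * C) / ((sR n : ℝ) * (((n * d : ℕ) : ℝ) - 2 * k)) := by
  have hs' : (0 : ℝ) < sR n := by exact_mod_cast hs
  have hN : ∀ k, k < kb → 0 < Nk n d k ∧ ((n * d : ℕ) : ℝ) - 2 * k = Nk n d k := by
    intro k hk
    have h1 : 2 * k + 1 ≤ n * d := by omega
    have h2 : ((2 * k + 1 : ℕ) : ℝ) ≤ ((n * d : ℕ) : ℝ) := by exact_mod_cast h1
    unfold Nk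
    push_cast at h2 ⊢
    exact ⟨by linarith, rfl⟩
  refine ⟨fun k h1 h2 σ hr hΦ => ?_, fun k _ h2 => ?_, ?_, ent⟩
  · obtain ⟨om, g1, g2, g3⟩ := step k h1 h2 σ hr hΦ
    obtain ⟨hN0, hN1⟩ := hN k h2
    refine ⟨om, g1, lt_of_lt_of_le (by positivity) g2, g3.trans ?_⟩
    rw [hN1]
    calc C * (Nk n d k / sR n) = 4 * C / (sR n * Nk n d k) * (Nk n d k ^ 2 / 4) := by
          field_simp
      _ ≤ _ := mul_le_mul_of_nonneg_left g2 (by positivity)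
  · obtain ⟨hN0, hN1⟩ := hN k h2
    rw [hN1]
    positivity
  · linarith

/-- A phase for all large `n` from rate inequalities with one constant `C`. -/
theorem Ev.phase (Φ : ∀ n, ℕ → RSt (Fin (n * d)) → ℝ) (ka kb : ℕ → ℕ)
    (hk : Ev d fun n => 2 * kb n ≤ n * d)
    (h : ∃ C : ℝ, Ev d fun n => ∀ k, ka n ≤ k → k < kb n → ∀ σ,
      Reach (vertF n d) (start (vertF n d) d) k σ → Φ n k σ ≤ 1 →
      (∃ om : Fin (n * d) × Fin (n * d) → ℝ,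
        (∀ p ∈ admS (vertF n d) σ, 0 ≤ om p) ∧
        Nk n d k ^ 2 / 4 ≤ ∑ p ∈ admS (vertF n d) σ, om p ∧
        ∑ p ∈ admS (vertF n d) σ, om p * (Φ n (k + 1) (σ.join p.1 p.2) - Φ n k σ) ≤
          C * (Nk n d k / sR n)) ∧
      ∀ i j, |σ.Zp i j| ≤ (n * d : ℕ) ∧ |σ.Zm i j| ≤ (n * d : ℕ)) :
    Ev d fun n => ∃ r, Phase n d (ka n) (kb n) (Φ n) (1 / 4) r := by
  obtain ⟨C, hC⟩ := h
  obtain ⟨s₀, hs₀, hs⟩ := exists_rate_bound d (4 * max C 0) (1 / 4) (by positivity)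
    (by norm_num)
  have h4 : Ev d fun n => ∀ ka kb, 2 * kb ≤ n * d → ∑ k ∈ Finset.Ico ka kb,
      (4 * max C 0) / ((sR n : ℝ) * (((n * d : ℕ) : ℝ) - 2 * k)) ≤ 1 / 4 :=
    ⟨s₀, fun n hn _ => hs n hn⟩
  refine ((hk.and (hC.and h4)).and (Ev.of_sR 1)).mono fun n _ hn => ?_
  obtain ⟨⟨k1, k2, k3⟩, k4⟩ := hn
  refine ⟨_, Phase.of_rate (C := max C 0) (le_max_right _ _) k4 k1 (fun k g1 g2 σ hr hΦ => ?_)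
    (fun k g1 g2 σ hr hΦ => (k2 k g1 g2 σ hr hΦ).2) (k3 _ _ k1)⟩
  obtain ⟨⟨om, o1, o2, o3⟩, -⟩ := k2 k g1 g2 σ hr hΦ
  refine ⟨om, o1, o2, o3.trans (mul_le_mul_of_nonneg_right (le_max_left _ _) ?_)⟩
  have h5 : ((2 * k : ℕ) : ℝ) ≤ ((n * d : ℕ) : ℝ) := by
    exact_mod_cast (by omega : 2 * k ≤ n * d)
  have h6 : 0 ≤ Nk n d k := by
    unfold Nk
    push_cast at h5
    linarith
  positivity

/-- the union of four phases -/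
noncomputable def glue {n : ℕ} (k₁ k₂ k₃ : ℕ) (Φ₁ Φ₂ Φ₃ Φ₄ : ℕ → RSt (Fin (n * d)) → ℝ) :
    ℕ → RSt (Fin (n * d)) → ℝ := fun k σ =>
  if k < k₁ then Φ₁ k σ else if k < k₂ then Φ₂ k σ else if k < k₃ then Φ₃ k σ else Φ₄ k σ

/-- **The assembly of four phases.** The hypotheses `P₁`, ..., `P₄` are the phases, `h₁₂`, `h₂₃`,
`h₃₄` the transitions, `h₀` the start, `hfin` the conclusion at the last step `k₄`. -/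
theorem glue4 (Φ₁ Φ₂ Φ₃ Φ₄ : ∀ n, ℕ → RSt (Fin (n * d)) → ℝ) (k₁ k₂ k₃ k₄ : ℕ → ℕ)
    {b₁ b₂ b₃ b₄ : ℝ} (hd : 0 < d) (hk : Ev d fun n => k₁ n ≤ k₂ n ∧ k₂ n ≤ k₃ n ∧ k₃ n ≤ k₄ n)
    (P₁ : Ev d fun n => ∃ r, Phase n d 0 (k₁ n) (Φ₁ n) b₁ r)
    (P₂ : Ev d fun n => ∃ r, Phase n d (k₁ n) (k₂ n) (Φ₂ n) b₂ r)
    (P₃ : Ev d fun n => ∃ r, Phase n d (k₂ n) (k₃ n) (Φ₃ n) b₃ r)
    (P₄ : Ev d fun n => ∃ r, Phase n d (k₃ n) (k₄ n) (Φ₄ n) b₄ r)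
    (h₀ : Ev d fun n => Φ₁ n 0 (start (vertF n d) d) ≤ b₁)
    (h₁₂ : Ev d fun n => ∀ σ, Reach (vertF n d) (start (vertF n d) d) (k₁ n) σ →
      Φ₁ n (k₁ n) σ ≤ 1 → Φ₂ n (k₁ n) σ ≤ b₂)
    (h₂₃ : Ev d fun n => ∀ σ, Reach (vertF n d) (start (vertF n d) d) (k₂ n) σ →
      Φ₂ n (k₂ n) σ ≤ 1 → Φ₃ n (k₂ n) σ ≤ b₃)
    (h₃₄ : Ev d fun n => ∀ σ, Reach (vertF n d) (start (vertF n d) d) (k₃ n) σ →
      Φ₃ n (k₃ n) σ ≤ 1 → Φ₄ n (k₃ n) σ ≤ b₄)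
    (hfin : Ev d fun n => ∀ σ, Reach (vertF n d) (start (vertF n d) d) (k₄ n) σ →
      Φ₄ n (k₄ n) σ ≤ 1 → (σ.Zp ^ 2).trace ≤ 2 ∧ (σ.Zm ^ 2).trace ≤ 2) :
    ∃ (n₀ : ℕ) (b : ℕ → ℕ → ℝ), ∀ n ≥ n₀, Even (d * n) →
      (∀ k < k₄ n, ∀ σ, Reach (vertF n d) (start (vertF n d) d) k σ → ∀ δ : ℝ, 0 ≤ δ →
        δ ≤ (1 / 2) ^ (n * d) → glue (k₁ n) (k₂ n) (k₃ n) (Φ₁ n) (Φ₂ n) (Φ₃ n) (Φ₄ n) k σ ≤
          b n k + δ → ∃ x y, σ.Adm (vertF n d) (2 / (4 : ℕ)) x y ∧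
        glue (k₁ n) (k₂ n) (k₃ n) (Φ₁ n) (Φ₂ n) (Φ₃ n) (Φ₄ n) (k + 1) (σ.join x y) ≤
          b n (k + 1) + 2 * δ) ∧
      (∀ k < k₄ n, ∀ σ, Reach (vertF n d) (start (vertF n d) d) k σ →
        glue (k₁ n) (k₂ n) (k₃ n) (Φ₁ n) (Φ₂ n) (Φ₃ n) (Φ₄ n) k σ ≤
          b n k + (1 / 2) ^ (n * d) →
        ∀ i j, |σ.Zp i j| ≤ (n * d : ℕ) ∧ |σ.Zm i j| ≤ (n * d : ℕ)) ∧
      glue (k₁ n) (k₂ n) (k₃ n) (Φ₁ n) (Φ₂ n) (Φ₃ n) (Φ₄ n) 0 (start (vertF n d) d) ≤ b n 0 ∧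
      ∀ σ, Reach (vertF n d) (start (vertF n d) d) (k₄ n) σ →
        glue (k₁ n) (k₂ n) (k₃ n) (Φ₁ n) (Φ₂ n) (Φ₃ n) (Φ₄ n) (k₄ n) σ ≤
          b n (k₄ n) + (1 / 2) ^ (n * d) → (σ.Zp ^ 2).trace ≤ 2 ∧ (σ.Zm ^ 2).trace ≤ 2 := by
  obtain ⟨n₀, h⟩ := ((hk.and (P₁.and (P₂.and (P₃.and (P₄.and (h₀.and (h₁₂.and (h₂₃.and
    (h₃₄.and hfin))))))))).and (Ev.of_sR 1)).exists
  have key : ∀ n, ∃ b : ℕ → ℝ, n₀ ≤ n → Even (d * n) →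
      Seg n d 4 0 (k₄ n) (glue (k₁ n) (k₂ n) (k₃ n) (Φ₁ n) (Φ₂ n) (Φ₃ n) (Φ₄ n)) b ∧
      glue (k₁ n) (k₂ n) (k₃ n) (Φ₁ n) (Φ₂ n) (Φ₃ n) (Φ₄ n) 0 (start (vertF n d) d) ≤ b 0 := by
    intro n
    by_cases hn : n₀ ≤ n ∧ Even (d * n)
    · obtain ⟨⟨⟨q1, q2, -⟩, ⟨r₁, p₁⟩, ⟨r₂, p₂⟩, ⟨r₃, p₃⟩, ⟨r₄, p₄⟩, g0, g1, g2, g3, -⟩, hs⟩ :=
        h n hn.1 hn.2
      have hn0 : 0 < n * d := Nat.mul_pos (lt_of_lt_of_le hs (sR_le n)) hd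
      have c₄ := p₄.chain hn0
      have c₃ := p₃.cons hn0 q2 c₄ g3
      have c₂ := p₂.cons hn0 q1 c₃ g2
      have c₁ := p₁.cons hn0 (Nat.zero_le _) c₂ g1
      exact ⟨_, fun _ _ => ⟨c₁.seg, c₁.entry _ Reach.zero g0⟩⟩
    · exact ⟨fun _ => 0, fun h1 h2 => absurd ⟨h1, h2⟩ hn⟩
  choose b hb using key
  refine ⟨n₀, b, fun n hn he => ?_⟩
  obtain ⟨hseg, h0⟩ := hb n hn he
  obtain ⟨⟨⟨q1, q2, q3⟩, -, -, -, -, -, -, -, -, hf⟩, hs⟩ := h n hn he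
  have hn0 : 0 < n * d := Nat.mul_pos (lt_of_lt_of_le hs (sR_le n)) hd
  refine ⟨fun k hk σ hr δ d0 d1 hΦ => ?_, fun k hk => hseg.hB k (Nat.zero_le k) hk, h0,
    fun σ hr hΦ => ?_⟩
  · obtain ⟨x, y, h1, h2⟩ := hseg.hA k (Nat.zero_le k) hk σ hr δ d0 d1 hΦ
    exact ⟨x, y, h1, by linarith⟩
  · have h1 := hseg.final hn0 hΦ
    refine hf σ hr ?_
    unfold glue at h1
    rwa [if_neg (by omega), if_neg (by omega), if_neg (by omega)] at h1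

end Vale.Agent.P049.TS.Asm
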