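import Vale.Agent.P049.TS.Asm.ParF

/-!
The potential of the phase IIIb, `k3 ≤ k < k4` (helper49 NOTE 5, 6, 8, helper80 NOTE 10, helper379 NOTE 5):
`N_k` from `σ^680` down to `σ^530`, uniform weights.  For each sign, with `ρ = N / (32 σ^315)`,

* `g1B = (max (ε T₁ / ρ + 2) 0)²`            (so `ε T₁ ≤ -ρ`),
* `g2B = T₁² σ^590 / N²`                      (`|T₁| ≤ N / σ^295`),
* `gFB = (T₂ - 1) σ^684 / N²`,
* `g4B = T₄ σ^1393 / N⁴`,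
* `g5B = V₂ σ^669 / N²`  (`V₂ = Σ_a w_a²`),
* `g6B = S₁ σ^574 / N`.
-/

namespace Vale.Agent.P049.TS.Asm

open Matrix Finset

/-- `ρ = N / (32 σ^315)` -/
noncomputable def rhoB (n d k : ℕ) : ℝ := Nk n d k / (32 * (sR n : ℝ) ^ 315)

variable {ι : Type*} [Fintype ι] [DecidableEq ι]

/-- one-sided potential of `T₁`: `ε T₁ ≤ -ρ` -/
noncomputable def g1B (n d k : ℕ) (ε : ℝ) (Z : Matrix ι ι ℝ) : ℝ :=
  (max (ε * Z.trace / rhoB n d k + 2) 0) ^ 2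

/-- potential of `T₁²` -/
noncomputable def g2B (n d k : ℕ) (Z : Matrix ι ι ℝ) : ℝ :=
  Z.trace ^ 2 * (sR n : ℝ) ^ 590 / Nk n d k ^ 2

/-- potential of `T₂ - 1` -/
noncomputable def gFB (n d k : ℕ) (Z : Matrix ι ι ℝ) : ℝ :=
  ((Z ^ 2).trace - 1) * (sR n : ℝ) ^ 684 / Nk n d k ^ 2

/-- potential of `T₄` -/
noncomputable def g4B (n d k : ℕ) (Z : Matrix ι ι ℝ) : ℝ :=
  (Z ^ 4).trace * (sR n : ℝ) ^ 1393 / Nk n d k ^ 4

/-- potential of `V₂ = Σ_a w_a²` -/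
noncomputable def g5B (n d k : ℕ) (F : Finset ι) (Z : Matrix ι ι ℝ) : ℝ :=
  gV2 F Z * (sR n : ℝ) ^ 669 / Nk n d k ^ 2

/-- potential of `S₁` -/
noncomputable def g6B (n d k : ℕ) (F : Finset ι) (Z : Matrix ι ι ℝ) : ℝ :=
  Sd F Z * (sR n : ℝ) ^ 574 / Nk n d k

/-- all potentials of one sign -/
noncomputable def fOneB (n d k : ℕ) (ε : ℝ) (F : Finset ι) (Z : Matrix ι ι ℝ) : ℝ :=
  g1B n d k ε Z + g2B n d k Z + gFB n d k Z + g4B n d k Z + g5B n d k F Z + g6B n d k F Z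

/-- the potential of the phase IIIb -/
noncomputable def PhiB (n d k : ℕ) (s : RSt ι) : ℝ :=
  fOneB n d k 1 s.F s.Zp + fOneB n d k (-1) s.F s.Zm

/-! ### The hypotheses of the rate lemmas -/

/-- the operator bound: `b⁴ = 16 N⁴ / σ^1393 ≥ T₄ + N` -/
noncomputable def bB (n d k : ℕ) : ℝ := 2 * mo (LL n) (XX n d k) (-(1393 / 4)) 1
/-- `t² = 4 N² / σ^684 ≥ T₂` -/
noncomputable def tB (n d k : ℕ) : ℝ := 2 * mo (LL n) (XX n d k) (-342) 1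
/-- `s² = N / σ^574 ≥ S₁` -/
noncomputable def sB (n d k : ℕ) : ℝ := mo (LL n) (XX n d k) (-287) (1 / 2)
/-- `v² = 4 σ^(-212/5) N^(27/25) ≥ Σ (w_a - 1)²` (`4 σ^530` at `σ^530`, `4 σ^692` at `σ^680`) -/
noncomputable def vB (n d k : ℕ) : ℝ := 2 * mo (LL n) (XX n d k) (-(106 / 5)) (27 / 50)
/-- `w² = N² / σ^669 ≥ Σ w_a²` -/
noncomputable def wB (n d k : ℕ) : ℝ := mo (LL n) (XX n d k) (-(669 / 2)) 1
/-- `e² = (d+25)² N` bounds the number of non-admissible ordered pairs -/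
noncomputable def eB (n d k : ℕ) : ℝ := (d + 25) * mo (LL n) (XX n d k) 0 (1 / 2)

/-- what `PhiB ≤ 1` and the structure of the process give for one sign -/
structure OneB (n d k : ℕ) (ε : ℝ) (F : Finset ι) (Z : Matrix ι ι ℝ) : Prop where
  symm : Z.IsSymm
  supp : ∀ a, a ∉ F → ∀ b, Z a b = 0
  row : ∀ a ∈ F, ∑ b, Z a b = 1
  /-- all sign facts (`Shell/Sign`), `μ = 1/√(d-1)` -/
  sg : Sg F Z (√((d : ℝ) - 1))⁻¹ ε
  T4 : (Z ^ 4).trace ≤ bB n d k ^ 4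
  T2 : (Z ^ 2).trace ≤ tB n d k ^ 2
  X0 : (Z ^ 4).trace - 2 * (Z ^ 2).trace + F.card ≤ bB n d k ^ 4
  S : ∑ a ∈ F, Z a a ^ 2 ≤ sB n d k ^ 2
  V : ∑ a ∈ F, ((Z ^ 2) a a - 1) ^ 2 ≤ vB n d k ^ 2
  W : ∑ a ∈ F, (Z ^ 2) a a ^ 2 ≤ wB n d k ^ 2
  /-- the precise bounds -/
  T2_ge : 1 ≤ (Z ^ 2).trace
  T2_le : (Z ^ 2).trace - 1 ≤ Nk n d k ^ 2 / (sR n : ℝ) ^ 684
  T4_le : (Z ^ 4).trace ≤ Nk n d k ^ 4 / (sR n : ℝ) ^ 1393
  V2_le : gV2 F Z ≤ Nk n d k ^ 2 / (sR n : ℝ) ^ 669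
  S_le : Sd F Z ≤ Nk n d k / (sR n : ℝ) ^ 574
  T1_abs : |Z.trace| ≤ Nk n d k / (sR n : ℝ) ^ 295
  T1_neg : ε * Z.trace ≤ -rhoB n d k

/-- the hypotheses of the rate lemmas of the phase IIIb (uniform weights) -/
structure EnvB (n d k : ℕ) (F : Finset ι) (Zp Zm : Matrix ι ι ℝ) (forb : ι → ι → Prop) : Prop where
  d3 : 3 ≤ d
  k_ge : k3 n d ≤ k
  k_lt : k < k4 n d
  card : (F.card : ℝ) = Nk n d k
  p : OneB n d k 1 F Zp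
  m : OneB n d k (-1) F Zm
  fo : ForbOK F forb ((d : ℝ) * (d + 1))

end Vale.Agent.P049.TS.Asm
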