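import Vale.Agent.P049.TS.Alg.Base

/-! `V₂ = Σ_{a ∈ F} w_a²`, `w_a = (Z²)_aa`. -/

namespace Vale.Agent.P049.TS.Asm

/-- first `k` with `N_k ≤ σ^680` (end of the phase IIIa, start of the phase IIIb) -/
def k3 (n d : ℕ) : ℕ := (n * d - sR n ^ 680 + 1) / 2

/-- `V₂ = Σ_a w_a²` -/
noncomputable def gV2 {ι : Type*} [Fintype ι] [DecidableEq ι] (F : Finset ι)
    (Z : Matrix ι ι ℝ) : ℝ := ∑ a ∈ F, (Z ^ 2) a a ^ 2

end Vale.Agent.P049.TS.Asm
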