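import Vale.Agent.P049.TS.Asm.Par
import Vale.Agent.P049.TS.Asm.GV2

/-!
The potential of the phase IIIa `k2 ≤ k < k3`: `N_k` from `σ^699` down to `σ^680` (uniform weights).

`C = σ^685`; `A1c … A6c` are the functionals of one sign; every scale is a natural number or a
quotient of natural numbers.
-/

namespace Vale.Agent.P049.TS.Asm

open Matrix Finset

/-- `C = σ^685` -/
noncomputable def CC (n : ℕ) : ℝ := (sR n : ℝ) ^ 685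

/-- `ρ_k = N_k / (8 σ^315)` -/
noncomputable def rhoC (n d k : ℕ) : ℝ := Nk n d k / (8 * (sR n : ℝ) ^ 315)

/-- the target of `T₂ - 1`: `N² / (N + C)` -/
noncomputable def tgC (n d k : ℕ) : ℝ := Nk n d k ^ 2 / (Nk n d k + CC n)

/-- the scale of `T₂ - 1 - tgC`: `σ^(-5) N² C / (N + C)²` -/
noncomputable def gC (n d k : ℕ) : ℝ :=
  Nk n d k ^ 2 * CC n / ((sR n : ℝ) ^ 5 * (Nk n d k + CC n) ^ 2)

/-- the threshold of `V₂`: `σ^700 N² / (N + C)²` -/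
noncomputable def thC (n d k : ℕ) : ℝ :=
  (sR n : ℝ) ^ 700 * Nk n d k ^ 2 / (Nk n d k + CC n) ^ 2

variable {ι : Type*} [Fintype ι] [DecidableEq ι]

/-- `ε T₁ ≤ -ρ` -/
noncomputable def A1c (n d k : ℕ) (ε : ℝ) (Z : Matrix ι ι ℝ) : ℝ :=
  (max (ε * Z.trace + 2 * rhoC n d k) 0) ^ 2 / rhoC n d k ^ 2

/-- `ε T₁ ≥ -(5d² + 1) σ^384` -/
noncomputable def A2c (n d : ℕ) (ε : ℝ) (Z : Matrix ι ι ℝ) : ℝ :=
  (max (-(ε * Z.trace) - 5 * (d : ℝ) ^ 2 * (sR n : ℝ) ^ 384) 0) ^ 2 / (sR n : ℝ) ^ 768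

/-- `T₂ - 1 ≤ tgC + gC` -/
noncomputable def AFc (n d k : ℕ) (Z : Matrix ι ι ℝ) : ℝ :=
  (max ((Z ^ 2).trace - 1 - tgC n d k) 0) ^ 2 / gC n d k ^ 2

/-- `ε T₃ ≤ (3d² + 1) σ^1000` -/
noncomputable def A3c (n d : ℕ) (ε : ℝ) (Z : Matrix ι ι ℝ) : ℝ :=
  (max (ε * (Z ^ 3).trace - 3 * (d : ℝ) ^ 2 * (sR n : ℝ) ^ 1000) 0) ^ 2 / (sR n : ℝ) ^ 2000

/-- `T₄ ≤ σ^2004 / N` -/
noncomputable def A4c (n d k : ℕ) (Z : Matrix ι ι ℝ) : ℝ :=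
  (Z ^ 4).trace * Nk n d k / (sR n : ℝ) ^ 2004

/-- `V₂ ≤ thC` -/
noncomputable def A5c (n d k : ℕ) (F : Finset ι) (Z : Matrix ι ι ℝ) : ℝ :=
  gV2 F Z / thC n d k

/-- `S₁ ≤ σ^104` -/
noncomputable def A6c (n : ℕ) (F : Finset ι) (Z : Matrix ι ι ℝ) : ℝ := Sd F Z / (sR n : ℝ) ^ 104

/-- all potentials of one sign -/
noncomputable def cOne (n d k : ℕ) (ε : ℝ) (F : Finset ι) (Z : Matrix ι ι ℝ) : ℝ :=
  A1c n d k ε Z + A2c n d ε Z + AFc n d k Z + A3c n d ε Z + A4c n d k Z + A5c n d k F Z + A6c n F Z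

/-- the potential of the phase IIIa -/
noncomputable def PhiC (n d k : ℕ) (s : RSt ι) : ℝ :=
  cOne n d k 1 s.F s.Zp + cOne n d k (-1) s.F s.Zm

/-! ### The parameters of the drift lemmas -/

/-- `b⁴ = σ^2005 / N` (also bounds `T₄ + N`) -/
noncomputable def bC (n d k : ℕ) : ℝ := mo (LL n) (XX n d k) (2005 / 4) (-(1 / 4))
/-- `t² = 2N` -/
noncomputable def tC (n d k : ℕ) : ℝ := √2 * mo (LL n) (XX n d k) 0 (1 / 2)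
/-- `s² = σ^104` -/
noncomputable def sC (n d k : ℕ) : ℝ := mo (LL n) (XX n d k) 52 0
/-- `v² = σ^701` -/
noncomputable def vC (n d k : ℕ) : ℝ := mo (LL n) (XX n d k) (701 / 2) 0
/-- `w² = σ^700` -/
noncomputable def wC (n d k : ℕ) : ℝ := mo (LL n) (XX n d k) 350 0
/-- `#E ≤ e² = (d + 25)² N` -/
noncomputable def eC (n d k : ℕ) : ℝ := (d + 25) * mo (LL n) (XX n d k) 0 (1 / 2)

/-- what `PhiC ≤ 1` and the structure of the process give for one sign -/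
structure OneC (n d k : ℕ) (ε : ℝ) (F : Finset ι) (Z : Matrix ι ι ℝ) : Prop where
  symm : Z.IsSymm
  supp : ∀ a, a ∉ F → ∀ b, Z a b = 0
  row : ∀ a ∈ F, ∑ b, Z a b = 1
  /-- all sign facts (`Shell/Sign`), `μ = 1/√(d-1)` -/
  sg : Sg F Z (√((d : ℝ) - 1))⁻¹ ε
  T4 : (Z ^ 4).trace ≤ bC n d k ^ 4
  /-- `‖Z² - 1‖² ≤ b⁴` -/
  X0 : (Z ^ 4).trace - 2 * (Z ^ 2).trace + F.card ≤ bC n d k ^ 4
  T2 : (Z ^ 2).trace ≤ tC n d k ^ 2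
  S : ∑ a ∈ F, Z a a ^ 2 ≤ sC n d k ^ 2
  V : ∑ a ∈ F, ((Z ^ 2) a a - 1) ^ 2 ≤ vC n d k ^ 2
  W : ∑ a ∈ F, (Z ^ 2) a a ^ 2 ≤ wC n d k ^ 2
  /-- the sharp bounds -/
  T4r : (Z ^ 4).trace * Nk n d k ≤ (sR n : ℝ) ^ 2004
  V2r : gV2 F Z ≤ thC n d k
  Vr : gV F Z ≤ thC n d k + Nk n d k
  Sr : Sd F Z ≤ (sR n : ℝ) ^ 104
  T2_ge : 1 ≤ (Z ^ 2).trace
  T2_le : (Z ^ 2).trace ≤ Nk n d k
  /-- `T₂ - 1 ≤ tgC + gC` -/
  TF : (Z ^ 2).trace - 1 ≤ tgC n d k + gC n d k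
  /-- `-(5d²+1) σ^384 ≤ ε T₁ ≤ -ρ` -/
  T1_le : ε * Z.trace ≤ -rhoC n d k
  T1_ge : -((5 * (d : ℝ) ^ 2 + 1) * (sR n : ℝ) ^ 384) ≤ ε * Z.trace
  T3_le : ε * (Z ^ 3).trace ≤ (3 * (d : ℝ) ^ 2 + 1) * (sR n : ℝ) ^ 1000

/-- the hypotheses of the rate lemmas of the phase IIIa -/
structure EnvC (n d k : ℕ) (F : Finset ι) (Zp Zm : Matrix ι ι ℝ) (forb : ι → ι → Prop) : Prop where
  d3 : 3 ≤ d
  k_ge : k2 n d ≤ k
  k_lt : k < k3 n d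
  card : (F.card : ℝ) = Nk n d k
  p : OneC n d k 1 F Zp
  m : OneC n d k (-1) F Zm
  tp : Tilt.TPar F forb (lam n) ((d : ℝ) * (d + 1))

end Vale.Agent.P049.TS.Asm
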