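import Vale.Agent.P049.TS.Asm.Par
import Vale.Agent.P049.TS.Asm.GV2
import Vale.Agent.P049.TS.Final.AdmOK

/-!
The potential of the FINAL phase `k4 ≤ k < k5` (helper49 NOTE 5): `N_k` from `σ^530` down to `σ^341`.

`PhiF = Σ_ε (T₂ - 1) σ^683 / N² + S₁ σ^540 / N + V₂ σ^656 / N²`.
-/

namespace Vale.Agent.P049.TS.Asm

open Matrix Finset

/-- first `k` with `N_k ≤ σ^530` (start of the final phase) -/
def k4 (n d : ℕ) : ℕ := (n * d - sR n ^ 530 + 1) / 2

/-- the number of steps: `N_{k5}` is `σ^341` or `σ^341 + 1` -/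
def k5 (n d : ℕ) : ℕ := (n * d - sR n ^ 341) / 2

variable {ι : Type*} [Fintype ι] [DecidableEq ι]

/-- potential of `T₂ - 1` -/
noncomputable def fT2F (n d k : ℕ) (Z : Matrix ι ι ℝ) : ℝ :=
  ((Z ^ 2).trace - 1) * (sR n : ℝ) ^ 683 / Nk n d k ^ 2

/-- potential of `S₁` -/
noncomputable def fSF (n d k : ℕ) (F : Finset ι) (Z : Matrix ι ι ℝ) : ℝ :=
  Sd F Z * (sR n : ℝ) ^ 540 / Nk n d k

/-- potential of `V₂` -/
noncomputable def fV2F (n d k : ℕ) (F : Finset ι) (Z : Matrix ι ι ℝ) : ℝ :=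
  gV2 F Z * (sR n : ℝ) ^ 656 / Nk n d k ^ 2

/-- the potentials of one sign -/
noncomputable def fOneF (n d k : ℕ) (F : Finset ι) (Z : Matrix ι ι ℝ) : ℝ :=
  fT2F n d k Z + fSF n d k F Z + fV2F n d k F Z

/-- the potential of the final phase -/
noncomputable def PhiF (n d k : ℕ) (s : RSt ι) : ℝ :=
  fOneF n d k s.F s.Zp + fOneF n d k s.F s.Zm

/-- `t`: `T₂ ≤ t² = 2 (N / σ^341)²` -/
noncomputable def tF (n d k : ℕ) : ℝ := √2 * mo (LL n) (XX n d k) (-341) 1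
/-- `σ² = N / σ^540` -/
noncomputable def sF (n d k : ℕ) : ℝ := mo (LL n) (XX n d k) (-270) (1 / 2)
/-- `v² = N² / σ^656` -/
noncomputable def vF (n d k : ℕ) : ℝ := mo (LL n) (XX n d k) (-328) 1
/-- `ν² = N` -/
noncomputable def nF (n d k : ℕ) : ℝ := mo (LL n) (XX n d k) 0 (1 / 2)
/-- `m² = C(d) N` -/
noncomputable def mF (n d k : ℕ) : ℝ := (d + 25) * mo (LL n) (XX n d k) 0 (1 / 2)
/-- the bound of the degrees of the non-admissible pairs -/
noncomputable def GF (n d k : ℕ) : ℝ :=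
  1 + (d : ℝ) * (d + 1) + 128 * vF n d k + 128 * sF n d k ^ 4
/-- the norm of the non-admissible pairs -/
noncomputable def LF (n d k : ℕ) : ℝ :=
  1 + (d : ℝ) * (d + 1) + 16 * tF n d k + 16 * sF n d k ^ 2

/-- what `PhiF ≤ 1` and the structure of the process give for one sign -/
structure OneF (n d k : ℕ) (ε : ℝ) (F : Finset ι) (Z : Matrix ι ι ℝ) : Prop where
  base : ZBase F Z
  bds : Bds F Z (tF n d k) (sF n d k) (vF n d k) (nF n d k) (tF n d k)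
  sg : Sg F Z (√((d : ℝ) - 1))⁻¹ ε
  T2_ge : 1 ≤ (Z ^ 2).trace
  T2_le : (Z ^ 2).trace - 1 ≤ Nk n d k ^ 2 / (sR n : ℝ) ^ 683

/-- the hypotheses of the rate lemmas of the final phase -/
structure EnvF (n d k : ℕ) (F : Finset ι) (Zp Zm : Matrix ι ι ℝ) (forb : ι → ι → Prop) : Prop where
  d3 : 3 ≤ d
  k_ge : k4 n d ≤ k
  k_lt : k < k5 n d
  card : (F.card : ℝ) = Nk n d k
  p : OneF n d k 1 F Zp
  m : OneF n d k (-1) F Zm
  fo : ForbOK F forb ((d : ℝ) * (d + 1))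

/-- the right-hand side of all rate lemmas: `σ^(-1) N` -/
noncomputable def rF (n d k : ℕ) : ℝ := mo (LL n) (XX n d k) (-1) 1

end Vale.Agent.P049.TS.Asm
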