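import Vale.Agent.P049.TS.Asm.Par
import Vale.Agent.P049.TS.Drift.T12d
import Vale.Agent.P049.TS.Tilt.Tk

/-!
Facts about the base `σ = sR n`, the thresholds `k1, k2`, the numbers `N_k`, and the conversion of
`EnvA` to the hypotheses of the drift and tilt lemmas.
-/

set_option linter.unusedSectionVars false

namespace Vale.Agent.P049.TS.Asm

open Matrix Finset

variable {n d k : ℕ}

/-! ### The base -/

/-- `σ → ∞` -/
theorem exists_sR_ge (s₀ : ℕ) : ∃ n₀, ∀ n ≥ n₀, s₀ ≤ sR n := by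
  refine ⟨max s₀ (s₀ ^ 1000), fun n hn => ?_⟩
  exact Nat.le_findGreatest (le_trans (le_max_left _ _) hn) (le_trans (le_max_right _ _) hn)

theorem exp_half_le_two : Real.exp (1 / 2) ≤ 2 := by
  have h1 : Real.exp (1 / 2) ^ 2 = Real.exp 1 := by rw [← Real.exp_nat_mul]; norm_num
  have h2 := Real.exp_one_lt_d9
  have h3 := Real.exp_pos (1 / 2)
  nlinarith

theorem add_one_pow_le {x : ℝ} (hx : 0 < x) (m : ℕ) (h : 2 * (m : ℝ) ≤ x) :
    (x + 1) ^ m ≤ 2 * x ^ m := by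
  have h2 : (x⁻¹ + 1) ^ m ≤ 2 := by
    have e : (x⁻¹ + 1) ^ m ≤ Real.exp (1 / 2) := by
      calc (x⁻¹ + 1) ^ m ≤ Real.exp (x⁻¹) ^ m :=
            pow_le_pow_left₀ (by positivity) (Real.add_one_le_exp _) _
        _ = Real.exp ((m : ℝ) * x⁻¹) := (Real.exp_nat_mul _ _).symm
        _ ≤ Real.exp (1 / 2) := by
            apply Real.exp_le_exp.2
            rw [← div_eq_mul_inv, div_le_iff₀ hx]
            linarith
    exact e.trans exp_half_le_two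
  have h3 : (x + 1) ^ m = x ^ m * (x⁻¹ + 1) ^ m := by
    rw [← mul_pow]
    congr 1
    field_simp
    ring
  rw [h3, mul_comm (2 : ℝ)]
  exact mul_le_mul_of_nonneg_left h2 (by positivity)

theorem n_le_two_mul (h : 2000 ≤ sR n) : (n : ℝ) ≤ 2 * (sR n : ℝ) ^ 1000 := by
  have h0 : (0 : ℝ) < sR n := by
    have : 0 < sR n := by omega
    exact_mod_cast this
  have h1 : (n : ℝ) ≤ ((sR n : ℝ) + 1) ^ 1000 := by
    have := (lt_sR_succ_pow n).le
    exact_mod_cast this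
  refine h1.trans (add_one_pow_le h0 1000 ?_)
  have : (2000 : ℝ) ≤ sR n := by exact_mod_cast h
  push_cast
  linarith

theorem n_ge : ((sR n : ℝ)) ^ 1000 ≤ n := by exact_mod_cast sR_pow_le n

theorem LL_nonneg (n : ℕ) (h : 1 ≤ sR n) : 0 ≤ LL n :=
  Real.log_nonneg (by exact_mod_cast h)

theorem exp_LL (h : 1 ≤ sR n) : Real.exp (LL n) = sR n := by
  unfold LL
  exact Real.exp_log (by exact_mod_cast (by omega : 0 < sR n))

/-- powers of `σ` are monomials -/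
theorem sR_pow (h : 1 ≤ sR n) (X : ℝ) (j : ℕ) : (sR n : ℝ) ^ j = mo (LL n) X j 0 := by
  rw [mo_natpow, exp_LL h]

theorem lam_eq (h : 1 ≤ sR n) (X : ℝ) : lam n = mo (LL n) X 186 0 := by
  unfold lam
  rw [sR_pow h X]
  norm_num

/-! ### The thresholds -/

theorem lt_of_lt_k2 (hk : k < k2 n d) : 2 * k + sR n ^ 699 < n * d := by
  unfold k2 at hk
  omega

theorem lt_of_lt_k1 (hk : k < k1 n d) : 2 * k + sR n ^ 802 < n * d := by
  unfold k1 at hk
  omega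

theorem le_of_k1_le (hk : k1 n d ≤ k) : n * d ≤ 2 * k + sR n ^ 802 := by
  unfold k1 at hk
  omega

theorem le_of_k2_le (hk : k2 n d ≤ k) : n * d ≤ 2 * k + sR n ^ 699 := by
  unfold k2 at hk
  omega

theorem two_k1_le : 2 * k1 n d + sR n ^ 802 ≤ n * d + 1 ∨ k1 n d = 0 := by
  unfold k1
  omega

theorem k1_le_k2 (h : 1 ≤ sR n) : k1 n d ≤ k2 n d := by
  unfold k1 k2
  have : sR n ^ 699 ≤ sR n ^ 802 := Nat.pow_le_pow_right h (by norm_num)
  omega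

theorem Nk_gt (hk : k < k2 n d) : (sR n : ℝ) ^ 699 < Nk n d k := by
  have h := lt_of_lt_k2 hk
  unfold Nk
  have : ((2 * k + sR n ^ 699 : ℕ) : ℝ) < ((n * d : ℕ) : ℝ) := by exact_mod_cast h
  push_cast at this
  linarith

theorem Nk_gt1 (hk : k < k1 n d) : (sR n : ℝ) ^ 802 < Nk n d k := by
  have h := lt_of_lt_k1 hk
  unfold Nk
  have : ((2 * k + sR n ^ 802 : ℕ) : ℝ) < ((n * d : ℕ) : ℝ) := by exact_mod_cast h
  push_cast at this
  linarith

theorem Nk_le1 (hk : k1 n d ≤ k) : Nk n d k ≤ (sR n : ℝ) ^ 802 := by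
  have h := le_of_k1_le hk
  unfold Nk
  have : ((n * d : ℕ) : ℝ) ≤ ((2 * k + sR n ^ 802 : ℕ) : ℝ) := by exact_mod_cast h
  push_cast at this
  linarith

theorem Nk_le2 (hk : k2 n d ≤ k) : Nk n d k ≤ (sR n : ℝ) ^ 699 := by
  have h := le_of_k2_le hk
  unfold Nk
  have : ((n * d : ℕ) : ℝ) ≤ ((2 * k + sR n ^ 699 : ℕ) : ℝ) := by exact_mod_cast h
  push_cast at this
  linarith

theorem Nk_le (n d k : ℕ) : Nk n d k ≤ (n : ℝ) * d := by
  unfold Nk
  have : (0 : ℝ) ≤ k := Nat.cast_nonneg k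
  linarith

theorem Nk_pos (h : 1 ≤ sR n) (hk : k < k2 n d) : 0 < Nk n d k := by
  have h1 := Nk_gt hk
  have : (0 : ℝ) ≤ (sR n : ℝ) ^ 699 := by positivity
  linarith

theorem Nk_succ (n d k : ℕ) : Nk n d (k + 1) = Nk n d k - 2 := by
  unfold Nk; push_cast; ring

theorem Nk_eq_mo (h : 0 < Nk n d k) (L : ℝ) : Nk n d k = mo L (XX n d k) 0 1 := by
  rw [mo_N]; unfold XX; exact (Real.exp_log h).symm

/-! ### The range -/

theorem log_le_of_le {a b : ℝ} (ha : 0 < a) (h : a ≤ b) : Real.log a ≤ Real.log b :=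
  Real.log_le_log ha h

/-- the constant `c₀ = log (2d)` -/
noncomputable def cc (d : ℕ) : ℝ := Real.log (2 * d)

theorem cc_nonneg (hd : 3 ≤ d) : 0 ≤ cc d := by
  apply Real.log_nonneg
  have : (3 : ℝ) ≤ d := by exact_mod_cast hd
  linarith

theorem XX_le (h : 2000 ≤ sR n) (hd : 3 ≤ d) (hk : 0 < Nk n d k) :
    XX n d k ≤ 1000 * LL n + cc d := by
  have hσ : (0 : ℝ) < sR n := by exact_mod_cast (by omega : 0 < sR n)
  have hd' : (0 : ℝ) < d := by exact_mod_cast (by omega : 0 < d)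
  have h1 : Nk n d k ≤ 2 * d * (sR n : ℝ) ^ 1000 := by
    have := Nk_le n d k
    have := n_le_two_mul h
    nlinarith
  unfold XX LL cc
  have h2 := Real.log_le_log hk h1
  rw [Real.log_mul (by positivity) (by positivity), Real.log_pow] at h2
  push_cast at h2
  linarith

/-- the whole range of the phases I and II -/
theorem rng (h : 2000 ≤ sR n) (hd : 3 ≤ d) (hk : k < k2 n d) :
    Rng (LL n) (XX n d k) (cc d) 699 1000 := by
  have hσ : (0 : ℝ) < sR n := by exact_mod_cast (by omega : 0 < sR n)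
  have hN := Nk_pos (by omega) hk
  refine ⟨LL_nonneg n (by omega), cc_nonneg hd, ?_, XX_le h hd hN⟩
  have h1 := Real.log_le_log (by positivity) (Nk_gt hk).le
  rw [Real.log_pow] at h1
  push_cast at h1
  exact h1

/-- the range of the phase I -/
theorem rng1 (h : 2000 ≤ sR n) (hd : 3 ≤ d) (hk : k < k1 n d) :
    Rng (LL n) (XX n d k) (cc d) 802 1000 := by
  have hσ : (0 : ℝ) < sR n := by exact_mod_cast (by omega : 0 < sR n)
  have hN : 0 < Nk n d k := lt_of_le_of_lt (by positivity) (Nk_gt1 hk)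
  refine ⟨LL_nonneg n (by omega), cc_nonneg hd, ?_, XX_le h hd hN⟩
  have h1 := Real.log_le_log (by positivity) (Nk_gt1 hk).le
  rw [Real.log_pow] at h1
  push_cast at h1
  exact h1

/-- the range of the phase II -/
theorem rng2 (h : 2000 ≤ sR n) (hd : 3 ≤ d) (hk1 : k1 n d ≤ k) (hk : k < k2 n d) :
    Rng (LL n) (XX n d k) (cc d) 699 802 := by
  have hσ : (0 : ℝ) < sR n := by exact_mod_cast (by omega : 0 < sR n)
  have hN := Nk_pos (by omega) hk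
  refine ⟨LL_nonneg n (by omega), cc_nonneg hd, (rng h hd hk).lo, ?_⟩
  have h1 := Real.log_le_log hN (Nk_le1 hk1)
  rw [Real.log_pow] at h1
  push_cast at h1
  have := cc_nonneg hd
  unfold XX LL
  linarith

/-! ### `EnvA` gives the hypotheses of the drift and tilt lemmas -/

variable {ι : Type*} [Fintype ι] [DecidableEq ι]
variable {F : Finset ι} {Zp Zm Z : Matrix ι ι ℝ} {forb : ι → ι → Prop} {ε : ℝ}

theorem bP_nonneg (n d k : ℕ) : 0 ≤ bP n d k := mo_nonneg _ _ _ _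
theorem tP_nonneg (n d k : ℕ) : 0 ≤ tP n d k := mul_nonneg (Real.sqrt_nonneg _) (mo_nonneg _ _ _ _)
theorem sP_nonneg (n d k : ℕ) : 0 ≤ sP n d k := mo_nonneg _ _ _ _
theorem vP_nonneg (n d k : ℕ) : 0 ≤ vP n d k := by
  unfold vP; split_ifs <;> exact mo_nonneg _ _ _ _
theorem wP_nonneg (n d k : ℕ) : 0 ≤ wP n d k := mul_nonneg (by norm_num) (mo_nonneg _ _ _ _)
theorem cP_nonneg (n d k : ℕ) : 0 ≤ cP n d k := mo_nonneg _ _ _ _

theorem OneA.ctl (h : OneA n d k ε F Z) :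
    D12.Ctl F Z (bP n d k) (tP n d k) (sP n d k) (vP n d k) (wP n d k) where
  symm := h.symm
  supp := h.supp
  row := h.row
  b0 := bP_nonneg _ _ _
  t0 := tP_nonneg _ _ _
  s0 := sP_nonneg _ _ _
  v0 := vP_nonneg _ _ _
  w0 := wP_nonneg _ _ _
  T4 := h.T4
  T2 := h.T2
  X0 := by
    have h1 := h.T4
    have h2 := h.T2N
    linarith
  S := h.S
  V := h.V
  W := h.W

theorem OneA.one (h : OneA n d k ε F Z) :
    Tilt.One F Z (bP n d k) (tP n d k) (sP n d k) (vP n d k) where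
  symm := h.symm
  supp := h.supp
  T4 := h.T4
  T2 := h.T2
  S := h.S
  V := h.V

theorem OneA.opB (h : OneA n d k ε F Z) : Mat.OpB Z (bP n d k) :=
  Mat.opB_of_trace_four h.symm h.T4

theorem EnvA.oneA (h : EnvA n d k F Zp Zm forb) (hs : Sgn Zp Zm ε Z) : OneA n d k ε F Z := by
  rcases hs with ⟨rfl, rfl⟩ | ⟨rfl, rfl⟩
  · exact h.p
  · exact h.m

theorem Sgn.isPair (hs : Sgn Zp Zm ε Z) : ∃ Z', Tilt.IsPair Zp Zm Z Z' := by
  rcases hs with ⟨rfl, rfl⟩ | ⟨rfl, rfl⟩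
  · exact ⟨_, Or.inl ⟨rfl, rfl⟩⟩
  · exact ⟨_, Or.inr ⟨rfl, rfl⟩⟩

theorem Sgn.sq (hs : Sgn Zp Zm ε Z) : ε ^ 2 = 1 := by
  rcases hs with ⟨rfl, rfl⟩ | ⟨rfl, rfl⟩ <;> norm_num

theorem Sgn.abs (hs : Sgn Zp Zm ε Z) : |ε| = 1 := by
  rcases hs with ⟨rfl, rfl⟩ | ⟨rfl, rfl⟩ <;> norm_num

theorem EnvA.two (h : EnvA n d k F Zp Zm forb) (hk : k < k1 n d) :
    Tilt.Two F Zp Zm (bP n d k) (tP n d k) (sP n d k) (vP n d k) (cP n d k) where
  b0 := bP_nonneg _ _ _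
  t0 := tP_nonneg _ _ _
  s0 := sP_nonneg _ _ _
  v0 := vP_nonneg _ _ _
  cw0 := cP_nonneg _ _ _
  p := h.p.one
  m := h.m.one
  W := h.Wc hk

theorem lam_pos (h : 1 ≤ sR n) : 0 < lam n := by
  unfold lam
  have : (0 : ℝ) < sR n := by exact_mod_cast h
  positivity

theorem abs_hA_le (h : EnvA n d k F Zp Zm forb) (a b : ι) :
    |hA n d k F forb Zp Zm a b| ≤ 1 / 2 := by
  unfold hA
  split_ifs
  · exact Tilt.abs_hT_le_half h.tp.lam0 a b
  · simp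

/-- the parameter `H` of the drift lemmas -/
noncomputable def HP (n d k : ℕ) : ℝ := if k < k1 n d then 2 * lam n * tP n d k else 0

theorem HP_nonneg (n d k : ℕ) : 0 ≤ HP n d k := by
  unfold HP lam
  split_ifs
  · have := tP_nonneg n d k
    positivity
  · exact le_rfl

theorem sum_hA_sq_le (h : EnvA n d k F Zp Zm forb) (A : Finset (ι × ι)) :
    ∑ p ∈ A, hA n d k F forb Zp Zm p.1 p.2 ^ 2 ≤ HP n d k ^ 2 := by
  unfold hA HP
  by_cases hk : k < k1 n d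
  · simp only [if_pos hk]
    exact (h.two hk).sum_hT_sq_le h.tp A
  · simp [if_neg hk]

theorem adm_ok (Zp Zm : Matrix ι ι ℝ) (hs : Sgn Zp Zm ε Z) :
    ∀ p ∈ adm F forb Zp Zm, p.1 ≠ p.2 ∧ PairOK Z p.1 p.2 := by
  intro p hp
  have h1 := mem_adm.1 hp
  rcases hs with ⟨rfl, rfl⟩ | ⟨rfl, rfl⟩
  · exact ⟨h1.2.1, h1.2.2.2.1⟩
  · exact ⟨h1.2.1, h1.2.2.2.2⟩

/-- the parameter `e` of the drift lemmas: `#E ≤ e²` -/
noncomputable def eP (n d k : ℕ) : ℝ := (d + 25) * mo (LL n) (XX n d k) 0 (1 / 2)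

theorem eP_nonneg (n d k : ℕ) : 0 ≤ eP n d k :=
  mul_nonneg (by positivity) (mo_nonneg _ _ _ _)

theorem tP_sq (h : 0 < Nk n d k) : tP n d k ^ 2 = 2 * Nk n d k := by
  unfold tP
  rw [mul_pow, Real.sq_sqrt (by norm_num), mo_pow, Nk_eq_mo h (LL n)]
  norm_num

theorem wP_sq (h : 0 < Nk n d k) : wP n d k ^ 2 = 4 * Nk n d k := by
  unfold wP
  rw [mul_pow, mo_pow, Nk_eq_mo h (LL n)]
  norm_num

theorem eP_sq (h : 0 < Nk n d k) : eP n d k ^ 2 = ((d : ℝ) + 25) ^ 2 * Nk n d k := by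
  unfold eP
  rw [mul_pow, mo_pow, Nk_eq_mo h (LL n)]
  norm_num

theorem sP_sq (h : 1 ≤ sR n) : sP n d k ^ 2 = (sR n : ℝ) ^ 80 := by
  unfold sP
  rw [mo_pow, sR_pow h (XX n d k)]
  norm_num

theorem bP_four (h : 0 < Nk n d k) (h1 : 1 ≤ sR n) :
    bP n d k ^ 4 = (sR n : ℝ) ^ 2003 / Nk n d k := by
  unfold bP
  rw [mo_pow, Nk_eq_mo h (LL n), sR_pow h1 (XX n d k), mo_div]
  norm_num

theorem cP_sq (h : 0 < Nk n d k) (h1 : 1 ≤ sR n) :
    cP n d k ^ 2 = (sR n : ℝ) ^ 60 * Nk n d k := by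
  unfold cP
  rw [mo_pow, Nk_eq_mo h (LL n), sR_pow h1 (XX n d k), mo_mul]
  norm_num

theorem vP_sq (h : 1 ≤ sR n) :
    vP n d k ^ 2 = if k < k1 n d then (sR n : ℝ) ^ 610 else (sR n : ℝ) ^ 690 := by
  unfold vP
  split_ifs <;> rw [mo_pow, sR_pow h (XX n d k)] <;> norm_num

theorem card_compl_le (h : EnvA n d k F Zp Zm forb) (hσ : 1 ≤ sR n) :
    ((((F ×ˢ F) \ adm F forb Zp Zm).card : ℕ) : ℝ) ≤ eP n d k ^ 2 := by
  classical
  have hN := Nk_pos hσ h.k_lt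
  have h1 := card_compl_adm_le (F := F) (forb := forb) (Zp := Zp) (Zm := Zm)
    (Δ := (d : ℝ) * (d + 1)) (h.tp.card)
  have hp := h.p.one.frob1
  have hm := h.m.one.frob1
  rw [tP_sq hN] at hp hm
  have hSp : Sd F Zp ≤ (sR n : ℝ) ^ 80 := by
    have := h.p.S
    rw [sP_sq hσ] at this
    exact this
  have hSm : Sd F Zm ≤ (sR n : ℝ) ^ 80 := by
    have := h.m.S
    rw [sP_sq hσ] at this
    exact this
  have hs1 : (1 : ℝ) ≤ sR n := by exact_mod_cast hσ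
  have hN2 : (sR n : ℝ) ^ 160 ≤ Nk n d k :=
    (pow_le_pow_right₀ hs1 (by norm_num)).trans (Nk_gt h.k_lt).le
  have e1 : Sd F Zp ^ 2 ≤ (sR n : ℝ) ^ 160 := by
    calc Sd F Zp ^ 2 ≤ ((sR n : ℝ) ^ 80) ^ 2 := pow_le_pow_left₀ (Sd_nonneg _ _) hSp 2
      _ = _ := by rw [← pow_mul]
  have e2 : Sd F Zm ^ 2 ≤ (sR n : ℝ) ^ 160 := by
    calc Sd F Zm ^ 2 ≤ ((sR n : ℝ) ^ 80) ^ 2 := pow_le_pow_left₀ (Sd_nonneg _ _) hSm 2
      _ = _ := by rw [← pow_mul]
  rw [eP_sq hN]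
  rw [h.card] at h1
  have hp' : frob Zp ≤ 2 * Nk n d k := hp
  have hm' : frob Zm ≤ 2 * Nk n d k := hm
  have hd : (0 : ℝ) ≤ d := Nat.cast_nonneg d
  nlinarith

end Vale.Agent.P049.TS.Asm
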