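import Vale.Agent.P049.TS.Avg.Adm
import Vale.Agent.P049.TS.Alg.RSt

/-!
Forbidden pairs and admissible pairs of a state of the stub process.

`forbS vert s a b`: the stubs `a`, `b` are at the same vertex or at adjacent vertices.
`admS vert s`: the admissible ordered pairs. Every stub has at most `d (d + 1)` forbidden partners.
-/

set_option linter.unusedSectionVars false

namespace Vale.Agent.P049.TS.Asm

open Finset Matrix

variable {ι V : Type*} [Fintype ι] [DecidableEq ι]

/-- the vertices of the stubs `a`, `b` are equal or adjacent -/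
def forbS (vert : ι → V) (s : RSt ι) (a b : ι) : Prop :=
  vert a = vert b ∨ ∃ e ∈ s.E, s(vert e.1, vert e.2) = s(vert a, vert b)

theorem forbS_comm {vert : ι → V} {s : RSt ι} {a b : ι} :
    forbS vert s a b ↔ forbS vert s b a := by
  unfold forbS
  rw [eq_comm (a := vert a), Sym2.eq_swap (a := vert a)]

/-- the admissible ordered pairs of a state -/
noncomputable def admS (vert : ι → V) (s : RSt ι) : Finset (ι × ι) :=
  adm s.F (forbS vert s) s.Zp s.Zm

theorem admS_subset (vert : ι → V) (s : RSt ι) : admS vert s ⊆ s.F ×ˢ s.F := adm_subset _ _ _ _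

theorem mem_admS {vert : ι → V} {s : RSt ι} {p : ι × ι} :
    p ∈ admS vert s ↔ (p.1 ∈ s.F ∧ p.2 ∈ s.F) ∧ p.1 ≠ p.2 ∧ ¬ forbS vert s p.1 p.2 ∧
      PairOK s.Zp p.1 p.2 ∧ PairOK s.Zm p.1 p.2 := mem_adm

/-- admissible pairs can be joined -/
theorem adm_of_mem_admS {vert : ι → V} {s : RSt ι} {p : ι × ι} (h : p ∈ admS vert s) :
    s.Adm vert (5 / 8) p.1 p.2 := by
  obtain ⟨⟨h1, h2⟩, -, h4, h5, h6⟩ := mem_admS.1 h
  unfold forbS at h4
  push Not at h4
  exact ⟨h1, h2, h4.1, h4.2, h5.al_ge, h6.al_ge⟩

/-- number of joined and free stubs at a vertex -/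
theorem Reach.count [DecidableEq V] {vert : ι → V} {d k : ℕ} {s : RSt ι}
    (h : Reach vert (start vert d) k s) (v : V) :
    (s.E.map fun e => (if vert e.1 = v then 1 else 0) + (if vert e.2 = v then 1 else 0)).sum +
      (s.F.filter fun i => vert i = v).card = (Finset.univ.filter fun i => vert i = v).card := by
  induction h with
  | zero => simp [start]
  | @succ k s a b c h hc hadm ih =>
    have hab := hadm.ne
    rw [← ih]
    simp only [RSt.join, List.map_cons, List.sum_cons]
    have e1 : (s.F.filter fun i => vert i = v).card =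
        ((s.F.erase a).filter fun i => vert i = v).card + if vert a = v then 1 else 0 := by
      rw [Finset.filter_erase]
      split_ifs with ha
      · exact (Finset.card_erase_add_one (Finset.mem_filter.2 ⟨hadm.memA, ha⟩)).symm
      · have : a ∉ s.F.filter fun i => vert i = v := fun hm => ha (Finset.mem_filter.1 hm).2
        rw [Finset.erase_eq_of_notMem this, add_zero]
    have e2 : ((s.F.erase a).filter fun i => vert i = v).card =
        (((s.F.erase a).erase b).filter fun i => vert i = v).card +
          if vert b = v then 1 else 0 := by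
      rw [Finset.filter_erase _ _ (s.F.erase a)]
      split_ifs with hb
      · exact (Finset.card_erase_add_one (Finset.mem_filter.2
          ⟨Finset.mem_erase.2 ⟨hab.symm, hadm.memB⟩, hb⟩)).symm
      · have : b ∉ (s.F.erase a).filter fun i => vert i = v :=
          fun hm => hb (Finset.mem_filter.1 hm).2
        rw [Finset.erase_eq_of_notMem this, add_zero]
    rw [e1, e2]
    ring

open Classical in
theorem card_exists_le {α : Type*} (E : List α) (P : α → ι → Prop) :
    (Finset.univ.filter fun b => ∃ e ∈ E, P e b).card ≤
      (E.map fun e => (Finset.univ.filter fun b => P e b).card).sum := by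
  induction E with
  | nil => simp
  | cons e E ih =>
    have h1 : (Finset.univ.filter fun b => ∃ e' ∈ e :: E, P e' b) ⊆
        (Finset.univ.filter fun b => P e b) ∪ (Finset.univ.filter fun b => ∃ e' ∈ E, P e' b) := by
      intro b hb
      obtain ⟨e', he', hb'⟩ := (Finset.mem_filter.1 hb).2
      rw [Finset.mem_union, Finset.mem_filter, Finset.mem_filter]
      rcases List.mem_cons.1 he' with rfl | h
      · exact Or.inl ⟨Finset.mem_univ _, hb'⟩
      · exact Or.inr ⟨Finset.mem_univ _, e', h, hb'⟩
    refine (Finset.card_le_card h1).trans ((Finset.card_union_le _ _).trans ?_)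
    rw [List.map_cons, List.sum_cons]
    exact Nat.add_le_add le_rfl ih

/-- every stub has at most `d (d + 1)` forbidden partners -/
theorem card_forbS_le [DecidableEq V] {vert : ι → V} {d k : ℕ} {s : RSt ι}
    (hfib : ∀ v, (Finset.univ.filter fun i => vert i = v).card = d)
    (h : Reach vert (start vert d) k s) (a : ι) [DecidablePred fun b => forbS vert s a b] :
    (s.F.filter fun b => forbS vert s a b).card ≤ d * (d + 1) := by
  classical
  have h1 : (s.F.filter fun b => forbS vert s a b) ⊆
      (Finset.univ.filter fun b => vert b = vert a) ∪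
      (Finset.univ.filter fun b => ∃ e ∈ s.E, s(vert e.1, vert e.2) = s(vert a, vert b)) := by
    intro b hb
    rw [Finset.mem_union, Finset.mem_filter, Finset.mem_filter]
    rcases (Finset.mem_filter.1 hb).2 with h | h
    · exact Or.inl ⟨Finset.mem_univ _, h.symm⟩
    · exact Or.inr ⟨Finset.mem_univ _, h⟩
  have h2 : (Finset.univ.filter fun b =>
      ∃ e ∈ s.E, s(vert e.1, vert e.2) = s(vert a, vert b)).card ≤ d * d := by
    have h0 := card_exists_le s.E fun e b => s(vert e.1, vert e.2) = s(vert a, vert b)
    have h3 : ∀ e : ι × ι, (Finset.univ.filter fun b =>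
        s(vert e.1, vert e.2) = s(vert a, vert b)).card ≤
        d * ((if vert e.1 = vert a then 1 else 0) + (if vert e.2 = vert a then 1 else 0)) := by
      intro e
      have h4 : (Finset.univ.filter fun b => s(vert e.1, vert e.2) = s(vert a, vert b)) ⊆
          (Finset.univ.filter fun b => vert e.1 = vert a ∧ vert b = vert e.2) ∪
          (Finset.univ.filter fun b => vert e.2 = vert a ∧ vert b = vert e.1) := by
        intro b hb
        have hb := (Finset.mem_filter.1 hb).2
        rw [Sym2.eq_iff] at hb
        rw [Finset.mem_union, Finset.mem_filter, Finset.mem_filter]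
        rcases hb with ⟨h, h'⟩ | ⟨h, h'⟩
        · exact Or.inl ⟨Finset.mem_univ _, h, h'.symm⟩
        · exact Or.inr ⟨Finset.mem_univ _, h', h.symm⟩
      have h5 : ∀ x y : V, (Finset.univ.filter fun b => x = vert a ∧ vert b = y).card ≤
          d * if x = vert a then 1 else 0 := by
        intro x y
        split_ifs with hx
        · rw [mul_one, ← hfib y]
          refine Finset.card_le_card fun b hb => ?_
          exact Finset.mem_filter.2 ⟨Finset.mem_univ _, (Finset.mem_filter.1 hb).2.2⟩
        · rw [mul_zero]
          refine le_of_eq (Finset.card_eq_zero.2 (Finset.filter_eq_empty_iff.2 fun b _ h => ?_))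
          exact hx h.1
      refine (Finset.card_le_card h4).trans ((Finset.card_union_le _ _).trans ?_)
      rw [mul_add]
      exact Nat.add_le_add (h5 _ _) (h5 _ _)
    calc (Finset.univ.filter fun b =>
          ∃ e ∈ s.E, s(vert e.1, vert e.2) = s(vert a, vert b)).card
        ≤ (s.E.map fun e => (Finset.univ.filter fun b =>
            s(vert e.1, vert e.2) = s(vert a, vert b)).card).sum := by convert h0
      _ ≤ (s.E.map fun e => d * ((if vert e.1 = vert a then 1 else 0) +
            (if vert e.2 = vert a then 1 else 0))).sum :=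
          List.sum_le_sum fun e _ => h3 e
      _ = d * (s.E.map fun e => ((if vert e.1 = vert a then 1 else 0) +
            (if vert e.2 = vert a then 1 else 0))).sum := List.sum_map_mul_left ..
      _ ≤ d * d := by
          refine Nat.mul_le_mul_left _ ?_
          have := Reach.count h (vert a)
          rw [hfib] at this
          exact Nat.le.intro this
  refine (Finset.card_le_card h1).trans ((Finset.card_union_le _ _).trans ?_)
  rw [hfib]
  calc d + _ ≤ d + d * d := Nat.add_le_add le_rfl h2
    _ = d * (d + 1) := by ring

/-- the number of non-admissible ordered pairs -/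
theorem card_compl_admS_le [DecidableEq V] {vert : ι → V} {d k : ℕ} {s : RSt ι}
    (hfib : ∀ v, (Finset.univ.filter fun i => vert i = v).card = d)
    (h : Reach vert (start vert d) k s) :
    ((((s.F ×ˢ s.F) \ admS vert s).card : ℕ) : ℝ) ≤
      (1 + d * (d + 1)) * s.F.card + 64 * (frob s.Zp + Sd s.F s.Zp ^ 2) +
        64 * (frob s.Zm + Sd s.F s.Zm ^ 2) := by
  classical
  have := card_compl_adm_le (F := s.F) (forb := forbS vert s) (Zp := s.Zp) (Zm := s.Zm)
    (Δ := (d : ℝ) * (d + 1)) fun a _ => by exact_mod_cast card_forbS_le hfib h a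
  exact this

end Vale.Agent.P049.TS.Asm
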