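import Vale.Agent.P049.TS.Asm.Tgt
import Vale.Agent.P049.TS.Asm.Forb

/-!
`Reach` and `PhiA ≤ 1` give `EnvA`.
-/

set_option linter.unusedSectionVars false
set_option exponentiation.threshold 3000

namespace Vale.Agent.P049.TS.Asm

open Matrix Finset

variable {n d k : ℕ}
variable {ι : Type*} [Fintype ι] [DecidableEq ι] {F : Finset ι} {Z Zp Zm : Matrix ι ι ℝ} {ε : ℝ}

theorem sR_pos (h : 2000 ≤ sR n) : (0 : ℝ) < sR n := by linarith [sR_one h]

/-! ### nonnegativity of the potentials -/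

theorem f1_nonneg (n d k : ℕ) (ε : ℝ) (Z : Matrix ι ι ℝ) : 0 ≤ f1 n d k ε Z := by
  unfold f1; positivity

theorem fD_nonneg (n d k : ℕ) (Z : Matrix ι ι ℝ) : 0 ≤ fD n d k Z := by
  unfold fD; positivity

theorem f3_nonneg (n d k : ℕ) (ε : ℝ) (Z : Matrix ι ι ℝ) : 0 ≤ f3 n d k ε Z := by
  unfold f3; split_ifs <;> positivity

theorem f4_nonneg (hZ : Z.IsSymm) (h : 0 ≤ Nk n d k) : 0 ≤ f4 n d k Z := by
  unfold f4
  have : 0 ≤ (Z ^ 4).trace := by
    rw [Mat.trace_four_eq_frob hZ]; exact Mat.frob_nonneg _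
  positivity

theorem gV_nonneg (F : Finset ι) (Z : Matrix ι ι ℝ) : 0 ≤ gV F Z :=
  Finset.sum_nonneg fun _ _ => sq_nonneg _

theorem fV_nonneg (n d k : ℕ) (F : Finset ι) (Z : Matrix ι ι ℝ) : 0 ≤ fV n d k F Z := by
  unfold fV
  have := gV_nonneg F Z
  split_ifs <;> positivity

theorem fS_nonneg (n : ℕ) (F : Finset ι) (Z : Matrix ι ι ℝ) : 0 ≤ fS n F Z := by
  unfold fS
  have := Sd_nonneg F Z
  positivity

theorem trW_nonneg (hZ : Zp.IsSymm) (hZ' : Zm.IsSymm) : 0 ≤ (Zp ^ 2 * Zm ^ 2).trace := by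
  rw [← Tilt.frob_mul_eq_W hZ hZ']
  exact Mat.frob_nonneg _

theorem fW_nonneg (hZ : Zp.IsSymm) (hZ' : Zm.IsSymm) (h : 0 ≤ Nk n d k) :
    0 ≤ fW n d k Zp Zm := by
  unfold fW
  have := trW_nonneg hZ hZ'
  split_ifs <;> positivity

/-! ### the diagonal sums -/

theorem sum_F_diag {M : Matrix ι ι ℝ} (hM : ∀ a, a ∉ F → M a a = 0) :
    ∑ a ∈ F, M a a = M.trace := by
  simp only [Matrix.trace, Matrix.diag]
  exact Finset.sum_subset (Finset.subset_univ F) fun a _ ha => hM a ha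

theorem sq_diag_supp (hs : ∀ a, a ∉ F → ∀ b, Z a b = 0) (a : ι) (ha : a ∉ F) :
    (Z ^ 2) a a = 0 := by
  rw [sq, Matrix.mul_apply]
  exact Finset.sum_eq_zero fun b _ => by rw [hs a ha b, zero_mul]

theorem sum_w_eq (hs : ∀ a, a ∉ F → ∀ b, Z a b = 0) :
    ∑ a ∈ F, (Z ^ 2) a a = (Z ^ 2).trace := sum_F_diag fun a ha => sq_diag_supp hs a ha

theorem sum_w_sq_eq (hs : ∀ a, a ∉ F → ∀ b, Z a b = 0) :
    ∑ a ∈ F, (Z ^ 2) a a ^ 2 = gV F Z + 2 * (Z ^ 2).trace - F.card := by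
  rw [← sum_w_eq hs]
  unfold gV
  rw [Finset.card_eq_sum_ones]
  push_cast
  rw [Finset.mul_sum, ← Finset.sum_add_distrib, ← Finset.sum_sub_distrib]
  exact Finset.sum_congr rfl fun a _ => by ring

/-! ### one sign -/

theorem lob_of_sg {m : ℝ} (h : Sg F Z m ε) (hm0 : 0 ≤ m) (hm1 : m ≤ 1) (hε : ε = 1 ∨ ε = -1)
    (v : ι → ℝ) : 0 ≤ ε * (v ⬝ᵥ (Z *ᵥ v)) + v ⬝ᵥ v := by
  have h1 := h.lo v
  have hN : (0 : ℝ) < F.card := by exact_mod_cast h.card
  have h2 : ∑ i ∈ F, v i ^ 2 ≤ v ⬝ᵥ v := by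
    simp only [dotProduct, ← sq]
    exact Finset.sum_le_sum_of_subset_of_nonneg (Finset.subset_univ F) fun _ _ _ => sq_nonneg _
  have h3 : (∑ i ∈ F, v i) ^ 2 ≤ F.card * ∑ i ∈ F, v i ^ 2 := sq_sum_le_card_mul_sum_sq
  have h4 : 0 ≤ ∑ i ∈ F, v i ^ 2 := Finset.sum_nonneg fun _ _ => sq_nonneg _
  have h5 : (∑ i ∈ F, v i) ^ 2 / F.card ≤ ∑ i ∈ F, v i ^ 2 := by
    rw [div_le_iff₀ hN]; linarith
  have h6 : 0 ≤ (∑ i ∈ F, v i) ^ 2 / F.card := by positivity
  rw [mul_div_assoc] at h1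
  rcases hε with rfl | rfl
  · have : 0 ≤ (1 + m) * ((∑ i ∈ F, v i) ^ 2 / F.card) := by positivity
    nlinarith
  · nlinarith

theorem sq_le_of_div_le {x c : ℝ} (hc : 0 < c) (h : x ^ 2 / c ^ 2 ≤ 1) : |x| ≤ c := by
  rw [div_le_one (by positivity)] at h
  exact abs_le_of_sq_le_sq h hc.le

theorem oneA_of (hd : 3 ≤ d) (hσ : 2000 ≤ sR n) (hσd : 64 * (d : ℝ) ^ 4 ≤ sR n) (hk : k < k2 n d)
    (hcard : (F.card : ℝ) = Nk n d k) (hε : ε = 1 ∨ ε = -1) (hs : Sg F Z (√((d : ℝ) - 1))⁻¹ ε)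
    (h : fOne n d k ε F Z ≤ 1) : OneA n d k ε F Z := by
  have hs1 := sR_one hσ
  have hs0 := sR_pos hσ
  have hN := Nk_pos (by omega) hk
  have hNg := Nk_gt hk
  have supp : ∀ a, a ∉ F → ∀ b, Z a b = 0 := fun a ha b => hs.supp a b (Or.inl ha)
  have n1 := f1_nonneg n d k ε Z
  have nD := fD_nonneg n d k Z
  have n3 := f3_nonneg n d k ε Z
  have n4 := f4_nonneg (n := n) (d := d) (k := k) hs.symm hN.le
  have nV := fV_nonneg n d k F Z
  have nS := fS_nonneg n F Z
  unfold fOne at h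
  have h1 : f1 n d k ε Z ≤ 1 := by linarith
  have hD : fD n d k Z ≤ 1 := by linarith
  have h3 : f3 n d k ε Z ≤ 1 := by linarith
  have h4 : f4 n d k Z ≤ 1 := by linarith
  have hV : fV n d k F Z ≤ 1 := by linarith
  have hS : fS n F Z ≤ 1 := by linarith
  have d1 : |ε * Z.trace - t1 n d k| ≤ (sR n : ℝ) ^ 377 := by
    refine sq_le_of_div_le (by positivity) ?_
    rw [← pow_mul]
    exact h1
  have dD : |(Z ^ 2).trace - Nk n d k - tD n d k| ≤ (sR n : ℝ) ^ 683 := by
    refine sq_le_of_div_le (by positivity) ?_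
    rw [← pow_mul]
    exact hD
  have d3 : |ε * (Z ^ 3).trace - kap n d| ≤
      if k < k1 n d then (sR n : ℝ) ^ 950 else (sR n : ℝ) ^ 993 := by
    unfold f3 at h3
    split_ifs at h3 ⊢
    · refine sq_le_of_div_le (by positivity) ?_
      rw [← pow_mul]
      exact h3
    · refine sq_le_of_div_le (by positivity) ?_
      rw [← pow_mul]
      exact h3
  have T4 : (Z ^ 4).trace ≤ bP n d k ^ 4 := by
    rw [bP_four hN (by omega), le_div_iff₀ hN]
    unfold f4 at h4
    rwa [div_le_one (by positivity)] at h4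
  have gVle : gV F Z ≤ vP n d k ^ 2 := by
    rw [vP_sq (by omega)]
    unfold fV at hV
    split_ifs at hV ⊢
    · rwa [div_le_one (by positivity)] at hV
    · rwa [div_le_one (by positivity)] at hV
  have gVN : gV F Z ≤ Nk n d k := by
    refine gVle.trans (le_trans ?_ hNg.le)
    rw [vP_sq (by omega)]
    split_ifs <;> exact pow_le_pow_right₀ hs1 (by norm_num)
  have Sle : Sd F Z ≤ sP n d k ^ 2 := by
    rw [sP_sq (by omega)]
    unfold fS at hS
    rwa [div_le_one (by positivity)] at hS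
  -- `|tD| ≤ N / 4` and `σ^683 ≤ N / 4`
  have e1 : (sR n : ℝ) ^ 683 ≤ Nk n d k / 4 := by
    have := const_mul_pow_le (c := 4) hs1 (by linarith [sR_ge hσ]) (show 683 < 699 by norm_num)
    linarith
  have e2 : |tD n d k| ≤ Nk n d k / 4 := by
    refine (abs_tD_le hσ hd hk.le).trans ?_
    have R := rng hσ hd hk
    have m1 : mo (LL n) (XX n d k) 1385 (-1) ≤ mo (LL n) (XX n d k) 0 1 :=
      mo_le_mo' R (by norm_num) (by norm_num)
    rw [← Nk_eq_mo hN] at m1
    have m2 : mo (LL n) (XX n d k) 1385 (-1) = (sR n : ℝ) * mo (LL n) (XX n d k) 1384 (-1) := by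
      have := sR_pow (n := n) (by omega) (XX n d k) 1
      rw [pow_one] at this
      rw [this, mo_mul]
      norm_num
    have m3 := mo_nonneg (LL n) (XX n d k) 1384 (-1)
    have m4 := mul_le_mul_of_nonneg_right hσd m3
    rw [m2] at m1
    linarith
  have t0 := tD_nonpos hσ hd hk.le
  have T2 : (Z ^ 2).trace ≤ tP n d k ^ 2 := by
    rw [tP_sq hN]
    have := (abs_le.1 dD).2
    linarith
  have T2N : (F.card : ℝ) ≤ 2 * (Z ^ 2).trace := by
    rw [hcard]
    have a1 := (abs_le.1 dD).1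
    have a2 := (abs_le.1 e2).1
    linarith
  have T2' : (Z ^ 2).trace ≤ 5 / 4 * Nk n d k := by
    have := (abs_le.1 dD).2
    linarith
  obtain ⟨hm, hm1, -⟩ := mu_facts hd
  exact
    { symm := hs.symm
      supp := supp
      row := hs.row
      sg := hs
      lob := lob_of_sg hs hm.le hm1.le hε
      T4 := T4
      T2 := T2
      T2N := T2N
      S := Sle
      V := gVle
      W := by
        rw [sum_w_sq_eq supp, wP_sq hN, hcard]
        linarith
      d1 := d1
      dD := dD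
      d3 := d3 }

/-! ### both signs -/

variable {V : Type*} [Fintype V] [DecidableEq V]

theorem card_eq_Nk {vert : ι → V} {s : RSt ι} (hfib : ∀ v, (Finset.univ.filter fun i => vert i = v).card = d)
    (hV : Fintype.card V = n) (h : Reach vert (start vert d) k s) :
    (s.F.card : ℝ) = Nk n d k := by
  obtain ⟨-, -, -, h4⟩ := h.base
  have h5 := card_stubs hfib
  have h6 : ((s.F.card + 2 * k : ℕ) : ℝ) = ((n * d : ℕ) : ℝ) := by
    rw [h4, h5, hV]
  push_cast at h6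
  unfold Nk
  linarith

theorem tpar_of {vert : ι → V} {s : RSt ι} (hσ : 1 ≤ sR n)
    (hfib : ∀ v, (Finset.univ.filter fun i => vert i = v).card = d)
    (h : Reach vert (start vert d) k s) :
    Tilt.TPar s.F (forbS vert s) (lam n) ((d : ℝ) * (d + 1)) where
  lam0 := lam_pos hσ
  Δ0 := by positivity
  symm := fun a b => forbS_comm.1
  card := by
    intro inst a ha
    have := card_forbS_le hfib h a
    exact_mod_cast this

/-- **`Reach` and `PhiA ≤ 1` give all the hypotheses of the rate lemmas.** -/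
theorem envA_of [Nonempty V] {vert : ι → V} {s : RSt ι} (hd : 3 ≤ d) (hσ : 2000 ≤ sR n)
    (hσd : 64 * (d : ℝ) ^ 4 ≤ sR n)
    (hfib : ∀ v, (Finset.univ.filter fun i => vert i = v).card = d)
    (hV : Fintype.card V = n) (h : Reach vert (start vert d) k s) (hk : k < k2 n d)
    (hP : PhiA n d k s ≤ 1) : EnvA n d k s.F s.Zp s.Zm (forbS vert s) := by
  have hcard := card_eq_Nk hfib hV h
  have hN := Nk_pos (by omega) hk
  have hc : 0 < s.F.card := by
    rw [← hcard] at hN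
    exact_mod_cast hN
  obtain ⟨sp, sm⟩ := h.sg hd hfib hc
  have nW := fW_nonneg (n := n) (d := d) (k := k) sp.symm sm.symm hN.le
  have np : 0 ≤ fOne n d k 1 s.F s.Zp := by
    unfold fOne
    have := f1_nonneg n d k 1 s.Zp
    have := fD_nonneg n d k s.Zp
    have := f3_nonneg n d k 1 s.Zp
    have := f4_nonneg (n := n) (d := d) (k := k) sp.symm hN.le
    have := fV_nonneg n d k s.F s.Zp
    have := fS_nonneg n s.F s.Zp
    linarith
  have nm : 0 ≤ fOne n d k (-1) s.F s.Zm := by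
    unfold fOne
    have := f1_nonneg n d k (-1) s.Zm
    have := fD_nonneg n d k s.Zm
    have := f3_nonneg n d k (-1) s.Zm
    have := f4_nonneg (n := n) (d := d) (k := k) sm.symm hN.le
    have := fV_nonneg n d k s.F s.Zm
    have := fS_nonneg n s.F s.Zm
    linarith
  unfold PhiA at hP
  have hp : fOne n d k 1 s.F s.Zp ≤ 1 := by linarith
  have hm : fOne n d k (-1) s.F s.Zm ≤ 1 := by linarith
  have hW : fW n d k s.Zp s.Zm ≤ 1 := by linarith
  exact
    { d3 := hd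
      k_lt := hk
      card := hcard
      p := oneA_of hd hσ hσd hk hcard (Or.inl rfl) sp hp
      m := oneA_of hd hσ hσd hk hcard (Or.inr rfl) sm hm
      Wc := fun hk1 => by
        have hs0 := sR_pos hσ
        rw [cP_sq hN (by omega)]
        unfold fW at hW
        rw [if_pos hk1, div_le_one (by positivity)] at hW
        exact hW
      tp := tpar_of (by omega) hfib h }

end Vale.Agent.P049.TS.Asm
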