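import Vale.Agent.P049.TS.Asm.Env

/-!
Facts on the targets `t1`, `tD`, the number `kap`, and the normalisation of the weights.
-/

set_option linter.unusedSectionVars false
set_option exponentiation.threshold 3000

namespace Vale.Agent.P049.TS.Asm

open Matrix Finset

variable {n d k : ℕ}

theorem sR_one (h : 2000 ≤ sR n) : (1 : ℝ) ≤ sR n := by
  exact_mod_cast (by omega : 1 ≤ sR n)

theorem sR_ge (h : 2000 ≤ sR n) : (2000 : ℝ) ≤ sR n := by exact_mod_cast h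

/-- comparison of powers of `σ` with a constant -/
theorem const_mul_pow_le {x c : ℝ} (hx : 1 ≤ x) (hc : c ≤ x) {i j : ℕ} (h : i < j) :
    c * x ^ i ≤ x ^ j := by
  have h1 : x ^ (i + 1) ≤ x ^ j := pow_le_pow_right₀ hx h
  have h2 : (0 : ℝ) ≤ x ^ i := by positivity
  calc c * x ^ i ≤ x * x ^ i := mul_le_mul_of_nonneg_right hc h2
    _ = x ^ (i + 1) := by ring
    _ ≤ _ := h1

/-! ### `kap` -/

/-- the real number approximated by `kap` -/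
noncomputable def kapR (n d : ℕ) : ℝ := d * ((d : ℝ) - 2) * n / √((d : ℝ) - 1)

theorem kapR_sq (hd : 3 ≤ d) (n : ℕ) :
    kapR n d ^ 2 = (d : ℝ) ^ 2 * ((d : ℝ) - 2) ^ 2 * (n : ℝ) ^ 2 / ((d : ℝ) - 1) := by
  have hd' : (3 : ℝ) ≤ d := by exact_mod_cast hd
  unfold kapR
  rw [div_pow, Real.sq_sqrt (by linarith)]
  ring

theorem kapR_nonneg (hd : 3 ≤ d) (n : ℕ) : 0 ≤ kapR n d := by
  have hd' : (3 : ℝ) ≤ d := by exact_mod_cast hd
  unfold kapR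
  have h1 : (0 : ℝ) ≤ (d : ℝ) - 2 := by linarith
  positivity

theorem kap_le_kapR (hd : 3 ≤ d) (n : ℕ) : kap n d ≤ kapR n d := by
  have hd' : (3 : ℝ) ≤ d := by exact_mod_cast hd
  have h1 : kap n d ^ 2 ≤ kapR n d ^ 2 := by
    rw [kapR_sq hd]
    have h2 := Nat.sqrt_le' (d ^ 2 * (d - 2) ^ 2 * n ^ 2 / (d - 1))
    have h3 : ((d ^ 2 * (d - 2) ^ 2 * n ^ 2 / (d - 1) : ℕ) : ℝ) ≤
        ((d ^ 2 * (d - 2) ^ 2 * n ^ 2 : ℕ) : ℝ) / ((d - 1 : ℕ) : ℝ) := Nat.cast_div_le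
    rw [Nat.cast_sub (by omega : 1 ≤ d)] at h3
    push_cast [Nat.cast_sub (by omega : 2 ≤ d)] at h3
    have h4 : kap n d ^ 2 ≤ ((d ^ 2 * (d - 2) ^ 2 * n ^ 2 / (d - 1) : ℕ) : ℝ) := by
      unfold kap kapN
      exact_mod_cast h2
    exact h4.trans h3
  exact (abs_le_of_sq_le_sq' h1 (kapR_nonneg hd n)).2

theorem kapR_le_kap (hd : 3 ≤ d) (n : ℕ) : kapR n d ≤ kap n d + 1 := by
  have hd' : (3 : ℝ) ≤ d := by exact_mod_cast hd
  have h1 : kapR n d ^ 2 ≤ (kap n d + 1) ^ 2 := by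
    rw [kapR_sq hd]
    have h2 := Nat.lt_succ_sqrt' (d ^ 2 * (d - 2) ^ 2 * n ^ 2 / (d - 1))
    have h3 : d ^ 2 * (d - 2) ^ 2 * n ^ 2 <
        (d ^ 2 * (d - 2) ^ 2 * n ^ 2 / (d - 1) + 1) * (d - 1) :=
      Nat.lt_mul_of_div_lt (Nat.lt_succ_self _) (by omega)
    have h4 : d ^ 2 * (d - 2) ^ 2 * n ^ 2 <
        (Nat.sqrt (d ^ 2 * (d - 2) ^ 2 * n ^ 2 / (d - 1))).succ ^ 2 * (d - 1) :=
      lt_of_lt_of_le h3 (Nat.mul_le_mul_right _ h2)
    have h5 : ((d ^ 2 * (d - 2) ^ 2 * n ^ 2 : ℕ) : ℝ) ≤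
        (((Nat.sqrt (d ^ 2 * (d - 2) ^ 2 * n ^ 2 / (d - 1))).succ ^ 2 * (d - 1) : ℕ) : ℝ) := by
      exact_mod_cast h4.le
    push_cast [Nat.cast_sub (by omega : 1 ≤ d), Nat.cast_sub (by omega : 2 ≤ d)] at h5
    rw [div_le_iff₀ (by linarith)]
    exact h5
  have h0 : 0 ≤ kap n d + 1 := by
    have : (0 : ℝ) ≤ kap n d := Nat.cast_nonneg _
    linarith
  exact (abs_le_of_sq_le_sq' h1 h0).2

theorem kap_ge (hd : 3 ≤ d) (hn : 10 ≤ n) : 2 * (n : ℝ) ≤ kap n d := by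
  have hd' : (3 : ℝ) ≤ d := by exact_mod_cast hd
  have hn' : (10 : ℝ) ≤ n := by exact_mod_cast hn
  have h0 : 0 < √((d : ℝ) - 1) := Real.sqrt_pos.2 (by linarith)
  have h1 := kapR_le_kap hd n
  have h2 : 21 / 10 * √((d : ℝ) - 1) ≤ d * ((d : ℝ) - 2) := by
    have h3 : √((d : ℝ) - 1) ≤ d * ((d : ℝ) - 2) / (21 / 10) := by
      rw [Real.sqrt_le_left (by apply div_nonneg _ (by norm_num); nlinarith)]
      rw [div_pow, le_div_iff₀ (by norm_num)]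
      nlinarith [mul_nonneg (show (0:ℝ) ≤ d - 3 by linarith) (show (0:ℝ) ≤ d by linarith),
        mul_nonneg (mul_nonneg (show (0:ℝ) ≤ d - 3 by linarith) (show (0:ℝ) ≤ d by linarith))
          (mul_nonneg (show (0:ℝ) ≤ d - 3 by linarith) (show (0:ℝ) ≤ d by linarith)),
        mul_nonneg (show (0:ℝ) ≤ d - 3 by linarith) (sq_nonneg ((d : ℝ)))]
    rw [le_div_iff₀ (by norm_num)] at h3
    linarith
  have h4 : 21 / 10 * (n : ℝ) ≤ kapR n d := by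
    unfold kapR
    rw [le_div_iff₀ h0]
    nlinarith
  linarith

theorem kap_le (hd : 3 ≤ d) (n : ℕ) : kap n d ≤ (d : ℝ) ^ 2 * n := by
  have hd' : (3 : ℝ) ≤ d := by exact_mod_cast hd
  have h1 : 1 ≤ √((d : ℝ) - 1) := by
    rw [Real.one_le_sqrt]; linarith
  have hn : (0 : ℝ) ≤ n := Nat.cast_nonneg n
  refine (kap_le_kapR hd n).trans ?_
  unfold kapR
  rw [div_le_iff₀ (by linarith)]
  have h2 : (d : ℝ) * ((d : ℝ) - 2) ≤ (d : ℝ) ^ 2 := by nlinarith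
  have h3 : (d : ℝ) * ((d : ℝ) - 2) * n ≤ (d : ℝ) ^ 2 * n := mul_le_mul_of_nonneg_right h2 hn
  have h4 : 0 ≤ (d : ℝ) ^ 2 * n := by positivity
  nlinarith

theorem ten_le_n (h : 2000 ≤ sR n) : 10 ≤ n := le_trans (by omega) (sR_le n)

theorem kap_ge' (h : 2000 ≤ sR n) (hd : 3 ≤ d) : 2 * (sR n : ℝ) ^ 1000 ≤ kap n d := by
  have := kap_ge hd (ten_le_n h)
  have := n_ge (n := n)
  linarith

theorem kap_le' (h : 2000 ≤ sR n) (hd : 3 ≤ d) : kap n d ≤ 2 * (d : ℝ) ^ 2 * (sR n : ℝ) ^ 1000 := by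
  have h1 := kap_le hd n
  have h2 := n_le_two_mul h
  have h3 : (0 : ℝ) ≤ (d : ℝ) ^ 2 := by positivity
  nlinarith

theorem kap_pos (h : 2000 ≤ sR n) (hd : 3 ≤ d) : 0 < kap n d := by
  have h1 := kap_ge' h hd
  have : (0 : ℝ) < sR n := by linarith [sR_one h]
  have : (0 : ℝ) < (sR n : ℝ) ^ 1000 := by positivity
  linarith

theorem kap_le_mo (h : 2000 ≤ sR n) (hd : 3 ≤ d) (X : ℝ) :
    kap n d ≤ 2 * (d : ℝ) ^ 2 * mo (LL n) X 1000 0 := by
  have := kap_le' h hd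
  rw [sR_pow (by omega) X] at this
  exact_mod_cast this

/-! ### the numbers `N_k` -/

theorem N0_ge (hd : 3 ≤ d) : 3 * (sR n : ℝ) ^ 1000 ≤ Nk n d 0 := by
  unfold Nk
  have h1 := n_ge (n := n)
  have hd' : (3 : ℝ) ≤ d := by exact_mod_cast hd
  have h2 : (0 : ℝ) ≤ n := Nat.cast_nonneg n
  push_cast
  nlinarith

theorem k1_pos (h : 2000 ≤ sR n) (hd : 3 ≤ d) : 0 < k1 n d := by
  have h1 : sR n ^ 802 < n * d := by
    have a : sR n ^ 802 ≤ sR n ^ 1000 := Nat.pow_le_pow_right (by omega) (by norm_num)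
    have b := sR_pow_le n
    have c : 0 < sR n ^ 802 := Nat.pow_pos (by omega)
    nlinarith
  unfold k1
  omega

theorem Nk1_ge (h : 2000 ≤ sR n) (hd : 3 ≤ d) :
    (sR n : ℝ) ^ 802 - 1 ≤ Nk n d (k1 n d) := by
  have h1 := two_k1_le (n := n) (d := d)
  have h2 := k1_pos h hd
  have h3 : 2 * k1 n d + sR n ^ 802 ≤ n * d + 1 := by omega
  have h4 : ((2 * k1 n d + sR n ^ 802 : ℕ) : ℝ) ≤ ((n * d + 1 : ℕ) : ℝ) := by exact_mod_cast h3
  unfold Nk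
  push_cast at h4
  linarith

theorem Nk1_ge' (h : 2000 ≤ sR n) (hd : 3 ≤ d) :
    (sR n : ℝ) ^ 802 / 2 ≤ Nk n d (k1 n d) := by
  have h1 := Nk1_ge h hd
  have h2 : (2 : ℝ) ≤ (sR n : ℝ) ^ 802 := by
    have := const_mul_pow_le (c := 2) (sR_one h) (by linarith [sR_ge h])
      (show 0 < 802 by norm_num)
    simpa using this
  linarith

theorem Nk1_pos (h : 2000 ≤ sR n) (hd : 3 ≤ d) : 0 < Nk n d (k1 n d) := by
  have := Nk1_ge' h hd
  have : (0 : ℝ) < sR n := by linarith [sR_one h]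
  have : (0 : ℝ) < (sR n : ℝ) ^ 802 := by positivity
  linarith

theorem k2_pos (h : 2000 ≤ sR n) (hd : 3 ≤ d) : 0 < k2 n d :=
  lt_of_lt_of_le (k1_pos h hd) (k1_le_k2 (by omega))

theorem Nk2_ge (h : 2000 ≤ sR n) (hd : 3 ≤ d) :
    (sR n : ℝ) ^ 699 - 1 ≤ Nk n d (k2 n d) := by
  have h2 := k2_pos h hd
  have h3 : 2 * k2 n d + sR n ^ 699 ≤ n * d + 1 := by
    unfold k2 at h2 ⊢; omega
  have h4 : ((2 * k2 n d + sR n ^ 699 : ℕ) : ℝ) ≤ ((n * d + 1 : ℕ) : ℝ) := by exact_mod_cast h3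
  unfold Nk
  push_cast at h4
  linarith

theorem Nk2_pos (h : 2000 ≤ sR n) (hd : 3 ≤ d) : 0 < Nk n d (k2 n d) := by
  have h1 := Nk2_ge h hd
  have := const_mul_pow_le (c := 2) (sR_one h) (by linarith [sR_ge h])
      (show 0 < 699 by norm_num)
  simp only [pow_zero, mul_one] at this
  linarith

theorem Nk_pos' (h : 2000 ≤ sR n) (hd : 3 ≤ d) (hk : k ≤ k2 n d) : 0 < Nk n d k := by
  rcases hk.lt_or_eq with h1 | h1
  · exact Nk_pos (by omega) h1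
  · rw [h1]; exact Nk2_pos h hd

theorem Nk_anti {k k' : ℕ} (h : k ≤ k') : Nk n d k' ≤ Nk n d k := by
  unfold Nk
  have : (k : ℝ) ≤ k' := by exact_mod_cast h
  linarith

/-! ### `K1` and `t1` -/

theorem K1_ge (h : 2000 ≤ sR n) (hd : 3 ≤ d) : (sR n : ℝ) ^ 384 ≤ K1 n d := by
  have hσ := sR_one h
  have hσ0 : (0 : ℝ) < sR n := by linarith
  have h1 := Nk_le1 (n := n) (d := d) (k := k1 n d) le_rfl
  have h2 := Nk1_pos h hd
  have h3 := N0_ge (n := n) hd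
  have h4 : (sR n : ℝ) ^ 802 ≤ (sR n : ℝ) ^ 1000 := pow_le_pow_right₀ hσ (by norm_num)
  have h5 : (0 : ℝ) < (sR n : ℝ) ^ 802 := by positivity
  have h6 : ((sR n : ℝ) ^ 802)⁻¹ ≤ (Nk n d (k1 n d))⁻¹ := inv_anti₀ h2 h1
  have h7 : (Nk n d 0)⁻¹ ≤ (2 * (sR n : ℝ) ^ 802)⁻¹ := inv_anti₀ (by positivity) (by linarith)
  have h8 : (2 * (sR n : ℝ) ^ 802)⁻¹ = ((sR n : ℝ) ^ 802)⁻¹ / 2 := by
    rw [mul_inv]; ring
  have h9 : ((sR n : ℝ) ^ 802)⁻¹ / 2 ≤ (Nk n d (k1 n d))⁻¹ - (Nk n d 0)⁻¹ := by linarith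
  have h10 := kap_ge' h hd
  have h11 : 0 < lam n := lam_pos (by omega)
  have e : (sR n : ℝ) ^ 384 * (sR n : ℝ) ^ 802 = (sR n : ℝ) ^ 186 * (sR n : ℝ) ^ 1000 := by
    rw [← pow_add, ← pow_add]
  have e' : lam n = (sR n : ℝ) ^ 186 := rfl
  unfold K1
  rw [e'] at h11 ⊢
  generalize (sR n : ℝ) ^ 384 = w at *
  generalize (sR n : ℝ) ^ 802 = x at *
  generalize (sR n : ℝ) ^ 1000 = y at *
  generalize (sR n : ℝ) ^ 186 = z at *
  have hy : 0 < y := by linarith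
  have hk0 : 0 ≤ z * kap n d := by
    have : 0 ≤ kap n d := by linarith
    positivity
  calc w = z * (2 * y) * (x⁻¹ / 2) := by
        field_simp; linarith
    _ ≤ z * kap n d * (x⁻¹ / 2) := by gcongr
    _ ≤ z * kap n d * ((Nk n d (k1 n d))⁻¹ - (Nk n d 0)⁻¹) :=
        mul_le_mul_of_nonneg_left h9 hk0

theorem K1_le (h : 2000 ≤ sR n) (hd : 3 ≤ d) : K1 n d ≤ 4 * (d : ℝ) ^ 2 * (sR n : ℝ) ^ 384 := by
  have hσ := sR_one h
  have hσ0 : (0 : ℝ) < sR n := by linarith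
  have h2 := Nk1_pos h hd
  have h1 := Nk1_ge' h hd
  have h5 : (0 : ℝ) < (sR n : ℝ) ^ 802 := by positivity
  have h6 : (Nk n d (k1 n d))⁻¹ ≤ ((sR n : ℝ) ^ 802 / 2)⁻¹ := inv_anti₀ (by positivity) h1
  have h3 := N0_ge (n := n) hd
  have h7 : 0 ≤ (Nk n d 0)⁻¹ := by
    have : (0 : ℝ) < (sR n : ℝ) ^ 1000 := by positivity
    exact inv_nonneg.2 (by linarith)
  have h10 := kap_le' h hd
  have h11 : 0 < lam n := lam_pos (by omega)
  have h12 := kap_pos h hd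
  have e : (sR n : ℝ) ^ 384 * (sR n : ℝ) ^ 802 = (sR n : ℝ) ^ 186 * (sR n : ℝ) ^ 1000 := by
    rw [← pow_add, ← pow_add]
  have e' : lam n = (sR n : ℝ) ^ 186 := rfl
  unfold K1
  rw [e'] at h11 ⊢
  generalize (sR n : ℝ) ^ 384 = w at *
  generalize (sR n : ℝ) ^ 802 = x at *
  generalize (sR n : ℝ) ^ 1000 = y at *
  generalize (sR n : ℝ) ^ 186 = z at *
  calc z * kap n d * ((Nk n d (k1 n d))⁻¹ - (Nk n d 0)⁻¹)
      ≤ z * kap n d * (x / 2)⁻¹ := by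
        gcongr
        linarith
    _ ≤ z * (2 * (d : ℝ) ^ 2 * y) * (x / 2)⁻¹ := by gcongr
    _ = 4 * (d : ℝ) ^ 2 * w := by
        field_simp
        linarith

theorem K1_pos (h : 2000 ≤ sR n) (hd : 3 ≤ d) : 0 < K1 n d := by
  have h1 := K1_ge h hd
  have hσ0 : (0 : ℝ) < sR n := by linarith [sR_one h]
  have : (0 : ℝ) < (sR n : ℝ) ^ 384 := by positivity
  linarith

theorem t1_of_ge (hk : k1 n d ≤ k) : t1 n d k = -K1 n d := by
  unfold t1 K1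
  rw [min_eq_right hk]

theorem t1_nonpos (h : 2000 ≤ sR n) (hd : 3 ≤ d) (k : ℕ) : t1 n d k ≤ 0 := by
  have h1 : Nk n d (min k (k1 n d)) ≤ Nk n d 0 := Nk_anti (Nat.zero_le _)
  have h2 : 0 < Nk n d (min k (k1 n d)) :=
    lt_of_lt_of_le (Nk1_pos h hd) (Nk_anti (min_le_right _ _))
  have h3 := inv_anti₀ h2 h1
  have h11 : 0 < lam n := lam_pos (by omega)
  have h12 := kap_pos h hd
  unfold t1
  have : 0 ≤ lam n * kap n d * ((Nk n d (min k (k1 n d)))⁻¹ - (Nk n d 0)⁻¹) := by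
    apply mul_nonneg (by positivity); linarith
  linarith

theorem neg_K1_le_t1 (h : 2000 ≤ sR n) (hd : 3 ≤ d) (k : ℕ) : -K1 n d ≤ t1 n d k := by
  have h3 := inv_anti₀ (Nk1_pos h hd) (Nk_anti (n := n) (d := d) (min_le_right k (k1 n d)))
  have h11 : 0 < lam n := lam_pos (by omega)
  have h12 := kap_pos h hd
  unfold t1 K1
  have h4 : lam n * kap n d * ((Nk n d (min k (k1 n d)))⁻¹ - (Nk n d 0)⁻¹) ≤
      lam n * kap n d * ((Nk n d (k1 n d))⁻¹ - (Nk n d 0)⁻¹) := by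
    apply mul_le_mul_of_nonneg_left _ (by positivity); linarith
  linarith

theorem abs_t1_le (h : 2000 ≤ sR n) (hd : 3 ≤ d) (k : ℕ) :
    |t1 n d k| ≤ 4 * (d : ℝ) ^ 2 * (sR n : ℝ) ^ 384 := by
  rw [abs_of_nonpos (t1_nonpos h hd k)]
  linarith [neg_K1_le_t1 h hd k, K1_le h hd]

/-- in the phase I: `|t1| ≤ 2d² σ^1186 / N` -/
theorem abs_t1_le' (h : 2000 ≤ sR n) (hd : 3 ≤ d) (hk : k < k1 n d) :
    |t1 n d k| ≤ 2 * (d : ℝ) ^ 2 * mo (LL n) (XX n d k) 1186 (-1) := by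
  have hN : 0 < Nk n d k := lt_of_lt_of_le (Nk1_pos h hd) (Nk_anti hk.le)
  have h3 := N0_ge (n := n) hd
  have hσ0 : (0 : ℝ) < sR n := by linarith [sR_one h]
  have h7 : 0 ≤ (Nk n d 0)⁻¹ := by
    have : (0 : ℝ) < (sR n : ℝ) ^ 1000 := by positivity
    exact inv_nonneg.2 (by linarith)
  have h11 : 0 < lam n := lam_pos (by omega)
  have h12 := kap_pos h hd
  have h13 : (Nk n d k)⁻¹ = mo (LL n) (XX n d k) 0 (-1) := by
    conv_lhs => rw [Nk_eq_mo hN (LL n), mo_inv]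
    norm_num
  rw [abs_of_nonpos (t1_nonpos h hd k)]
  unfold t1
  rw [min_eq_left hk.le, neg_neg]
  calc lam n * kap n d * ((Nk n d k)⁻¹ - (Nk n d 0)⁻¹)
      ≤ lam n * kap n d * (Nk n d k)⁻¹ := by gcongr; linarith
    _ ≤ lam n * (2 * (d : ℝ) ^ 2 * mo (LL n) (XX n d k) 1000 0) * (Nk n d k)⁻¹ := by
        gcongr
        exact kap_le_mo h hd _
    _ = 2 * (d : ℝ) ^ 2 * mo (LL n) (XX n d k) 1186 (-1) := by
        rw [h13, lam_eq (by omega) (XX n d k)]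
        have e : mo (LL n) (XX n d k) 1186 (-1) = mo (LL n) (XX n d k) 186 0 *
            mo (LL n) (XX n d k) 1000 0 * mo (LL n) (XX n d k) 0 (-1) := by
          rw [mo_mul, mo_mul]; norm_num
        rw [e]; ring

/-! ### steps of the targets -/

theorem inv_step {N : ℝ} (h : 4 ≤ N) : |(N - 2)⁻¹ - N⁻¹ - 2 / N ^ 2| ≤ 8 / N ^ 3 := by
  have h1 : (0 : ℝ) < N := by linarith
  have h2 : (0 : ℝ) < N - 2 := by linarith
  have e : (N - 2)⁻¹ - N⁻¹ - 2 / N ^ 2 = 4 / (N ^ 2 * (N - 2)) := by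
    field_simp; ring
  rw [e, abs_of_nonneg (by positivity)]
  rw [div_le_div_iff₀ (by positivity) (by positivity)]
  have : 0 ≤ N ^ 2 * (N - 4) := by apply mul_nonneg (by positivity); linarith
  nlinarith

theorem four_le_Nk (h : 2000 ≤ sR n) (hk : k < k2 n d) : 4 ≤ Nk n d k := by
  have h1 := Nk_gt hk
  have := const_mul_pow_le (c := 4) (sR_one h) (by linarith [sR_ge h])
      (show 0 < 699 by norm_num)
  simp only [pow_zero, mul_one] at this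
  linarith

theorem t1_step (h : 2000 ≤ sR n) (hd : 3 ≤ d) (hk : k < k1 n d) :
    |t1 n d (k + 1) - t1 n d k + 2 * lam n * kap n d / Nk n d k ^ 2| ≤
      8 * lam n * kap n d / Nk n d k ^ 3 := by
  have h1 : t1 n d (k + 1) - t1 n d k + 2 * lam n * kap n d / Nk n d k ^ 2 =
      -(lam n * kap n d * ((Nk n d k - 2)⁻¹ - (Nk n d k)⁻¹ - 2 / Nk n d k ^ 2)) := by
    unfold t1
    rw [min_eq_left hk.le, min_eq_left (show k + 1 ≤ k1 n d by omega), Nk_succ]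
    ring
  have h2 := inv_step (four_le_Nk h (lt_of_lt_of_le hk (k1_le_k2 (d := d) (by omega))))
  have h11 : 0 < lam n := lam_pos (by omega)
  have h12 := kap_pos h hd
  rw [h1, abs_neg, abs_mul, abs_of_pos (by positivity : 0 < lam n * kap n d)]
  calc lam n * kap n d * |(Nk n d k - 2)⁻¹ - (Nk n d k)⁻¹ - 2 / Nk n d k ^ 2|
      ≤ lam n * kap n d * (8 / Nk n d k ^ 3) := by gcongr
    _ = _ := by ring

theorem t1_step' (hk : k1 n d ≤ k) : t1 n d (k + 1) = t1 n d k := by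
  rw [t1_of_ge hk, t1_of_ge (by omega)]

theorem tD_of_le (hk : k ≤ k1 n d) : tD n d k = 0 := by
  unfold tD
  rw [max_eq_right hk]
  simp

theorem tD_step (hk : k < k1 n d) : tD n d (k + 1) = tD n d k := by
  rw [tD_of_le hk.le, tD_of_le (by omega)]

theorem tD_step' (h : 2000 ≤ sR n) (hd : 3 ≤ d) (hk1 : k1 n d ≤ k) (hk : k < k2 n d) :
    |tD n d (k + 1) - tD n d k + 4 * K1 n d * kap n d / Nk n d k ^ 2| ≤
      16 * K1 n d * kap n d / Nk n d k ^ 3 := by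
  have h1 : tD n d (k + 1) - tD n d k + 4 * K1 n d * kap n d / Nk n d k ^ 2 =
      -(2 * K1 n d * kap n d * ((Nk n d k - 2)⁻¹ - (Nk n d k)⁻¹ - 2 / Nk n d k ^ 2)) := by
    unfold tD
    rw [max_eq_left hk1, max_eq_left (show k1 n d ≤ k + 1 by omega), Nk_succ]
    ring
  have h2 := inv_step (four_le_Nk h hk)
  have h11 := K1_pos h hd
  have h12 := kap_pos h hd
  rw [h1, abs_neg, abs_mul, abs_of_pos (by positivity : 0 < 2 * K1 n d * kap n d)]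
  calc 2 * K1 n d * kap n d * |(Nk n d k - 2)⁻¹ - (Nk n d k)⁻¹ - 2 / Nk n d k ^ 2|
      ≤ 2 * K1 n d * kap n d * (8 / Nk n d k ^ 3) := by gcongr
    _ = _ := by ring

theorem tD_nonpos (h : 2000 ≤ sR n) (hd : 3 ≤ d) (hk : k ≤ k2 n d) : tD n d k ≤ 0 := by
  have hm : max k (k1 n d) ≤ k2 n d := max_le hk (k1_le_k2 (by omega))
  have h1 : Nk n d (max k (k1 n d)) ≤ Nk n d (k1 n d) := Nk_anti (le_max_right _ _)
  have h3 := inv_anti₀ (Nk_pos' h hd hm) h1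
  have h11 := K1_pos h hd
  have h12 := kap_pos h hd
  unfold tD
  have : 0 ≤ 2 * K1 n d * kap n d * ((Nk n d (max k (k1 n d)))⁻¹ - (Nk n d (k1 n d))⁻¹) := by
    apply mul_nonneg (by positivity); linarith
  linarith

/-- `|tD| ≤ 16 d⁴ σ^1384 / N` -/
theorem abs_tD_le (h : 2000 ≤ sR n) (hd : 3 ≤ d) (hk : k ≤ k2 n d) :
    |tD n d k| ≤ 16 * (d : ℝ) ^ 4 * mo (LL n) (XX n d k) 1384 (-1) := by
  have hσ0 : (0 : ℝ) < sR n := by linarith [sR_one h]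
  rcases le_total k (k1 n d) with h0 | h0
  · rw [tD_of_le h0]
    simp only [abs_zero]
    exact mul_nonneg (by positivity) (mo_nonneg _ _ _ _)
  · have hN := Nk_pos' h hd hk
    have hN1 := Nk1_pos h hd
    have h7 : 0 ≤ (Nk n d (k1 n d))⁻¹ := inv_nonneg.2 hN1.le
    have h11 := K1_pos h hd
    have h12 := kap_pos h hd
    have h13 : (Nk n d k)⁻¹ = mo (LL n) (XX n d k) 0 (-1) := by
      conv_lhs => rw [Nk_eq_mo hN (LL n), mo_inv]
      norm_num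
    have h14 : K1 n d ≤ 4 * (d : ℝ) ^ 2 * mo (LL n) (XX n d k) 384 0 := by
      have := K1_le h hd
      rw [sR_pow (by omega) (XX n d k)] at this
      exact_mod_cast this
    have h15 := kap_le_mo h hd (XX n d k)
    rw [abs_of_nonpos (tD_nonpos h hd hk)]
    unfold tD
    rw [max_eq_left h0, neg_neg]
    calc 2 * K1 n d * kap n d * ((Nk n d k)⁻¹ - (Nk n d (k1 n d))⁻¹)
        ≤ 2 * K1 n d * kap n d * (Nk n d k)⁻¹ := by gcongr; linarith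
      _ ≤ 2 * (4 * (d : ℝ) ^ 2 * mo (LL n) (XX n d k) 384 0) *
          (2 * (d : ℝ) ^ 2 * mo (LL n) (XX n d k) 1000 0) * (Nk n d k)⁻¹ := by
          have := mo_nonneg (LL n) (XX n d k) 384 0
          gcongr
      _ = 16 * (d : ℝ) ^ 4 * mo (LL n) (XX n d k) 1384 (-1) := by
          rw [h13]
          have e : mo (LL n) (XX n d k) 1384 (-1) = mo (LL n) (XX n d k) 384 0 *
              mo (LL n) (XX n d k) 1000 0 * mo (LL n) (XX n d k) 0 (-1) := by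
            rw [mo_mul, mo_mul]; norm_num
          rw [e]; ring

/-- at the end of the phase II: `tD ≤ -2 σ^685` -/
theorem tD_k2_le (h : 2000 ≤ sR n) (hd : 3 ≤ d) : tD n d (k2 n d) ≤ -(2 * (sR n : ℝ) ^ 685) := by
  have hσ := sR_one h
  have hσ0 : (0 : ℝ) < sR n := by linarith
  have h1 := Nk_le2 (n := n) (d := d) (k := k2 n d) le_rfl
  have h2 := Nk2_pos h hd
  have h3 := Nk1_ge' h hd
  have h4 : (4 : ℝ) * (sR n : ℝ) ^ 699 ≤ (sR n : ℝ) ^ 802 :=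
    const_mul_pow_le hσ (by linarith [sR_ge h]) (by norm_num)
  have h5 : (0 : ℝ) < (sR n : ℝ) ^ 699 := by positivity
  have h6 : ((sR n : ℝ) ^ 699)⁻¹ ≤ (Nk n d (k2 n d))⁻¹ := inv_anti₀ h2 h1
  have h7 : (Nk n d (k1 n d))⁻¹ ≤ (2 * (sR n : ℝ) ^ 699)⁻¹ := inv_anti₀ (by positivity) (by linarith)
  have h8 : (2 * (sR n : ℝ) ^ 699)⁻¹ = ((sR n : ℝ) ^ 699)⁻¹ / 2 := by
    rw [mul_inv]; ring
  have h9 : ((sR n : ℝ) ^ 699)⁻¹ / 2 ≤ (Nk n d (k2 n d))⁻¹ - (Nk n d (k1 n d))⁻¹ := by linarith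
  have h10 := kap_ge' h hd
  have h11 := K1_ge h hd
  have h12 := kap_pos h hd
  have h13 := K1_pos h hd
  have e : (sR n : ℝ) ^ 685 * (sR n : ℝ) ^ 699 = (sR n : ℝ) ^ 384 * (sR n : ℝ) ^ 1000 := by
    rw [← pow_add, ← pow_add]
  unfold tD
  rw [max_eq_left (k1_le_k2 (by omega))]
  have hy : (0 : ℝ) < (sR n : ℝ) ^ 1000 := by positivity
  have hw : (0 : ℝ) < (sR n : ℝ) ^ 384 := by positivity
  generalize (sR n : ℝ) ^ 384 = w at *
  generalize (sR n : ℝ) ^ 685 = u at *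
  generalize (sR n : ℝ) ^ 699 = x at *
  generalize (sR n : ℝ) ^ 802 = x' at *
  generalize (sR n : ℝ) ^ 1000 = y at *
  have : 2 * u ≤ 2 * K1 n d * kap n d * ((Nk n d (k2 n d))⁻¹ - (Nk n d (k1 n d))⁻¹) := by
    calc 2 * u = 2 * w * (2 * y) * (x⁻¹ / 2) := by field_simp; linarith
      _ ≤ _ := by gcongr
  linarith

/-! ### normalisation of the weights -/

variable {ι : Type*} [Fintype ι] [DecidableEq ι]
variable {F : Finset ι} {Zp Zm Z : Matrix ι ι ℝ} {forb : ι → ι → Prop} {ε : ℝ}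

/-- `|Σ_adm (1 - h) - N²| ≤ e² + N H` -/
theorem EnvA.abs_sum_weight_sub_le (h : EnvA n d k F Zp Zm forb) (hσ : 1 ≤ sR n) :
    |∑ p ∈ adm F forb Zp Zm, (1 - hA n d k F forb Zp Zm p.1 p.2) - Nk n d k ^ 2| ≤
      eP n d k ^ 2 + Nk n d k * HP n d k := by
  classical
  have h1 := card_compl_le h hσ
  have h2 : (((F ×ˢ F) \ adm F forb Zp Zm).card : ℝ) =
      Nk n d k ^ 2 - ((adm F forb Zp Zm).card : ℝ) := by
    have e := Finset.card_sdiff_add_card_eq_card (adm_subset F forb Zp Zm)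
    rw [Finset.card_product] at e
    have e' : (((F ×ˢ F) \ adm F forb Zp Zm).card : ℝ) + ((adm F forb Zp Zm).card : ℝ) =
        (F.card : ℝ) * F.card := by exact_mod_cast e
    rw [h.card] at e'
    linarith [sq (Nk n d k)]
  have h3 : |∑ p ∈ adm F forb Zp Zm, hA n d k F forb Zp Zm p.1 p.2| ≤ Nk n d k * HP n d k := by
    by_cases hk : k < k1 n d
    · have := (h.two hk).abs_sum_hT_le h.tp (adm_subset F forb Zp Zm)
      rw [h.card] at this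
      unfold hA HP
      simp only [if_pos hk]
      exact this
    · unfold hA HP
      simp [if_neg hk]
  have h4 : (0 : ℝ) ≤ (((F ×ˢ F) \ adm F forb Zp Zm).card : ℝ) := Nat.cast_nonneg _
  rw [Finset.sum_sub_distrib, Finset.sum_const, nsmul_eq_mul, mul_one]
  rw [abs_le] at h3 ⊢
  constructor <;> linarith [h3.1, h3.2]

theorem weight_nonneg (h : EnvA n d k F Zp Zm forb) (a b : ι) :
    0 ≤ 1 - hA n d k F forb Zp Zm a b := by
  have := abs_le.1 (abs_hA_le h a b)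
  linarith [this.2]

theorem weight_pos (h : EnvA n d k F Zp Zm forb) (a b : ι) :
    1 / 2 ≤ 1 - hA n d k F forb Zp Zm a b := by
  have := abs_le.1 (abs_hA_le h a b)
  linarith [this.2]

end Vale.Agent.P049.TS.Asm
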