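import Vale.Agent.P049.TS.Asm.Expo
import Vale.Agent.P049.TS.Asm.Tgt

/-!
The ranges of `Asm/Expo` for the phases I (`N` between `σ^802` and `σ^1001`) and II (`σ^699` and
`σ^802`), and all parameters of `Asm/Par` as monomials `Em`.
-/

set_option exponentiation.threshold 3000

namespace Vale.Agent.P049.TS.Asm

variable {n d k : ℕ}

/-- phase I -/
theorem rg1 (h : 2000 ≤ sR n) (h2 : 2 * d ≤ sR n) (hd : 3 ≤ d) (hk : k < k1 n d) :
    Rg (LL n) (XX n d k) 802 1001 where
  lt := by norm_num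
  lo := (rng1 h hd hk).lo
  hi := by
    have h1 := (rng1 h hd hk).hi
    have h3 : cc d ≤ LL n := by
      unfold cc LL
      apply Real.log_le_log
      · have : (3 : ℝ) ≤ d := by exact_mod_cast hd
        linarith
      · exact_mod_cast h2
    linarith

/-- phase II -/
theorem rg2 (h : 2000 ≤ sR n) (hd : 3 ≤ d) (hk1 : k1 n d ≤ k) (hk : k < k2 n d) :
    Rg (LL n) (XX n d k) 699 802 where
  lt := by norm_num
  lo := (rng2 h hd hk1 hk).lo
  hi := by
    have hN := Nk_pos (by omega) hk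
    have h1 := Real.log_le_log hN (Nk_le1 hk1)
    rw [Real.log_pow] at h1
    push_cast at h1
    exact h1

theorem mo_eq_Em {L X xl xh p q : ℝ} {y1 y2 : ℤ} (h : xl < xh) (h1 : (y1 : ℝ) = 4 * (p + q * xl))
    (h2 : (y2 : ℝ) = 4 * (p + q * xh)) : mo L X p q = Em L X xl xh y1 y2 := exp_eq_Em h h1 h2

/-- powers of `σ` -/
theorem sR_pow_Em (h : 2000 ≤ sR n) {X xl xh : ℝ} (hx : xl < xh) (j : ℕ) :
    (sR n : ℝ) ^ j = Em (LL n) X xl xh (4 * j) (4 * j) := by
  rw [sR_pow (by omega) X]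
  exact mo_eq_Em hx (by push_cast; ring) (by push_cast; ring)

theorem sqrt_two_le : √2 ≤ (2 : ℝ) := by
  rw [Real.sqrt_le_left (by norm_num)]; norm_num

/-! ### phase I (`xl = 802`, `xh = 1001`) -/

theorem bP_I : bP n d k = Em (LL n) (XX n d k) 802 1001 1201 1002 :=
  mo_eq_Em (by norm_num) (by norm_num) (by norm_num)

theorem moN_I : mo (LL n) (XX n d k) 0 (1 / 2) = Em (LL n) (XX n d k) 802 1001 1604 2002 :=
  mo_eq_Em (by norm_num) (by norm_num) (by norm_num)

theorem tP_I : tP n d k ≤ 2 * Em (LL n) (XX n d k) 802 1001 1604 2002 := by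
  unfold tP
  rw [moN_I]
  exact mul_le_mul_of_nonneg_right sqrt_two_le (Em_pos _ _ _ _ _ _).le

theorem sP_I : sP n d k = Em (LL n) (XX n d k) 802 1001 160 160 :=
  mo_eq_Em (by norm_num) (by norm_num) (by norm_num)

theorem vP_I (hk : k < k1 n d) : vP n d k = Em (LL n) (XX n d k) 802 1001 1220 1220 := by
  unfold vP
  rw [if_pos hk]
  exact mo_eq_Em (by norm_num) (by norm_num) (by norm_num)

theorem wP_I : wP n d k = 2 * Em (LL n) (XX n d k) 802 1001 1604 2002 := by
  unfold wP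
  rw [moN_I]

theorem cP_I : cP n d k = Em (LL n) (XX n d k) 802 1001 1724 2122 :=
  mo_eq_Em (by norm_num) (by norm_num) (by norm_num)

theorem eP_I : eP n d k = (d + 25) * Em (LL n) (XX n d k) 802 1001 1604 2002 := by
  unfold eP
  rw [moN_I]

theorem lam_I (h : 2000 ≤ sR n) : lam n = Em (LL n) (XX n d k) 802 1001 744 744 := by
  rw [lam_eq (by omega) (XX n d k)]
  exact mo_eq_Em (by norm_num) (by norm_num) (by norm_num)

theorem HP_I (h : 2000 ≤ sR n) (hk : k < k1 n d) :
    HP n d k ≤ 4 * Em (LL n) (XX n d k) 802 1001 2348 2746 := by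
  unfold HP
  rw [if_pos hk, lam_I (d := d) (k := k) h]
  have h1 := mul_le_mul_of_nonneg_left (tP_I (n := n) (d := d) (k := k))
    (Em_pos (LL n) (XX n d k) 802 1001 744 744).le
  have h2 := Em_mul (LL n) (XX n d k) 802 1001 744 744 1604 2002
  norm_num at h2
  nlinarith

theorem Nk_I (h : 0 < Nk n d k) : Nk n d k = Em (LL n) (XX n d k) 802 1001 3208 4004 := by
  rw [Nk_eq_mo h (LL n)]
  exact mo_eq_Em (by norm_num) (by norm_num) (by norm_num)

theorem rT_I : rT n d k = Em (LL n) (XX n d k) 802 1001 3204 4000 :=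
  mo_eq_Em (by norm_num) (by norm_num) (by norm_num)

/-! ### phase II (`xl = 699`, `xh = 802`) -/

theorem bP_II : bP n d k = Em (LL n) (XX n d k) 699 802 1304 1201 :=
  mo_eq_Em (by norm_num) (by norm_num) (by norm_num)

theorem moN_II : mo (LL n) (XX n d k) 0 (1 / 2) = Em (LL n) (XX n d k) 699 802 1398 1604 :=
  mo_eq_Em (by norm_num) (by norm_num) (by norm_num)

theorem tP_II : tP n d k ≤ 2 * Em (LL n) (XX n d k) 699 802 1398 1604 := by
  unfold tP
  rw [moN_II]
  exact mul_le_mul_of_nonneg_right sqrt_two_le (Em_pos _ _ _ _ _ _).le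

theorem sP_II : sP n d k = Em (LL n) (XX n d k) 699 802 160 160 :=
  mo_eq_Em (by norm_num) (by norm_num) (by norm_num)

theorem vP_II (hk : k1 n d ≤ k) : vP n d k = Em (LL n) (XX n d k) 699 802 1380 1380 := by
  unfold vP
  rw [if_neg (not_lt.2 hk)]
  exact mo_eq_Em (by norm_num) (by norm_num) (by norm_num)

theorem wP_II : wP n d k = 2 * Em (LL n) (XX n d k) 699 802 1398 1604 := by
  unfold wP
  rw [moN_II]

theorem eP_II : eP n d k = (d + 25) * Em (LL n) (XX n d k) 699 802 1398 1604 := by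
  unfold eP
  rw [moN_II]

theorem HP_II (hk : k1 n d ≤ k) : HP n d k = 0 := by
  unfold HP
  rw [if_neg (not_lt.2 hk)]

theorem Nk_II (h : 0 < Nk n d k) : Nk n d k = Em (LL n) (XX n d k) 699 802 2796 3208 := by
  rw [Nk_eq_mo h (LL n)]
  exact mo_eq_Em (by norm_num) (by norm_num) (by norm_num)

theorem rT_II : rT n d k = Em (LL n) (XX n d k) 699 802 2792 3204 :=
  mo_eq_Em (by norm_num) (by norm_num) (by norm_num)

end Vale.Agent.P049.TS.Asm
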