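import Vale.Agent.P049.TS.Asm.ParF
import Vale.Agent.P049.TS.Asm.EnvOf
import Vale.Agent.P049.TS.Asm.ExpoEnv

/-!
`Reach` and `PhiF ≤ 1` give `EnvF`; facts about the thresholds `k4`, `k5`.
-/

set_option linter.unusedSectionVars false
set_option exponentiation.threshold 3000

namespace Vale.Agent.P049.TS.Asm

open Matrix Finset

variable {n d k : ℕ}
variable {ι : Type*} [Fintype ι] [DecidableEq ι] {F : Finset ι} {Z Zp Zm : Matrix ι ι ℝ} {ε : ℝ}

/-! ### The thresholds -/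

theorem lt_of_lt_k5 (hk : k < k5 n d) : 2 * k + 2 + sR n ^ 341 ≤ n * d := by
  unfold k5 at hk
  omega

theorem le_of_k4_le (hk : k4 n d ≤ k) : n * d ≤ 2 * k + sR n ^ 530 := by
  unfold k4 at hk
  omega

theorem Nk_gt5 (hk : k < k5 n d) : (sR n : ℝ) ^ 341 + 2 ≤ Nk n d k := by
  have h := lt_of_lt_k5 hk
  unfold Nk
  have : ((2 * k + 2 + sR n ^ 341 : ℕ) : ℝ) ≤ ((n * d : ℕ) : ℝ) := by exact_mod_cast h
  push_cast at this
  linarith

theorem Nk_le4 (hk : k4 n d ≤ k) : Nk n d k ≤ (sR n : ℝ) ^ 530 := by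
  have h := le_of_k4_le hk
  unfold Nk
  have : ((n * d : ℕ) : ℝ) ≤ ((2 * k + sR n ^ 530 : ℕ) : ℝ) := by exact_mod_cast h
  push_cast at this
  linarith

theorem NkF_pos (hk : k < k5 n d) : 0 < Nk n d k := by
  have := Nk_gt5 hk
  have h2 : (0 : ℝ) ≤ (sR n : ℝ) ^ 341 := by positivity
  linarith

/-- the range of the final phase -/
theorem rgF (h : 2000 ≤ sR n) (hk4 : k4 n d ≤ k) (hk : k < k5 n d) :
    Rg (LL n) (XX n d k) 341 530 where
  lt := by norm_num
  lo := by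
    have hσ := sR_pos h
    have h1 : (sR n : ℝ) ^ 341 ≤ Nk n d k := by linarith [Nk_gt5 hk]
    have h2 := Real.log_le_log (by positivity) h1
    rw [Real.log_pow] at h2
    push_cast at h2
    exact h2
  hi := by
    have h1 := Real.log_le_log (NkF_pos hk) (Nk_le4 hk4)
    rw [Real.log_pow] at h1
    push_cast at h1
    exact h1

/-! ### The parameters -/

theorem tF_nonneg (n d k : ℕ) : 0 ≤ tF n d k := mul_nonneg (Real.sqrt_nonneg _) (mo_nonneg _ _ _ _)
theorem sF_nonneg (n d k : ℕ) : 0 ≤ sF n d k := mo_nonneg _ _ _ _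
theorem vF_nonneg (n d k : ℕ) : 0 ≤ vF n d k := mo_nonneg _ _ _ _
theorem nF_nonneg (n d k : ℕ) : 0 ≤ nF n d k := mo_nonneg _ _ _ _
theorem mF_nonneg (n d k : ℕ) : 0 ≤ mF n d k := mul_nonneg (by positivity) (mo_nonneg _ _ _ _)

theorem mo_pow_div {a b : ℕ} (h : 1 ≤ sR n) (hN : 0 < Nk n d k) :
    mo (LL n) (XX n d k) (-(a : ℝ)) b = Nk n d k ^ b / (sR n : ℝ) ^ a := by
  rw [sR_pow h (XX n d k) a]
  have h2 : Nk n d k ^ b = mo (LL n) (XX n d k) 0 b := by
    conv_lhs => rw [Nk_eq_mo hN (LL n)]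
    rw [mo_pow]; norm_num
  rw [h2, mo_div]
  norm_num

theorem tF_sq (hN : 0 < Nk n d k) (h1 : 1 ≤ sR n) :
    tF n d k ^ 2 = 2 * (Nk n d k ^ 2 / (sR n : ℝ) ^ 682) := by
  unfold tF
  rw [mul_pow, Real.sq_sqrt (by norm_num), mo_pow, ← mo_pow_div h1 hN]
  norm_num

theorem sF_sq (hN : 0 < Nk n d k) (h1 : 1 ≤ sR n) :
    sF n d k ^ 2 = Nk n d k / (sR n : ℝ) ^ 540 := by
  have := mo_pow_div (a := 540) (b := 1) h1 hN
  rw [pow_one] at this
  unfold sF
  rw [mo_pow, ← this]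
  norm_num

theorem vF_sq (hN : 0 < Nk n d k) (h1 : 1 ≤ sR n) :
    vF n d k ^ 2 = Nk n d k ^ 2 / (sR n : ℝ) ^ 656 := by
  unfold vF
  rw [mo_pow, ← mo_pow_div h1 hN]
  norm_num

theorem nF_sq (hN : 0 < Nk n d k) : nF n d k ^ 2 = Nk n d k := by
  unfold nF
  rw [mo_pow]
  conv_rhs => rw [Nk_eq_mo hN (LL n)]
  norm_num

/-- `σ^682 ≤ N²` -/
theorem sR682_le (hk : k < k5 n d) : (sR n : ℝ) ^ 682 ≤ Nk n d k ^ 2 := by
  have h1 : (sR n : ℝ) ^ 341 ≤ Nk n d k := by linarith [Nk_gt5 hk]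
  calc (sR n : ℝ) ^ 682 = ((sR n : ℝ) ^ 341) ^ 2 := by rw [← pow_mul]
    _ ≤ Nk n d k ^ 2 := pow_le_pow_left₀ (by positivity) h1 2

/-! ### One sign -/

theorem Sg.zbase {m : ℝ} (h : Sg F Z m ε) : ZBase F Z where
  symm := h.symm
  supp := fun i j hi => h.supp i j (Or.inl hi)
  row := h.row

/-- `tr Z² ≥ 1` -/
theorem one_le_trace_sq (h : ZBase F Z) (hF : 0 < F.card) : 1 ≤ (Z ^ 2).trace := by
  have hN : (0 : ℝ) < F.card := by exact_mod_cast hF
  have h1 : ∀ a ∈ F, 1 ≤ F.card * (Z ^ 2) a a := by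
    intro a ha
    have h2 := h.row a ha
    have h3 : ∑ j ∈ F, Z a j = 1 := by
      rw [← h2]
      exact Finset.sum_subset (Finset.subset_univ F) fun x _ hx => h.supp' a x hx
    have h4 : (∑ j ∈ F, Z a j) ^ 2 ≤ F.card * ∑ j ∈ F, Z a j ^ 2 := sq_sum_le_card_mul_sum_sq
    have h5 : ∑ j ∈ F, Z a j ^ 2 ≤ (Z ^ 2) a a := by
      rw [Mat.sq_diag_eq_sum h.symm]
      refine (Finset.sum_le_sum_of_subset_of_nonneg (Finset.subset_univ F)
        fun _ _ _ => sq_nonneg _)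
    rw [h3] at h4
    nlinarith
  have h6 := h.trace_F 1
  rw [← h6]
  have h7 : (F.card : ℝ) * 1 ≤ F.card * ∑ a ∈ F, (Z ^ 2) a a := by
    rw [Finset.mul_sum]
    calc (F.card : ℝ) * 1 = ∑ _a ∈ F, (1 : ℝ) := by simp
      _ ≤ _ := Finset.sum_le_sum h1
  exact le_of_mul_le_mul_left h7 hN

theorem gV2_nonneg (F : Finset ι) (Z : Matrix ι ι ℝ) : 0 ≤ gV2 F Z :=
  Finset.sum_nonneg fun _ _ => sq_nonneg _

theorem fT2F_nonneg (h : 1 ≤ (Z ^ 2).trace) : 0 ≤ fT2F n d k Z := by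
  unfold fT2F
  have : 0 ≤ (Z ^ 2).trace - 1 := by linarith
  positivity

theorem fSF_nonneg (h : 0 ≤ Nk n d k) : 0 ≤ fSF n d k F Z := by
  unfold fSF
  have := Sd_nonneg F Z
  positivity

theorem fV2F_nonneg : 0 ≤ fV2F n d k F Z := by
  unfold fV2F
  have := gV2_nonneg F Z
  positivity

theorem oneF_of (hσ : 2000 ≤ sR n) (hk : k < k5 n d)
    (hcard : (F.card : ℝ) = Nk n d k) (hs : Sg F Z (√((d : ℝ) - 1))⁻¹ ε)
    (h : fOneF n d k F Z ≤ 1) : OneF n d k ε F Z := by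
  have hs1 := sR_one hσ
  have hs0 := sR_pos hσ
  have hN := NkF_pos hk
  have hB := Sg.zbase hs
  have hT := one_le_trace_sq hB hs.card
  have n1 := fT2F_nonneg (n := n) (d := d) (k := k) hT
  have n2 := fSF_nonneg (n := n) (d := d) (k := k) (F := F) (Z := Z) hN.le
  have n3 := fV2F_nonneg (n := n) (d := d) (k := k) (F := F) (Z := Z)
  unfold fOneF at h
  have h1 : fT2F n d k Z ≤ 1 := by linarith
  have h2 : fSF n d k F Z ≤ 1 := by linarith
  have h3 : fV2F n d k F Z ≤ 1 := by linarith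
  have e1 : (Z ^ 2).trace - 1 ≤ Nk n d k ^ 2 / (sR n : ℝ) ^ 683 := by
    unfold fT2F at h1
    rw [div_le_one (by positivity)] at h1
    rw [le_div_iff₀ (by positivity)]
    exact h1
  have e2 : Sd F Z ≤ Nk n d k / (sR n : ℝ) ^ 540 := by
    unfold fSF at h2
    rw [div_le_one (by positivity)] at h2
    rw [le_div_iff₀ (by positivity)]
    exact h2
  have e3 : gV2 F Z ≤ Nk n d k ^ 2 / (sR n : ℝ) ^ 656 := by
    unfold fV2F at h3
    rw [div_le_one (by positivity)] at h3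
    rw [le_div_iff₀ (by positivity)]
    exact h3
  have e4 : (Z ^ 2).trace ≤ tF n d k ^ 2 := by
    rw [tF_sq hN (by omega)]
    have a1 : 1 ≤ Nk n d k ^ 2 / (sR n : ℝ) ^ 682 := by
      rw [le_div_iff₀ (by positivity), one_mul]
      exact sR682_le hk
    have a2 : Nk n d k ^ 2 / (sR n : ℝ) ^ 683 ≤ Nk n d k ^ 2 / (sR n : ℝ) ^ 682 :=
      div_le_div_of_nonneg_left (by positivity) (by positivity)
        (pow_le_pow_right₀ hs1 (by norm_num))
    linarith
  have e5 : ∑ a, Z a a ^ 2 = Sd F Z := by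
    unfold Sd
    symm
    refine Finset.sum_subset (Finset.subset_univ F) fun x _ hx => ?_
    rw [hB.supp x x hx]; norm_num
  have e6 : ∑ a, (Z ^ 2) a a ^ 2 = gV2 F Z := by
    unfold gV2
    symm
    refine Finset.sum_subset (Finset.subset_univ F) fun x _ hx => ?_
    rw [hB.pow_supp 1 x x hx]; norm_num
  refine ⟨hB, ⟨tF_nonneg _ _ _, sF_nonneg _ _ _, vF_nonneg _ _ _, nF_nonneg _ _ _,
    tF_nonneg _ _ _, e4, ?_, ?_, ?_, ?_⟩, hs, hT, e1⟩
  · rw [e5, sF_sq hN (by omega)]; exact e2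
  · rw [e6, vF_sq hN (by omega)]; exact e3
  · rw [nF_sq hN]; exact hcard
  · refine Mat.opB_of_frob ?_
    rw [Mat.frob_eq_trace_sq hB.symm]
    exact e4

/-! ### Both signs -/

variable {V : Type*} [Fintype V] [DecidableEq V]

/-- **`Reach` and `PhiF ≤ 1` give all the hypotheses of the rate lemmas of the final phase.** -/
theorem envF_of [Nonempty V] {vert : ι → V} {s : RSt ι} (hd : 3 ≤ d) (hσ : 2000 ≤ sR n)
    (hfib : ∀ v, (Finset.univ.filter fun i => vert i = v).card = d)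
    (hV : Fintype.card V = n) (h : Reach vert (start vert d) k s) (hk4 : k4 n d ≤ k)
    (hk : k < k5 n d) (hP : PhiF n d k s ≤ 1) :
    EnvF n d k s.F s.Zp s.Zm (forbS vert s) := by
  have hcard := card_eq_Nk hfib hV h
  have hN := NkF_pos hk
  have hc : 0 < s.F.card := by
    rw [← hcard] at hN
    exact_mod_cast hN
  obtain ⟨sp, sm⟩ := h.sg hd hfib hc
  have np : 0 ≤ fOneF n d k s.F s.Zp := by
    unfold fOneF
    have := fT2F_nonneg (n := n) (d := d) (k := k) (one_le_trace_sq (Sg.zbase sp) hc)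
    have := fSF_nonneg (n := n) (d := d) (k := k) (F := s.F) (Z := s.Zp) hN.le
    have := fV2F_nonneg (n := n) (d := d) (k := k) (F := s.F) (Z := s.Zp)
    linarith
  have nm : 0 ≤ fOneF n d k s.F s.Zm := by
    unfold fOneF
    have := fT2F_nonneg (n := n) (d := d) (k := k) (one_le_trace_sq (Sg.zbase sm) hc)
    have := fSF_nonneg (n := n) (d := d) (k := k) (F := s.F) (Z := s.Zm) hN.le
    have := fV2F_nonneg (n := n) (d := d) (k := k) (F := s.F) (Z := s.Zm)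
    linarith
  unfold PhiF at hP
  exact
    { d3 := hd
      k_ge := hk4
      k_lt := hk
      card := hcard
      p := oneF_of hσ hk hcard sp (by linarith)
      m := oneF_of hσ hk hcard sm (by linarith)
      fo :=
        { Δ0 := by positivity
          symm := fun a b => forbS_comm.1
          card := by
            intro inst a ha
            have := card_forbS_le hfib h a
            exact_mod_cast this } }

theorem EnvF.oneF {forb : ι → ι → Prop} (h : EnvF n d k F Zp Zm forb) (hs : Sgn Zp Zm ε Z) :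
    OneF n d k ε F Z := by
  rcases hs with ⟨rfl, rfl⟩ | ⟨rfl, rfl⟩
  · exact h.p
  · exact h.m

/-- the data of the admissible set -/
theorem EnvF.admOK {forb : ι → ι → Prop} (hσ : 2000 ≤ sR n) (h : EnvF n d k F Zp Zm forb)
    (hs : Sgn Zp Zm ε Z) :
    AdmOK F Z (adm F forb Zp Zm) (GF n d k) (mF n d k) (LF n d k) := by
  have hN := NkF_pos h.k_lt
  have hs1 := sR_one hσ
  have hs0 := sR_pos hσ
  refine admOK_adm h.fo h.p.bds h.m.bds h.p.base.symm h.m.base.symm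
    (hs.imp (fun h => h.2) (fun h => h.2)) (mF_nonneg _ _ _) ?_
  have e1 : mF n d k ^ 2 = (d + 25) ^ 2 * Nk n d k := by
    unfold mF
    rw [mul_pow]
    have := nF_sq (n := n) (d := d) (k := k) hN
    unfold nF at this
    rw [this]
  have e2 : tF n d k ^ 2 ≤ 2 * Nk n d k := by
    rw [tF_sq hN (by omega)]
    have a1 : Nk n d k ^ 2 / (sR n : ℝ) ^ 682 ≤ Nk n d k := by
      rw [div_le_iff₀ (by positivity), sq]
      refine mul_le_mul_of_nonneg_left ?_ hN.le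
      exact (Nk_le4 h.k_ge).trans (pow_le_pow_right₀ hs1 (by norm_num))
    linarith
  have e3 : sF n d k ^ 4 ≤ Nk n d k := by
    have : sF n d k ^ 4 = (sF n d k ^ 2) ^ 2 := by ring
    rw [this, sF_sq hN (by omega), div_pow, div_le_iff₀ (by positivity), sq]
    refine mul_le_mul_of_nonneg_left ?_ hN.le
    rw [← pow_mul]
    exact (Nk_le4 h.k_ge).trans (pow_le_pow_right₀ hs1 (by norm_num))
  rw [e1, nF_sq hN]
  have hd : (3 : ℝ) ≤ d := by exact_mod_cast h.d3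
  nlinarith

/-! ### The end -/

/-- `PhiF ≤ 1` at the end gives `tr Z² ≤ 2` for both signs -/
theorem endF_of [Nonempty V] {vert : ι → V} {s : RSt ι} (hd : 3 ≤ d) (hσ : 2000 ≤ sR n)
    (hfib : ∀ v, (Finset.univ.filter fun i => vert i = v).card = d)
    (hV : Fintype.card V = n) (h : Reach vert (start vert d) (k5 n d) s)
    (hP : PhiF n d (k5 n d) s ≤ 1) : (s.Zp ^ 2).trace ≤ 2 ∧ (s.Zm ^ 2).trace ≤ 2 := by
  have hs1 := sR_one hσ
  have hs0 := sR_pos hσ
  have hcard := card_eq_Nk hfib hV h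
  have h3 : sR n ^ 341 ≤ n * d := by
    have a := sR_pow_le n
    have b : sR n ^ 341 ≤ sR n ^ 1000 := Nat.pow_le_pow_right (by omega) (by norm_num)
    have c : n ≤ n * d := Nat.le_mul_of_pos_right _ (by omega)
    omega
  have h4 : 2 * k5 n d + sR n ^ 341 ≤ n * d ∧ n * d ≤ 2 * k5 n d + sR n ^ 341 + 1 := by
    unfold k5; omega
  have h5 : (sR n : ℝ) ^ 341 ≤ Nk n d (k5 n d) ∧ Nk n d (k5 n d) ≤ (sR n : ℝ) ^ 341 + 1 := by
    unfold Nk
    have a : ((2 * k5 n d + sR n ^ 341 : ℕ) : ℝ) ≤ ((n * d : ℕ) : ℝ) := by exact_mod_cast h4.1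
    have b : ((n * d : ℕ) : ℝ) ≤ ((2 * k5 n d + sR n ^ 341 + 1 : ℕ) : ℝ) := by exact_mod_cast h4.2
    push_cast at a b
    constructor <;> linarith
  have hN : 0 < Nk n d (k5 n d) := lt_of_lt_of_le (by positivity) h5.1
  have hc : 0 < s.F.card := by
    rw [← hcard] at hN
    exact_mod_cast hN
  obtain ⟨sp, sm⟩ := h.sg hd hfib hc
  have tp := one_le_trace_sq (Sg.zbase sp) hc
  have tm := one_le_trace_sq (Sg.zbase sm) hc
  have p1 := fT2F_nonneg (n := n) (d := d) (k := k5 n d) tp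
  have p2 := fSF_nonneg (n := n) (d := d) (k := k5 n d) (F := s.F) (Z := s.Zp) hN.le
  have p3 := fV2F_nonneg (n := n) (d := d) (k := k5 n d) (F := s.F) (Z := s.Zp)
  have q1 := fT2F_nonneg (n := n) (d := d) (k := k5 n d) tm
  have q2 := fSF_nonneg (n := n) (d := d) (k := k5 n d) (F := s.F) (Z := s.Zm) hN.le
  have q3 := fV2F_nonneg (n := n) (d := d) (k := k5 n d) (F := s.F) (Z := s.Zm)
  have hsz : Nk n d (k5 n d) ^ 2 ≤ (sR n : ℝ) ^ 683 := by
    have a0 : (1 : ℝ) ≤ (sR n : ℝ) ^ 341 := one_le_pow₀ hs1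
    have a1 : Nk n d (k5 n d) ≤ 2 * (sR n : ℝ) ^ 341 := by linarith [h5.2]
    calc Nk n d (k5 n d) ^ 2 ≤ (2 * (sR n : ℝ) ^ 341) ^ 2 := pow_le_pow_left₀ hN.le a1 2
      _ = 4 * (sR n : ℝ) ^ 682 := by rw [mul_pow, ← pow_mul]; norm_num
      _ ≤ (sR n : ℝ) ^ 683 :=
        const_mul_pow_le hs1 (by linarith [sR_ge hσ]) (by norm_num)
  have key : ∀ x : ℝ, 0 ≤ x → x * (sR n : ℝ) ^ 683 / Nk n d (k5 n d) ^ 2 ≤ 1 → x ≤ 1 := by
    intro x hx h
    rw [div_le_one (by positivity)] at h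
    have : x * (sR n : ℝ) ^ 683 ≤ 1 * (sR n : ℝ) ^ 683 := by linarith
    exact le_of_mul_le_mul_right this (by positivity)
  unfold PhiF fOneF at hP
  have r1 : fT2F n d (k5 n d) s.Zp ≤ 1 := by linarith
  have r2 : fT2F n d (k5 n d) s.Zm ≤ 1 := by linarith
  have r3 := key _ (by linarith) r1
  have r4 := key _ (by linarith) r2
  constructor <;> linarith

end Vale.Agent.P049.TS.Asm
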