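import Vale.Agent.P049.TS.Asm.Env
import Vale.Agent.P049.TS.Asm.GV2

/-!
Common facts of the phases IIIa and IIIb: the threshold `k3`, the rate `rT`.
-/

set_option linter.unusedSectionVars false
set_option exponentiation.threshold 3000

namespace Vale.Agent.P049.TS.Asm

variable {n d k : ℕ}

theorem le_of_k3_le (hk : k3 n d ≤ k) : n * d ≤ 2 * k + sR n ^ 680 := by
  unfold k3 at hk
  omega

theorem Nk_le3 (hk : k3 n d ≤ k) : Nk n d k ≤ (sR n : ℝ) ^ 680 := by
  have h := le_of_k3_le hk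
  unfold Nk
  have : ((n * d : ℕ) : ℝ) ≤ ((2 * k + sR n ^ 680 : ℕ) : ℝ) := by exact_mod_cast h
  push_cast at this
  linarith

theorem rT_eq (hσ : 1 ≤ sR n) (hN : 0 < Nk n d k) : rT n d k = Nk n d k / sR n := by
  unfold rT
  have e1 := sR_pow (n := n) hσ (XX n d k) 1
  rw [pow_one] at e1
  conv_rhs => rw [e1, Nk_eq_mo hN (LL n), mo_div]
  norm_num

end Vale.Agent.P049.TS.Asm
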