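import Vale.Agent.P049.TS.Asm.ParB
import Vale.Agent.P049.TS.Asm.EnvF
import Vale.Agent.P049.TS.Asm.Thr

/-!
`Reach` and `PhiB ≤ 1` give `EnvB`; facts about the thresholds `k3`, `k4`, the range
`σ^530 < N ≤ σ^680` of the phase IIIb and the parameters of `ParB`.
-/

set_option linter.unusedSectionVars false
set_option exponentiation.threshold 3000

namespace Vale.Agent.P049.TS.Asm

open Matrix Finset

variable {n d k : ℕ}
variable {ι : Type*} [Fintype ι] [DecidableEq ι] {F : Finset ι} {Z Zp Zm : Matrix ι ι ℝ} {ε : ℝ}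
variable {forb : ι → ι → Prop}

/-! ### The thresholds -/

theorem lt_of_lt_k4 (hk : k < k4 n d) : 2 * k + sR n ^ 530 < n * d := by
  unfold k4 at hk
  omega

theorem Nk_gt4 (hk : k < k4 n d) : (sR n : ℝ) ^ 530 < Nk n d k := by
  have h := lt_of_lt_k4 hk
  unfold Nk
  have : ((2 * k + sR n ^ 530 : ℕ) : ℝ) < ((n * d : ℕ) : ℝ) := by exact_mod_cast h
  push_cast at this
  linarith

theorem NkB_pos (hk : k < k4 n d) : 0 < Nk n d k :=
  lt_of_le_of_lt (by positivity) (Nk_gt4 hk)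

/-- `N ≥ 4` on the whole phase -/
theorem four_le_NkB (h : 2000 ≤ sR n) (hk : k < k4 n d) : 4 ≤ Nk n d k := by
  have h1 := sR_one h
  have h2 : (sR n : ℝ) ^ 1 ≤ (sR n : ℝ) ^ 530 := pow_le_pow_right₀ h1 (by norm_num)
  have h3 : (2000 : ℝ) ≤ sR n := by exact_mod_cast h
  have h4 := Nk_gt4 hk
  rw [pow_one] at h2
  linarith

/-- the range of the phase IIIb for `Asm/Expo` -/
theorem rgB (h : 2000 ≤ sR n) (hk3 : k3 n d ≤ k) (hk : k < k4 n d) :
    Rg (LL n) (XX n d k) 530 680 where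
  lt := by norm_num
  lo := by
    have hσ := sR_pos h
    have h2 := Real.log_le_log (by positivity) (Nk_gt4 hk).le
    rw [Real.log_pow] at h2
    push_cast at h2
    exact h2
  hi := by
    have h1 := Real.log_le_log (NkB_pos hk) (Nk_le3 hk3)
    rw [Real.log_pow] at h1
    push_cast at h1
    exact h1

/-- the range of the phase IIIb for `Asm/Mono` (constant `c₀ = 0`, `KK 0 = 1`) -/
theorem rngB (h : 2000 ≤ sR n) (hk3 : k3 n d ≤ k) (hk : k < k4 n d) :
    Rng (LL n) (XX n d k) 0 530 680 where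
  L0 := LL_nonneg n (by omega)
  c0 := le_rfl
  lo := (rgB h hk3 hk).lo
  hi := by have := (rgB h hk3 hk).hi; linarith

theorem KK_zero : KK 0 = 1 := by simp [KK]

/-! ### The parameters -/

theorem bB_nonneg (n d k : ℕ) : 0 ≤ bB n d k := mul_nonneg (by norm_num) (mo_nonneg _ _ _ _)
theorem tB_nonneg (n d k : ℕ) : 0 ≤ tB n d k := mul_nonneg (by norm_num) (mo_nonneg _ _ _ _)
theorem sB_nonneg (n d k : ℕ) : 0 ≤ sB n d k := mo_nonneg _ _ _ _
theorem vB_nonneg (n d k : ℕ) : 0 ≤ vB n d k := mul_nonneg (by norm_num) (mo_nonneg _ _ _ _)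
theorem wB_nonneg (n d k : ℕ) : 0 ≤ wB n d k := mo_nonneg _ _ _ _
theorem eB_nonneg (n d k : ℕ) : 0 ≤ eB n d k := mul_nonneg (by positivity) (mo_nonneg _ _ _ _)

theorem bB_four (hN : 0 < Nk n d k) (h1 : 1 ≤ sR n) :
    bB n d k ^ 4 = 16 * (Nk n d k ^ 4 / (sR n : ℝ) ^ 1393) := by
  unfold bB
  rw [mul_pow, mo_pow, ← mo_pow_div h1 hN]
  norm_num

theorem tB_sq (hN : 0 < Nk n d k) (h1 : 1 ≤ sR n) :
    tB n d k ^ 2 = 4 * (Nk n d k ^ 2 / (sR n : ℝ) ^ 684) := by
  unfold tB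
  rw [mul_pow, mo_pow, ← mo_pow_div h1 hN]
  norm_num

theorem sB_sq (hN : 0 < Nk n d k) (h1 : 1 ≤ sR n) :
    sB n d k ^ 2 = Nk n d k / (sR n : ℝ) ^ 574 := by
  have := mo_pow_div (a := 574) (b := 1) h1 hN
  rw [pow_one] at this
  unfold sB
  rw [mo_pow, ← this]
  norm_num

theorem wB_sq (hN : 0 < Nk n d k) (h1 : 1 ≤ sR n) :
    wB n d k ^ 2 = Nk n d k ^ 2 / (sR n : ℝ) ^ 669 := by
  unfold wB
  rw [mo_pow, ← mo_pow_div h1 hN]
  norm_num

theorem eB_sq (hN : 0 < Nk n d k) : eB n d k ^ 2 = ((d : ℝ) + 25) ^ 2 * Nk n d k := by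
  unfold eB
  rw [mul_pow, mo_pow, Nk_eq_mo hN (LL n)]
  norm_num

theorem vB_sq (n d k : ℕ) :
    vB n d k ^ 2 = 4 * mo (LL n) (XX n d k) (-(212 / 5)) (27 / 25) := by
  unfold vB
  rw [mul_pow, mo_pow]
  norm_num

/-- `V₂`-bound plus `N` is at most `v²` -/
theorem wB_add_le_vB (h : 2000 ≤ sR n) (hk3 : k3 n d ≤ k) (hk : k < k4 n d) :
    wB n d k ^ 2 + Nk n d k ≤ vB n d k ^ 2 := by
  have hN := NkB_pos hk
  have R := rngB h hk3 hk
  have m1 : mo (LL n) (XX n d k) (-669) 2 ≤ KK 0 * mo (LL n) (XX n d k) (-(212 / 5)) (27 / 25) :=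
    mo_le_mo R (by norm_num) (by norm_num) (by norm_num)
  have m2 : mo (LL n) (XX n d k) 0 1 ≤ KK 0 * mo (LL n) (XX n d k) (-(212 / 5)) (27 / 25) :=
    mo_le_mo R (by norm_num) (by norm_num) (by norm_num)
  rw [KK_zero, one_mul] at m1 m2
  have e1 : wB n d k ^ 2 = mo (LL n) (XX n d k) (-669) 2 := by
    unfold wB; rw [mo_pow]; norm_num
  rw [← Nk_eq_mo hN (LL n)] at m2
  rw [e1, vB_sq]
  have := mo_nonneg (LL n) (XX n d k) (-53) (11 / 10)
  linarith

/-- the parameters as monomials of `Asm/Expo` -/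
theorem bB_III : bB n d k = 2 * Em (LL n) (XX n d k) 530 680 727 1327 := by
  unfold bB
  rw [mo_eq_Em (xl := 530) (xh := 680) (y1 := 727) (y2 := 1327) (by norm_num) (by norm_num)
    (by norm_num)]

theorem tB_III : tB n d k = 2 * Em (LL n) (XX n d k) 530 680 752 1352 := by
  unfold tB
  rw [mo_eq_Em (xl := 530) (xh := 680) (y1 := 752) (y2 := 1352) (by norm_num) (by norm_num)
    (by norm_num)]

theorem sB_III : sB n d k = Em (LL n) (XX n d k) 530 680 (-88) 212 :=
  mo_eq_Em (by norm_num) (by norm_num) (by norm_num)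

theorem vB_III : vB n d k = 2 * Em (LL n) (XX n d k) 530 680 1060 1384 := by
  unfold vB
  rw [mo_eq_Em (xl := 530) (xh := 680) (y1 := 1060) (y2 := 1384) (by norm_num) (by norm_num)
    (by norm_num)]

theorem wB_III : wB n d k = Em (LL n) (XX n d k) 530 680 782 1382 :=
  mo_eq_Em (by norm_num) (by norm_num) (by norm_num)

theorem eB_III : eB n d k = (d + 25) * Em (LL n) (XX n d k) 530 680 1060 1360 := by
  unfold eB
  rw [mo_eq_Em (xl := 530) (xh := 680) (y1 := 1060) (y2 := 1360) (by norm_num) (by norm_num)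
    (by norm_num)]

theorem Nk_III (h : 0 < Nk n d k) : Nk n d k = Em (LL n) (XX n d k) 530 680 2120 2720 := by
  rw [Nk_eq_mo h (LL n)]
  exact mo_eq_Em (by norm_num) (by norm_num) (by norm_num)

theorem rT_III : rT n d k = Em (LL n) (XX n d k) 530 680 2116 2716 :=
  mo_eq_Em (by norm_num) (by norm_num) (by norm_num)

theorem rhoB_pos (h : 1 ≤ sR n) (hN : 0 < Nk n d k) : 0 < rhoB n d k := by
  unfold rhoB
  have : (0 : ℝ) < sR n := by exact_mod_cast h
  positivity

/-- `ρ = N / (32 σ^315)` as a monomial -/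
theorem rhoB_III (h : 2000 ≤ sR n) (hN : 0 < Nk n d k) :
    rhoB n d k = 1 / 32 * Em (LL n) (XX n d k) 530 680 860 1460 := by
  have e1 : mo (LL n) (XX n d k) (-315) 1 = Em (LL n) (XX n d k) 530 680 860 1460 :=
    mo_eq_Em (by norm_num) (by norm_num) (by norm_num)
  have e2 := mo_pow_div (a := 315) (b := 1) (by omega : 1 ≤ sR n) hN
  rw [pow_one] at e2
  push_cast at e2
  rw [← e1, e2]
  unfold rhoB
  field_simp

/-- `N² / σ^684 ≥ 1`: the bound of `T₂ - 1` exceeds `1` on the whole phase -/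
theorem one_le_N2_div (hσ : 2000 ≤ sR n) (hk : k < k4 n d) :
    1 ≤ Nk n d k ^ 2 / (sR n : ℝ) ^ 684 := by
  have hs0 := sR_pos hσ
  have hs1 := sR_one hσ
  rw [le_div_iff₀ (by positivity), one_mul]
  calc (sR n : ℝ) ^ 684 ≤ (sR n : ℝ) ^ 1060 := pow_le_pow_right₀ hs1 (by norm_num)
    _ = ((sR n : ℝ) ^ 530) ^ 2 := by rw [← pow_mul]
    _ ≤ Nk n d k ^ 2 := pow_le_pow_left₀ (by positivity) (Nk_gt4 hk).le 2

/-- `N ≤ N⁴ / σ^1393` -/
theorem N_le_N4_div (hσ : 2000 ≤ sR n) (hk : k < k4 n d) :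
    Nk n d k ≤ Nk n d k ^ 4 / (sR n : ℝ) ^ 1393 := by
  have hs0 := sR_pos hσ
  have hs1 := sR_one hσ
  have hN := NkB_pos hk
  rw [le_div_iff₀ (by positivity)]
  have h1 : (sR n : ℝ) ^ 1393 ≤ Nk n d k ^ 3 := by
    calc (sR n : ℝ) ^ 1393 ≤ (sR n : ℝ) ^ 1590 := pow_le_pow_right₀ hs1 (by norm_num)
      _ = ((sR n : ℝ) ^ 530) ^ 3 := by rw [← pow_mul]
      _ ≤ Nk n d k ^ 3 := pow_le_pow_left₀ (by positivity) (Nk_gt4 hk).le 3
  calc Nk n d k * (sR n : ℝ) ^ 1393 ≤ Nk n d k * Nk n d k ^ 3 :=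
        mul_le_mul_of_nonneg_left h1 hN.le
    _ = Nk n d k ^ 4 := by ring

/-! ### `EnvB` gives the hypotheses of the drift lemmas -/

theorem OneB.ctl (h : OneB n d k ε F Z) :
    D12.Ctl F Z (bB n d k) (tB n d k) (sB n d k) (vB n d k) (wB n d k) where
  symm := h.symm
  supp := h.supp
  row := h.row
  b0 := bB_nonneg _ _ _
  t0 := tB_nonneg _ _ _
  s0 := sB_nonneg _ _ _
  v0 := vB_nonneg _ _ _
  w0 := wB_nonneg _ _ _
  T4 := h.T4
  T2 := h.T2
  X0 := h.X0
  S := h.S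
  V := h.V
  W := h.W

theorem OneB.opB (h : OneB n d k ε F Z) : Mat.OpB Z (bB n d k) :=
  Mat.opB_of_trace_four h.symm h.T4

theorem EnvB.oneB (h : EnvB n d k F Zp Zm forb) (hs : Sgn Zp Zm ε Z) : OneB n d k ε F Z := by
  rcases hs with ⟨rfl, rfl⟩ | ⟨rfl, rfl⟩
  · exact h.p
  · exact h.m

/-- `#((F × F) \ adm) ≤ e²` -/
theorem EnvB.card_compl_le (h : EnvB n d k F Zp Zm forb) (hσ : 2000 ≤ sR n) :
    ((((F ×ˢ F) \ adm F forb Zp Zm).card : ℕ) : ℝ) ≤ eB n d k ^ 2 := by
  classical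
  have hN := NkB_pos h.k_lt
  have hs1 := sR_one hσ
  have hs0 := sR_pos hσ
  have h1 := card_compl_adm_le (F := F) (forb := forb) (Zp := Zp) (Zm := Zm)
    (Δ := (d : ℝ) * (d + 1)) (h.fo.card)
  have a1 : 4 * (Nk n d k ^ 2 / (sR n : ℝ) ^ 684) ≤ Nk n d k := by
    have : 4 * Nk n d k ≤ (sR n : ℝ) ^ 684 := by
      have b1 := Nk_le3 h.k_ge
      have b2 := const_mul_pow_le (c := 4) hs1 (by linarith [sR_ge hσ])
        (show 680 < 684 by norm_num)
      linarith
    rw [← mul_div_assoc, div_le_iff₀ (by positivity), sq]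
    nlinarith
  have fr : ∀ {Z : Matrix ι ι ℝ} {ε : ℝ}, OneB n d k ε F Z → frob Z ≤ Nk n d k := by
    intro Z ε hZ
    rw [frob_eq_trace hZ.symm]
    refine hZ.T2.trans ?_
    rw [tB_sq hN (by omega)]
    exact a1
  have sd : ∀ {Z : Matrix ι ι ℝ} {ε : ℝ}, OneB n d k ε F Z → Sd F Z ^ 2 ≤ Nk n d k := by
    intro Z ε hZ
    have c1 := hZ.S_le
    have c2 := Sd_nonneg F Z
    calc Sd F Z ^ 2 ≤ (Nk n d k / (sR n : ℝ) ^ 574) ^ 2 := pow_le_pow_left₀ c2 c1 2
      _ ≤ Nk n d k := by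
        rw [div_pow, div_le_iff₀ (by positivity), sq]
        refine mul_le_mul_of_nonneg_left ?_ hN.le
        rw [← pow_mul]
        exact (Nk_le3 h.k_ge).trans (pow_le_pow_right₀ hs1 (by norm_num))
  have hp := fr h.p
  have hm := fr h.m
  have sp := sd h.p
  have sm := sd h.m
  rw [h.card] at h1
  rw [eB_sq hN]
  have hd : (3 : ℝ) ≤ d := by exact_mod_cast h.d3
  nlinarith

/-! ### nonnegativity of the potentials -/

theorem g1B_nonneg : 0 ≤ g1B n d k ε Z := sq_nonneg _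

theorem g2B_nonneg : 0 ≤ g2B n d k Z := by
  unfold g2B; positivity

theorem gFB_nonneg (h : 1 ≤ (Z ^ 2).trace) : 0 ≤ gFB n d k Z := by
  unfold gFB
  have : 0 ≤ (Z ^ 2).trace - 1 := by linarith
  positivity

theorem g4B_nonneg (hZ : Z.IsSymm) : 0 ≤ g4B n d k Z := by
  unfold g4B
  have : 0 ≤ (Z ^ 4).trace := by
    rw [Mat.trace_four_eq_frob hZ]; exact Mat.frob_nonneg _
  have h2 : 0 ≤ Nk n d k ^ 4 := by
    have : Nk n d k ^ 4 = (Nk n d k ^ 2) ^ 2 := by ring
    rw [this]; positivity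
  positivity

theorem g5B_nonneg : 0 ≤ g5B n d k F Z := by
  unfold g5B
  have := gV2_nonneg F Z
  positivity

theorem g6B_nonneg (h : 0 ≤ Nk n d k) : 0 ≤ g6B n d k F Z := by
  unfold g6B
  have := Sd_nonneg F Z
  positivity

/-! ### one sign -/

theorem oneB_of (hσ : 2000 ≤ sR n) (hk3 : k3 n d ≤ k) (hk : k < k4 n d)
    (hcard : (F.card : ℝ) = Nk n d k) (hs : Sg F Z (√((d : ℝ) - 1))⁻¹ ε)
    (h : fOneB n d k ε F Z ≤ 1) : OneB n d k ε F Z := by
  have hs1 := sR_one hσ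
  have hs0 := sR_pos hσ
  have hN := NkB_pos hk
  have hB := Sg.zbase hs
  have hT := one_le_trace_sq hB hs.card
  have supp : ∀ a, a ∉ F → ∀ b, Z a b = 0 := fun a ha b => hs.supp a b (Or.inl ha)
  have n1 := g1B_nonneg (n := n) (d := d) (k := k) (ε := ε) (Z := Z)
  have n2 := g2B_nonneg (n := n) (d := d) (k := k) (Z := Z)
  have n3 := gFB_nonneg (n := n) (d := d) (k := k) hT
  have n4 := g4B_nonneg (n := n) (d := d) (k := k) hs.symm
  have n5 := g5B_nonneg (n := n) (d := d) (k := k) (F := F) (Z := Z)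
  have n6 := g6B_nonneg (n := n) (d := d) (k := k) (F := F) (Z := Z) hN.le
  unfold fOneB at h
  have h1 : g1B n d k ε Z ≤ 1 := by linarith
  have h2 : g2B n d k Z ≤ 1 := by linarith
  have h3 : gFB n d k Z ≤ 1 := by linarith
  have h4 : g4B n d k Z ≤ 1 := by linarith
  have h5 : g5B n d k F Z ≤ 1 := by linarith
  have h6 : g6B n d k F Z ≤ 1 := by linarith
  have e3 : (Z ^ 2).trace - 1 ≤ Nk n d k ^ 2 / (sR n : ℝ) ^ 684 := by
    unfold gFB at h3
    rw [div_le_one (by positivity)] at h3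
    rw [le_div_iff₀ (by positivity)]
    exact h3
  have e4 : (Z ^ 4).trace ≤ Nk n d k ^ 4 / (sR n : ℝ) ^ 1393 := by
    unfold g4B at h4
    rw [div_le_one (by positivity)] at h4
    rw [le_div_iff₀ (by positivity)]
    exact h4
  have e5 : gV2 F Z ≤ Nk n d k ^ 2 / (sR n : ℝ) ^ 669 := by
    unfold g5B at h5
    rw [div_le_one (by positivity)] at h5
    rw [le_div_iff₀ (by positivity)]
    exact h5
  have e6 : Sd F Z ≤ Nk n d k / (sR n : ℝ) ^ 574 := by
    unfold g6B at h6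
    rw [div_le_one (by positivity)] at h6
    rw [le_div_iff₀ (by positivity)]
    exact h6
  have e2 : |Z.trace| ≤ Nk n d k / (sR n : ℝ) ^ 295 := by
    unfold g2B at h2
    rw [div_le_one (by positivity)] at h2
    refine abs_le_of_sq_le_sq ?_ (by positivity)
    rw [div_pow, le_div_iff₀ (by positivity), ← pow_mul]
    exact h2
  have hρ := rhoB_pos (n := n) (d := d) (k := k) (by omega) hN
  have e1 : ε * Z.trace ≤ -rhoB n d k := by
    unfold g1B at h1
    have a1 : max (ε * Z.trace / rhoB n d k + 2) 0 ≤ 1 := by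
      have := abs_le_of_sq_le_sq (a := max (ε * Z.trace / rhoB n d k + 2) 0) (b := 1)
        (by simpa using h1) zero_le_one
      exact (le_abs_self _).trans this
    have a2 : ε * Z.trace / rhoB n d k + 2 ≤ 1 := (le_max_left _ _).trans a1
    have a3 : ε * Z.trace / rhoB n d k ≤ -1 := by linarith
    rw [div_le_iff₀ hρ] at a3
    linarith
  have b1 := one_le_N2_div hσ hk
  have b2 := N_le_N4_div hσ hk
  have b3 : 0 ≤ Nk n d k ^ 4 / (sR n : ℝ) ^ 1393 := by positivity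
  have T4 : (Z ^ 4).trace ≤ bB n d k ^ 4 := by
    rw [bB_four hN (by omega)]
    linarith
  have V2 : ∑ a ∈ F, (Z ^ 2) a a ^ 2 ≤ wB n d k ^ 2 := by
    rw [wB_sq hN (by omega)]
    exact e5
  exact
    { symm := hs.symm
      supp := supp
      row := hs.row
      sg := hs
      T4 := T4
      T2 := by
        rw [tB_sq hN (by omega)]
        linarith
      X0 := by
        rw [bB_four hN (by omega), hcard]
        linarith
      S := by
        rw [sB_sq hN (by omega)]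
        exact e6
      V := by
        have c1 := sum_w_sq_eq (F := F) (Z := Z) supp
        have c2 : ∑ a ∈ F, ((Z ^ 2) a a - 1) ^ 2 = gV F Z := rfl
        have c3 := wB_add_le_vB hσ hk3 hk
        rw [c2]
        rw [hcard] at c1
        linarith
      W := V2
      T2_ge := hT
      T2_le := e3
      T4_le := e4
      V2_le := e5
      S_le := e6
      T1_abs := e2
      T1_neg := e1 }

/-! ### both signs -/

variable {V : Type*} [Fintype V] [DecidableEq V]

theorem fOneB_nonneg (hN : 0 ≤ Nk n d k) (hs : Sg F Z (√((d : ℝ) - 1))⁻¹ ε) :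
    0 ≤ fOneB n d k ε F Z := by
  have hT := one_le_trace_sq (Sg.zbase hs) hs.card
  unfold fOneB
  have n1 := g1B_nonneg (n := n) (d := d) (k := k) (ε := ε) (Z := Z)
  have n2 := g2B_nonneg (n := n) (d := d) (k := k) (Z := Z)
  have n3 := gFB_nonneg (n := n) (d := d) (k := k) hT
  have n4 := g4B_nonneg (n := n) (d := d) (k := k) hs.symm
  have n5 := g5B_nonneg (n := n) (d := d) (k := k) (F := F) (Z := Z)
  have n6 := g6B_nonneg (n := n) (d := d) (k := k) (F := F) (Z := Z) hN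
  linarith

/-- **`Reach` and `PhiB ≤ 1` give all the hypotheses of the rate lemmas of the phase IIIb.** -/
theorem envB_of [Nonempty V] {vert : ι → V} {s : RSt ι} (hd : 3 ≤ d) (hσ : 2000 ≤ sR n)
    (hfib : ∀ v, (Finset.univ.filter fun i => vert i = v).card = d)
    (hV : Fintype.card V = n) (h : Reach vert (start vert d) k s) (hk3 : k3 n d ≤ k)
    (hk : k < k4 n d) (hP : PhiB n d k s ≤ 1) :
    EnvB n d k s.F s.Zp s.Zm (forbS vert s) := by
  have hcard := card_eq_Nk hfib hV h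
  have hN := NkB_pos hk
  have hc : 0 < s.F.card := by
    rw [← hcard] at hN
    exact_mod_cast hN
  obtain ⟨sp, sm⟩ := h.sg hd hfib hc
  have np := fOneB_nonneg (n := n) (d := d) (k := k) hN.le sp
  have nm := fOneB_nonneg (n := n) (d := d) (k := k) hN.le sm
  unfold PhiB at hP
  exact
    { d3 := hd
      k_ge := hk3
      k_lt := hk
      card := hcard
      p := oneB_of hσ hk3 hk hcard sp (by linarith)
      m := oneB_of hσ hk3 hk hcard sm (by linarith)
      fo :=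
        { Δ0 := by positivity
          symm := fun a b => forbS_comm.1
          card := by
            intro inst a ha
            have := card_forbS_le hfib h a
            exact_mod_cast this } }

end Vale.Agent.P049.TS.Asm
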