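import Vale.Agent.P049.TS.Asm.ParC
import Vale.Agent.P049.TS.Asm.EnvOf
import Vale.Agent.P049.TS.Asm.ExpoEnv
import Vale.Agent.P049.TS.Asm.Thr

/-!
Facts on the phase IIIa: thresholds, range `σ^680 ≤ N ≤ σ^699`, the parameters as monomials,
the numbers `rhoC, tgC, gC, thC`.
-/

set_option linter.unusedSectionVars false
set_option exponentiation.threshold 3000

namespace Vale.Agent.P049.TS.Asm

open Matrix Finset

variable {n d k : ℕ}

/-! ### The thresholds -/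

theorem lt_of_lt_k3 (hk : k < k3 n d) : 2 * k + sR n ^ 680 < n * d := by
  unfold k3 at hk
  omega

theorem k2_le_k3 (h : 1 ≤ sR n) : k2 n d ≤ k3 n d := by
  unfold k2 k3
  have : sR n ^ 680 ≤ sR n ^ 699 := Nat.pow_le_pow_right h (by norm_num)
  omega

theorem Nk_gt3 (hk : k < k3 n d) : (sR n : ℝ) ^ 680 < Nk n d k := by
  have h := lt_of_lt_k3 hk
  unfold Nk
  have : ((2 * k + sR n ^ 680 : ℕ) : ℝ) < ((n * d : ℕ) : ℝ) := by exact_mod_cast h
  push_cast at this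
  linarith

theorem k3_pos (h : 2000 ≤ sR n) (hd : 3 ≤ d) : 0 < k3 n d :=
  lt_of_lt_of_le (k2_pos h hd) (k2_le_k3 (by omega))

theorem Nk3_ge (h : 2000 ≤ sR n) (hd : 3 ≤ d) :
    (sR n : ℝ) ^ 680 - 1 ≤ Nk n d (k3 n d) := by
  have h2 := k3_pos h hd
  have h3 : 2 * k3 n d + sR n ^ 680 ≤ n * d + 1 := by
    unfold k3 at h2 ⊢; omega
  have h4 : ((2 * k3 n d + sR n ^ 680 : ℕ) : ℝ) ≤ ((n * d + 1 : ℕ) : ℝ) := by exact_mod_cast h3
  unfold Nk
  push_cast at h4
  linarith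

theorem Nk3_pos (h : 2000 ≤ sR n) (hd : 3 ≤ d) : 0 < Nk n d (k3 n d) := by
  have h1 := Nk3_ge h hd
  have := const_mul_pow_le (c := 2) (sR_one h) (by linarith [sR_ge h])
      (show 0 < 680 by norm_num)
  simp only [pow_zero, mul_one] at this
  linarith

theorem Nk_posC (h : 2000 ≤ sR n) (hd : 3 ≤ d) (hk : k ≤ k3 n d) : 0 < Nk n d k := by
  rcases hk.lt_or_eq with h1 | h1
  · have := Nk_gt3 h1
    have : (0 : ℝ) ≤ (sR n : ℝ) ^ 680 := by positivity
    linarith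
  · rw [h1]; exact Nk3_pos h hd

/-- the range of the phase IIIa -/
theorem rg3 (h : 2000 ≤ sR n) (hk1 : k2 n d ≤ k) (hk : k < k3 n d) :
    Rg (LL n) (XX n d k) 680 699 where
  lt := by norm_num
  lo := by
    have hσ : (0 : ℝ) < sR n := sR_pos h
    have h1 := Real.log_le_log (by positivity) (Nk_gt3 hk).le
    rw [Real.log_pow] at h1
    push_cast at h1
    exact h1
  hi := by
    have hN : 0 < Nk n d k := lt_of_le_of_lt (by positivity) (Nk_gt3 hk)
    have h1 := Real.log_le_log hN (Nk_le2 hk1)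
    rw [Real.log_pow] at h1
    push_cast at h1
    exact h1

/-! ### The parameters as monomials (`xl = 680`, `xh = 699`) -/

theorem bC_Em : bC n d k = Em (LL n) (XX n d k) 680 699 1325 1306 :=
  mo_eq_Em (by norm_num) (by norm_num) (by norm_num)

theorem moN_C : mo (LL n) (XX n d k) 0 (1 / 2) = Em (LL n) (XX n d k) 680 699 1360 1398 :=
  mo_eq_Em (by norm_num) (by norm_num) (by norm_num)

theorem tC_Em : tC n d k ≤ 2 * Em (LL n) (XX n d k) 680 699 1360 1398 := by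
  unfold tC
  rw [moN_C]
  exact mul_le_mul_of_nonneg_right sqrt_two_le (Em_pos _ _ _ _ _ _).le

theorem sC_Em : sC n d k = Em (LL n) (XX n d k) 680 699 208 208 :=
  mo_eq_Em (by norm_num) (by norm_num) (by norm_num)

theorem vC_Em : vC n d k = Em (LL n) (XX n d k) 680 699 1402 1402 :=
  mo_eq_Em (by norm_num) (by norm_num) (by norm_num)

theorem wC_Em : wC n d k = Em (LL n) (XX n d k) 680 699 1400 1400 :=
  mo_eq_Em (by norm_num) (by norm_num) (by norm_num)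

theorem eC_Em : eC n d k = (d + 25) * Em (LL n) (XX n d k) 680 699 1360 1398 := by
  unfold eC
  rw [moN_C]

theorem Nk_Em (h : 0 < Nk n d k) : Nk n d k = Em (LL n) (XX n d k) 680 699 2720 2796 := by
  rw [Nk_eq_mo h (LL n)]
  exact mo_eq_Em (by norm_num) (by norm_num) (by norm_num)

theorem rT_Em : rT n d k = Em (LL n) (XX n d k) 680 699 2716 2792 :=
  mo_eq_Em (by norm_num) (by norm_num) (by norm_num)

/-! ### Squares of the parameters -/

theorem bC_nonneg (n d k : ℕ) : 0 ≤ bC n d k := mo_nonneg _ _ _ _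
theorem tC_nonneg (n d k : ℕ) : 0 ≤ tC n d k := mul_nonneg (Real.sqrt_nonneg _) (mo_nonneg _ _ _ _)
theorem sC_nonneg (n d k : ℕ) : 0 ≤ sC n d k := mo_nonneg _ _ _ _
theorem vC_nonneg (n d k : ℕ) : 0 ≤ vC n d k := mo_nonneg _ _ _ _
theorem wC_nonneg (n d k : ℕ) : 0 ≤ wC n d k := mo_nonneg _ _ _ _
theorem eC_nonneg (n d k : ℕ) : 0 ≤ eC n d k := mul_nonneg (by positivity) (mo_nonneg _ _ _ _)

theorem bC_four (h : 0 < Nk n d k) (h1 : 1 ≤ sR n) :
    bC n d k ^ 4 = (sR n : ℝ) ^ 2005 / Nk n d k := by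
  unfold bC
  rw [mo_pow, Nk_eq_mo h (LL n), sR_pow h1 (XX n d k), mo_div]
  norm_num

theorem tC_sq (h : 0 < Nk n d k) : tC n d k ^ 2 = 2 * Nk n d k := by
  unfold tC
  rw [mul_pow, Real.sq_sqrt (by norm_num), mo_pow, Nk_eq_mo h (LL n)]
  norm_num

theorem sC_sq (h : 1 ≤ sR n) : sC n d k ^ 2 = (sR n : ℝ) ^ 104 := by
  unfold sC
  rw [mo_pow, sR_pow h (XX n d k)]
  norm_num

theorem vC_sq (h : 1 ≤ sR n) : vC n d k ^ 2 = (sR n : ℝ) ^ 701 := by
  unfold vC
  rw [mo_pow, sR_pow h (XX n d k)]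
  norm_num

theorem wC_sq (h : 1 ≤ sR n) : wC n d k ^ 2 = (sR n : ℝ) ^ 700 := by
  unfold wC
  rw [mo_pow, sR_pow h (XX n d k)]
  norm_num

theorem eC_sq (h : 0 < Nk n d k) : eC n d k ^ 2 = ((d : ℝ) + 25) ^ 2 * Nk n d k := by
  unfold eC
  rw [mul_pow, mo_pow, Nk_eq_mo h (LL n)]
  norm_num

theorem rT_eqC (h : 0 < Nk n d k) (h1 : 1 ≤ sR n) : rT n d k = Nk n d k / sR n := by
  have e := sR_pow h1 (XX n d k) 1
  rw [pow_one] at e
  unfold rT
  rw [Nk_eq_mo h (LL n), e, mo_div]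
  norm_num

/-! ### The numbers `C, ρ, tgC, gC, thC` -/

theorem CC_pos (h : 2000 ≤ sR n) : 0 < CC n := by
  unfold CC
  have := sR_pos h
  positivity

theorem rhoC_pos (h : 2000 ≤ sR n) (hN : 0 < Nk n d k) : 0 < rhoC n d k := by
  unfold rhoC
  have := sR_pos h
  positivity

theorem gC_pos (h : 2000 ≤ sR n) (hN : 0 < Nk n d k) : 0 < gC n d k := by
  unfold gC
  have := sR_pos h
  have := CC_pos h
  positivity

theorem thC_pos (h : 2000 ≤ sR n) (hN : 0 < Nk n d k) : 0 < thC n d k := by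
  unfold thC
  have := sR_pos h
  have := CC_pos h
  positivity

theorem tgC_nonneg (h : 2000 ≤ sR n) (hN : 0 < Nk n d k) : 0 ≤ tgC n d k := by
  unfold tgC
  have := CC_pos h
  positivity

theorem sq_add_le_aux {N C P : ℝ} (h3 : 4 * N ^ 2 ≤ P * N) (h4 : 4 * C ^ 2 ≤ P * N) :
    (N + C) ^ 2 ≤ P * N := by nlinarith [sq_nonneg (N - C)]

theorem four_sq_le_aux {N P M : ℝ} (h0 : 0 ≤ N) (h1 : N ≤ M) (h2 : 4 * M ≤ P) :
    4 * N ^ 2 ≤ P * N := by nlinarith

theorem half_mul_le_aux {N P q w u : ℝ} (h0 : 0 ≤ P) (h1 : q / 2 ≤ N) (h2 : P * q = w)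
    (h3 : 8 * u ≤ w) : 4 * u ≤ P * N := by nlinarith

/-- `(N + C)² ≤ σ^700 N` on the whole phase -/
theorem sq_NC_le (h : 2000 ≤ sR n) (hN1 : (sR n : ℝ) ^ 680 / 2 ≤ Nk n d k)
    (hN2 : Nk n d k ≤ (sR n : ℝ) ^ 699) :
    (Nk n d k + CC n) ^ 2 ≤ (sR n : ℝ) ^ 700 * Nk n d k := by
  have hs0 := sR_pos h
  have hs1 := sR_one h
  have hs2 := sR_ge h
  have hN : 0 < Nk n d k := lt_of_lt_of_le (by positivity) hN1
  refine sq_add_le_aux ?_ ?_
  · refine four_sq_le_aux hN.le hN2 ?_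
    exact const_mul_pow_le hs1 (by linarith) (by norm_num)
  · have e2 : CC n ^ 2 = (sR n : ℝ) ^ 1370 := by unfold CC; rw [← pow_mul]
    rw [e2]
    refine half_mul_le_aux (q := (sR n : ℝ) ^ 680) (w := (sR n : ℝ) ^ (700 + 680)) (by positivity)
      hN1 (pow_add _ _ _).symm ?_
    exact const_mul_pow_le hs1 (by linarith) (by norm_num)

/-- `N ≤ thC` -/
theorem Nk_le_thC (h : 2000 ≤ sR n) (hN1 : (sR n : ℝ) ^ 680 / 2 ≤ Nk n d k)
    (hN2 : Nk n d k ≤ (sR n : ℝ) ^ 699) : Nk n d k ≤ thC n d k := by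
  have hs0 := sR_pos h
  have hN : 0 < Nk n d k := lt_of_lt_of_le (by positivity) hN1
  have hC := CC_pos h
  have hp : 0 < (Nk n d k + CC n) ^ 2 := pow_pos (add_pos hN hC) 2
  unfold thC
  rw [le_div_iff₀ hp]
  have h1 := sq_NC_le h hN1 hN2
  calc Nk n d k * (Nk n d k + CC n) ^ 2 ≤ Nk n d k * ((sR n : ℝ) ^ 700 * Nk n d k) :=
        mul_le_mul_of_nonneg_left h1 hN.le
    _ = _ := by ring

/-- `thC ≤ σ^700` -/
theorem thC_le (h : 2000 ≤ sR n) (hN : 0 < Nk n d k) : thC n d k ≤ (sR n : ℝ) ^ 700 := by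
  have hs0 := sR_pos h
  have hC := CC_pos h
  unfold thC
  rw [div_le_iff₀ (by positivity)]
  apply mul_le_mul_of_nonneg_left _ (by positivity)
  apply pow_le_pow_left₀ hN.le
  linarith

/-- `thC ≤ σ^15 N` -/
theorem thC_le' (h : 2000 ≤ sR n) (hN : 0 < Nk n d k) :
    thC n d k ≤ (sR n : ℝ) ^ 15 * Nk n d k := by
  have hs0 := sR_pos h
  have hC := CC_pos h
  unfold thC
  rw [div_le_iff₀ (by positivity)]
  have e1 : (sR n : ℝ) ^ 700 = (sR n : ℝ) ^ 15 * CC n := by unfold CC; rw [← pow_add]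
  rw [e1]
  have h1 : Nk n d k * CC n ≤ (Nk n d k + CC n) ^ 2 := by nlinarith [sq_nonneg (Nk n d k + CC n)]
  calc (sR n : ℝ) ^ 15 * CC n * Nk n d k ^ 2 =
        (sR n : ℝ) ^ 15 * Nk n d k * (Nk n d k * CC n) := by ring
    _ ≤ _ := mul_le_mul_of_nonneg_left h1 (by positivity)

/-- `thC ≥ σ^{-670} N² / 4` or `≥ σ^700 / 4`; in one formula:
`4 thC σ^{670} ≥ N²` or ... as a monomial with exponents `690`, `700` at the ends -/
theorem chord (h : 2000 ≤ sR n) (hk1 : k2 n d ≤ k) (hk : k < k3 n d) :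
    Em (LL n) (XX n d k) 680 699 (-40) 0 ≤ 4 * (Nk n d k / (Nk n d k + CC n)) ^ 2 := by
  have R := rg3 h hk1 hk
  have hN : 0 < Nk n d k := lt_of_le_of_lt (by positivity) (Nk_gt3 hk)
  have hC := CC_pos h
  have e2 : CC n = Em (LL n) (XX n d k) 680 699 2740 2740 := by
    unfold CC
    exact sR_pow_Em h (by norm_num) 685
  have e1 := Nk_Em (n := n) (d := d) (k := k) hN
  rcases le_total (Nk n d k) (CC n) with h1 | h1
  · -- `N ≤ C`: `N / (N + C) ≥ N / (2C)`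
    have h2 : Nk n d k / (2 * CC n) ≤ Nk n d k / (Nk n d k + CC n) :=
      div_le_div_of_nonneg_left hN.le (by positivity) (by linarith)
    have h3 : (Nk n d k / (2 * CC n)) ^ 2 ≤ (Nk n d k / (Nk n d k + CC n)) ^ 2 :=
      pow_le_pow_left₀ (by positivity) h2 2
    have h4 : 4 * (Nk n d k / (2 * CC n)) ^ 2 = (Nk n d k / CC n) ^ 2 := by
      field_simp
      ring
    have h5 : Em (LL n) (XX n d k) 680 699 (-40) 0 ≤ (Nk n d k / CC n) ^ 2 := by
      have h6 : Nk n d k / CC n = Em (LL n) (XX n d k) 680 699 (-20) 56 := by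
        rw [div_eq_iff hC.ne', e2, Em_mul, ← show ((2720 : ℤ)) = -20 + 2740 by norm_num,
          ← show ((2796 : ℤ)) = 56 + 2740 by norm_num]
        exact e1
      rw [h6, Em_pow]
      exact Em_le R (by norm_num) (by norm_num)
    linarith
  · have h2 : (1 : ℝ) / 2 ≤ Nk n d k / (Nk n d k + CC n) := by
      rw [div_le_div_iff₀ (by norm_num) (by positivity)]
      linarith
    have h3 : ((1 : ℝ) / 2) ^ 2 ≤ (Nk n d k / (Nk n d k + CC n)) ^ 2 :=
      pow_le_pow_left₀ (by positivity) h2 2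
    have h4 : Em (LL n) (XX n d k) 680 699 (-40) 0 ≤ 1 := by
      rw [← Em_zero (LL n) (XX n d k) 680 699]
      exact Em_le R (by norm_num) le_rfl
    norm_num at h3
    linarith

/-- lower bound of `gC` by a monomial -/
theorem gC_ge (h : 2000 ≤ sR n) (hk1 : k2 n d ≤ k) (hk : k < k3 n d) :
    Em (LL n) (XX n d k) 680 699 2680 2720 ≤ 4 * gC n d k := by
  have hN : 0 < Nk n d k := lt_of_le_of_lt (by positivity) (Nk_gt3 hk)
  have hC := CC_pos h
  have hs0 := sR_pos h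
  have e : 4 * gC n d k = (sR n : ℝ) ^ 680 * (4 * (Nk n d k / (Nk n d k + CC n)) ^ 2) := by
    unfold gC CC
    rw [div_pow]
    field_simp
  rw [e, sR_pow_Em h (X := XX n d k) (show (680 : ℝ) < 699 by norm_num) 680]
  have h1 := chord h hk1 hk
  calc Em (LL n) (XX n d k) 680 699 2680 2720
      = Em (LL n) (XX n d k) 680 699 (4 * (680 : ℕ)) (4 * (680 : ℕ)) *
        Em (LL n) (XX n d k) 680 699 (-40) 0 := by rw [Em_mul]; norm_num
    _ ≤ _ := mul_le_mul_of_nonneg_left h1 (Em_pos _ _ _ _ _ _).le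

/-- lower bound of `thC` by a monomial -/
theorem thC_ge (h : 2000 ≤ sR n) (hk1 : k2 n d ≤ k) (hk : k < k3 n d) :
    Em (LL n) (XX n d k) 680 699 2760 2800 ≤ 4 * thC n d k := by
  have hN : 0 < Nk n d k := lt_of_le_of_lt (by positivity) (Nk_gt3 hk)
  have hC := CC_pos h
  have hs0 := sR_pos h
  have e : 4 * thC n d k = (sR n : ℝ) ^ 700 * (4 * (Nk n d k / (Nk n d k + CC n)) ^ 2) := by
    unfold thC
    rw [div_pow]
    field_simp
  rw [e, sR_pow_Em h (X := XX n d k) (show (680 : ℝ) < 699 by norm_num) 700]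
  have h1 := chord h hk1 hk
  calc Em (LL n) (XX n d k) 680 699 2760 2800
      = Em (LL n) (XX n d k) 680 699 (4 * (700 : ℕ)) (4 * (700 : ℕ)) *
        Em (LL n) (XX n d k) 680 699 (-40) 0 := by rw [Em_mul]; norm_num
    _ ≤ _ := mul_le_mul_of_nonneg_left h1 (Em_pos _ _ _ _ _ _).le

theorem rhoC_Em (h : 2000 ≤ sR n) (hN : 0 < Nk n d k) :
    8 * rhoC n d k = Em (LL n) (XX n d k) 680 699 1460 1536 := by
  have hs0 := sR_pos h
  have e : 8 * rhoC n d k = Nk n d k / (sR n : ℝ) ^ 315 := by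
    unfold rhoC; field_simp
  rw [e, div_eq_iff (by positivity), sR_pow_Em h (X := XX n d k)
    (show (680 : ℝ) < 699 by norm_num) 315, Em_mul]
  norm_num
  exact Nk_Em hN

end Vale.Agent.P049.TS.Asm
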