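import Vale.Agent.P049.TS.Asm.EnvC

/-!
Phase IIIa: `Reach` and `PhiC ≤ 1` give `EnvC`; the hypotheses of the drift lemmas.
-/

set_option linter.unusedSectionVars false
set_option exponentiation.threshold 3000

namespace Vale.Agent.P049.TS.Asm

open Matrix Finset

variable {n d k : ℕ}
variable {ι : Type*} [Fintype ι] [DecidableEq ι] {F : Finset ι} {Z Zp Zm : Matrix ι ι ℝ} {ε : ℝ}
  {forb : ι → ι → Prop}

/-! ### The hypotheses of the drift lemmas -/

theorem OneC.ctl (h : OneC n d k ε F Z) :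
    D12.Ctl F Z (bC n d k) (tC n d k) (sC n d k) (vC n d k) (wC n d k) where
  symm := h.symm
  supp := h.supp
  row := h.row
  b0 := bC_nonneg _ _ _
  t0 := tC_nonneg _ _ _
  s0 := sC_nonneg _ _ _
  v0 := vC_nonneg _ _ _
  w0 := wC_nonneg _ _ _
  T4 := h.T4
  T2 := h.T2
  X0 := h.X0
  S := h.S
  V := h.V
  W := h.W

/-- the same with `v² = 2 thC`, `w² = thC` -/
theorem OneC.ctl' (hσ : 2000 ≤ sR n) (hk1 : k2 n d ≤ k) (hk : k < k3 n d)
    (h : OneC n d k ε F Z) :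
    D12.Ctl F Z (bC n d k) (tC n d k) (sC n d k) (√(2 * thC n d k)) (√(thC n d k)) where
  symm := h.symm
  supp := h.supp
  row := h.row
  b0 := bC_nonneg _ _ _
  t0 := tC_nonneg _ _ _
  s0 := sC_nonneg _ _ _
  v0 := Real.sqrt_nonneg _
  w0 := Real.sqrt_nonneg _
  T4 := h.T4
  T2 := h.T2
  X0 := h.X0
  S := h.S
  V := by
    have hN1 := (Nk_gt3 hk).le
    have hs := sR_pos hσ
    have hN : 0 < Nk n d k := lt_of_lt_of_le (by positivity) hN1
    have h1 := thC_pos hσ hN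
    rw [Real.sq_sqrt (mul_nonneg (by norm_num) h1.le)]
    have h2 : Nk n d k ≤ thC n d k := by
      refine Nk_le_thC hσ ?_ (Nk_le2 hk1)
      have : (0 : ℝ) ≤ (sR n : ℝ) ^ 680 := by positivity
      linarith
    have h3 : ∑ a ∈ F, ((Z ^ 2) a a - 1) ^ 2 ≤ thC n d k + Nk n d k := h.Vr
    linarith
  W := by
    have hN1 := (Nk_gt3 hk).le
    have hs := sR_pos hσ
    have hN : 0 < Nk n d k := lt_of_lt_of_le (by positivity) hN1
    rw [Real.sq_sqrt (thC_pos hσ hN).le]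
    exact h.V2r

theorem OneC.opB (h : OneC n d k ε F Z) : Mat.OpB Z (bC n d k) :=
  Mat.opB_of_trace_four h.symm h.T4

theorem EnvC.oneC (h : EnvC n d k F Zp Zm forb) (hs : Sgn Zp Zm ε Z) : OneC n d k ε F Z := by
  rcases hs with ⟨rfl, rfl⟩ | ⟨rfl, rfl⟩
  · exact h.p
  · exact h.m

theorem EnvC.Nk_pos (hσ : 2000 ≤ sR n) (h : EnvC n d k F Zp Zm forb) : 0 < Nk n d k := by
  have hs := sR_pos hσ
  exact lt_of_le_of_lt (by positivity) (Nk_gt3 h.k_lt)

theorem OneC.frob_le (h : OneC n d k ε F Z) : frob Z ≤ Nk n d k := by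
  have h1 : frob Z = (Z ^ 2).trace := by
    have := Mat.frob_eq_trace_sq h.symm
    exact this
  rw [h1]
  exact h.T2_le

theorem card_complC_le (hσ : 2000 ≤ sR n) (h : EnvC n d k F Zp Zm forb) :
    ((((F ×ˢ F) \ adm F forb Zp Zm).card : ℕ) : ℝ) ≤ eC n d k ^ 2 := by
  classical
  have hN := h.Nk_pos hσ
  have h1 := card_compl_adm_le (F := F) (forb := forb) (Zp := Zp) (Zm := Zm)
    (Δ := (d : ℝ) * (d + 1)) (h.tp.card)
  have hp := h.p.frob_le
  have hm := h.m.frob_le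
  have hSp := h.p.Sr
  have hSm := h.m.Sr
  have hs1 := sR_one hσ
  have hs0 := sR_pos hσ
  have hN2 : (sR n : ℝ) ^ 208 ≤ Nk n d k :=
    (pow_le_pow_right₀ hs1 (by norm_num)).trans (Nk_gt3 h.k_lt).le
  have e1 : Sd F Zp ^ 2 ≤ Nk n d k := by
    calc Sd F Zp ^ 2 ≤ ((sR n : ℝ) ^ 104) ^ 2 := pow_le_pow_left₀ (Sd_nonneg _ _) hSp 2
      _ = (sR n : ℝ) ^ 208 := by rw [← pow_mul]
      _ ≤ _ := hN2
  have e2 : Sd F Zm ^ 2 ≤ Nk n d k := by
    calc Sd F Zm ^ 2 ≤ ((sR n : ℝ) ^ 104) ^ 2 := pow_le_pow_left₀ (Sd_nonneg _ _) hSm 2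
      _ = (sR n : ℝ) ^ 208 := by rw [← pow_mul]
      _ ≤ _ := hN2
  rw [eC_sq hN]
  rw [h.card] at h1
  have hd : (0 : ℝ) ≤ d := Nat.cast_nonneg d
  clear hN2 hSp hSm hs1 hs0
  nlinarith

theorem EnvC.total_weight (hσ : 2000 ≤ sR n) (hσd : 2 * ((d : ℝ) + 25) ^ 2 ≤ sR n)
    (h : EnvC n d k F Zp Zm forb) :
    Nk n d k ^ 2 / 2 ≤ ((adm F forb Zp Zm).card : ℝ) := by
  classical
  have hN := h.Nk_pos hσ
  have h1 := card_complC_le hσ h
  have h2 : (((F ×ˢ F) \ adm F forb Zp Zm).card : ℝ) + ((adm F forb Zp Zm).card : ℝ) =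
      (F.card : ℝ) * F.card := by
    have e := Finset.card_sdiff_add_card_eq_card (adm_subset F forb Zp Zm)
    rw [Finset.card_product] at e
    exact_mod_cast e
  rw [h.card] at h2
  rw [eC_sq hN] at h1
  have h3 : 2 * ((d : ℝ) + 25) ^ 2 ≤ Nk n d k := by
    have hs1 := sR_one hσ
    refine hσd.trans (le_trans ?_ (Nk_gt3 h.k_lt).le)
    calc (sR n : ℝ) = (sR n : ℝ) ^ 1 := (pow_one _).symm
      _ ≤ _ := pow_le_pow_right₀ hs1 (by norm_num)
  nlinarith

/-! ### nonnegativity of the potentials -/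

theorem A1c_nonneg (n d k : ℕ) (ε : ℝ) (Z : Matrix ι ι ℝ) : 0 ≤ A1c n d k ε Z := by
  unfold A1c; positivity

theorem A2c_nonneg (n d : ℕ) (ε : ℝ) (Z : Matrix ι ι ℝ) : 0 ≤ A2c n d ε Z := by
  unfold A2c; positivity

theorem AFc_nonneg (n d k : ℕ) (Z : Matrix ι ι ℝ) : 0 ≤ AFc n d k Z := by
  unfold AFc; positivity

theorem A3c_nonneg (n d : ℕ) (ε : ℝ) (Z : Matrix ι ι ℝ) : 0 ≤ A3c n d ε Z := by
  unfold A3c; positivity

theorem trace_four_nonneg (hZ : Z.IsSymm) : 0 ≤ (Z ^ 4).trace := by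
  rw [Mat.trace_four_eq_frob hZ]; exact Mat.frob_nonneg _

theorem A4c_nonneg (hZ : Z.IsSymm) (h : 0 ≤ Nk n d k) : 0 ≤ A4c n d k Z := by
  unfold A4c
  have := trace_four_nonneg hZ
  positivity

theorem gV2_nonneg' (F : Finset ι) (Z : Matrix ι ι ℝ) : 0 ≤ gV2 F Z :=
  Finset.sum_nonneg fun _ _ => sq_nonneg _

theorem A5c_nonneg (h : 2000 ≤ sR n) (hN : 0 < Nk n d k) : 0 ≤ A5c n d k F Z := by
  unfold A5c
  exact div_nonneg (gV2_nonneg' _ _) (thC_pos h hN).le

theorem A6c_nonneg (n : ℕ) (F : Finset ι) (Z : Matrix ι ι ℝ) : 0 ≤ A6c n F Z := by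
  unfold A6c
  have := Sd_nonneg F Z
  positivity

theorem cOne_nonneg (h : 2000 ≤ sR n) (hN : 0 < Nk n d k) (hZ : Z.IsSymm) :
    0 ≤ cOne n d k ε F Z := by
  unfold cOne
  have := A1c_nonneg n d k ε Z
  have := A2c_nonneg n d ε Z
  have := AFc_nonneg n d k Z
  have := A3c_nonneg n d ε Z
  have := A4c_nonneg (n := n) (d := d) (k := k) hZ hN.le
  have := A5c_nonneg (F := F) (Z := Z) h hN
  have := A6c_nonneg n F Z
  linarith

/-! ### one sign -/

theorem one_le_T2_of_sg {m : ℝ} (h : Sg F Z m ε) : 1 ≤ (Z ^ 2).trace := by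
  have hN : (0 : ℝ) < F.card := by exact_mod_cast h.card
  have h1 : ∀ c ∈ F, 1 ≤ F.card * (Z ^ 2) c c := by
    intro c hc
    have a1 := h.col_sum 1 hc
    have a2 := h.col_sq 1 hc
    rw [pow_one] at a1
    have a3 : (∑ i ∈ F, Z i c) ^ 2 ≤ F.card * ∑ i ∈ F, Z i c ^ 2 := sq_sum_le_card_mul_sum_sq
    simp only [pow_one, mul_one] at a2
    rw [a1, a2] at a3
    linarith
  have supp : ∀ a, a ∉ F → ∀ b, Z a b = 0 := fun a ha b => h.supp a b (Or.inl ha)
  rw [← sum_w_eq supp]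
  have h7 : (F.card : ℝ) * 1 ≤ F.card * ∑ a ∈ F, (Z ^ 2) a a := by
    rw [Finset.mul_sum]
    calc (F.card : ℝ) * 1 = ∑ _a ∈ F, (1 : ℝ) := by simp
      _ ≤ _ := Finset.sum_le_sum h1
  exact le_of_mul_le_mul_left h7 hN

theorem le_of_max_sq_div {x c : ℝ} (hc : 0 < c) (h : (max x 0) ^ 2 / c ^ 2 ≤ 1) : x ≤ c :=
  (le_max_left x 0).trans ((le_abs_self _).trans (sq_le_of_div_le hc h))

/-- `tgC + gC + 1 ≤ N` -/
theorem tgC_add_le (h : 2000 ≤ sR n) (hN1 : (sR n : ℝ) ^ 680 / 2 ≤ Nk n d k) :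
    tgC n d k + gC n d k + 1 ≤ Nk n d k := by
  have hs0 := sR_pos h
  have hs1 := sR_one h
  have hs2 := sR_ge h
  have hC := CC_pos h
  have hN : 0 < Nk n d k := lt_of_lt_of_le (by positivity) hN1
  have h4 : (4 : ℝ) ≤ Nk n d k := by
    have := const_mul_pow_le (c := 8) hs1 (by linarith) (show 0 < 680 by norm_num)
    simp only [pow_zero, mul_one] at this
    linarith
  have hC4 : (4 : ℝ) ≤ CC n := by
    unfold CC
    have := const_mul_pow_le (c := 4) hs1 (by linarith) (show 0 < 685 by norm_num)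
    simpa using this
  have hs5 : (4 : ℝ) ≤ (sR n : ℝ) ^ 5 := by
    have := const_mul_pow_le (c := 4) hs1 (by linarith) (show 0 < 5 by norm_num)
    simpa using this
  clear hN1 hs1 hs2
  unfold tgC gC
  generalize Nk n d k = N at *
  generalize CC n = C at *
  generalize (sR n : ℝ) ^ 5 = u at *
  have hNC : 0 < N + C := by linarith
  have e1 : N ^ 2 * C / (u * (N + C) ^ 2) ≤ N ^ 2 * C / (4 * (N + C) ^ 2) :=
    div_le_div_of_nonneg_left (by positivity) (by positivity)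
      (mul_le_mul_of_nonneg_right hs5 (by positivity))
  have e2 : N ^ 2 * C / (4 * (N + C) ^ 2) ≤ N * C / (4 * (N + C)) := by
    rw [div_le_div_iff₀ (by positivity) (by positivity)]
    have : 0 ≤ N * C * (4 * (N + C)) * C := by positivity
    nlinarith
  have e3 : N ^ 2 / (N + C) + N * C / (4 * (N + C)) + 1 ≤ N := by
    rw [div_add_div _ _ (by positivity) (by positivity), ← sub_nonneg]
    have e4 : N - ((N ^ 2 * (4 * (N + C)) + (N + C) * (N * C)) / ((N + C) * (4 * (N + C))) + 1) =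
        (3 * N * C - 4 * (N + C)) / (4 * (N + C)) := by
      field_simp
      ring
    rw [e4]
    apply div_nonneg _ (by positivity)
    nlinarith
  linarith

theorem oneC_of (hd : 3 ≤ d) (hσ : 2000 ≤ sR n) (hk1 : k2 n d ≤ k) (hk : k < k3 n d)
    (hcard : (F.card : ℝ) = Nk n d k) (hs : Sg F Z (√((d : ℝ) - 1))⁻¹ ε)
    (h : cOne n d k ε F Z ≤ 1) : OneC n d k ε F Z := by
  have hs1 := sR_one hσ
  have hs0 := sR_pos hσ
  have hs2 := sR_ge hσ
  have hNg := (Nk_gt3 hk).le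
  have hNl := Nk_le2 hk1
  have hN : 0 < Nk n d k := lt_of_lt_of_le (by positivity) hNg
  have hNg' : (sR n : ℝ) ^ 680 / 2 ≤ Nk n d k := by
    have : (0 : ℝ) ≤ (sR n : ℝ) ^ 680 := by positivity
    linarith
  have supp : ∀ a, a ∉ F → ∀ b, Z a b = 0 := fun a ha b => hs.supp a b (Or.inl ha)
  have n1 := A1c_nonneg n d k ε Z
  have n2 := A2c_nonneg n d ε Z
  have nF := AFc_nonneg n d k Z
  have n3 := A3c_nonneg n d ε Z
  have n4 := A4c_nonneg (n := n) (d := d) (k := k) hs.symm hN.le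
  have n5 := A5c_nonneg (F := F) (Z := Z) hσ hN
  have n6 := A6c_nonneg n F Z
  unfold cOne at h
  have h1 : A1c n d k ε Z ≤ 1 := by linarith
  have h2 : A2c n d ε Z ≤ 1 := by linarith
  have hF : AFc n d k Z ≤ 1 := by linarith
  have h3 : A3c n d ε Z ≤ 1 := by linarith
  have h4 : A4c n d k Z ≤ 1 := by linarith
  have h5 : A5c n d k F Z ≤ 1 := by linarith
  have h6 : A6c n F Z ≤ 1 := by linarith
  have hρ := rhoC_pos hσ hN
  have T1_le : ε * Z.trace ≤ -rhoC n d k := by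
    have := le_of_max_sq_div hρ h1
    linarith
  have T1_ge : -((5 * (d : ℝ) ^ 2 + 1) * (sR n : ℝ) ^ 384) ≤ ε * Z.trace := by
    have e : (sR n : ℝ) ^ 768 = ((sR n : ℝ) ^ 384) ^ 2 := by rw [← pow_mul]
    unfold A2c at h2
    rw [e] at h2
    have := le_of_max_sq_div (by positivity) h2
    clear e
    linarith
  have TF : (Z ^ 2).trace - 1 ≤ tgC n d k + gC n d k := by
    have := le_of_max_sq_div (gC_pos hσ hN) hF
    linarith
  have T3_le : ε * (Z ^ 3).trace ≤ (3 * (d : ℝ) ^ 2 + 1) * (sR n : ℝ) ^ 1000 := by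
    have e : (sR n : ℝ) ^ 2000 = ((sR n : ℝ) ^ 1000) ^ 2 := by rw [← pow_mul]
    unfold A3c at h3
    rw [e] at h3
    have := le_of_max_sq_div (by positivity) h3
    clear e
    linarith
  have T4r : (Z ^ 4).trace * Nk n d k ≤ (sR n : ℝ) ^ 2004 := by
    unfold A4c at h4
    rwa [div_le_one (by positivity)] at h4
  have V2r : gV2 F Z ≤ thC n d k := by
    unfold A5c at h5
    rwa [div_le_one (thC_pos hσ hN)] at h5
  have Sr : Sd F Z ≤ (sR n : ℝ) ^ 104 := by
    unfold A6c at h6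
    rwa [div_le_one (by positivity)] at h6
  have T2_ge := one_le_T2_of_sg hs
  have T2_le : (Z ^ 2).trace ≤ Nk n d k := by
    have := tgC_add_le hσ hNg'
    linarith
  have hNth := Nk_le_thC hσ hNg' hNl
  have Vr : gV F Z ≤ thC n d k + Nk n d k := by
    have e := sum_w_sq_eq (F := F) (Z := Z) supp
    have e' : gV2 F Z = gV F Z + 2 * (Z ^ 2).trace - F.card := e
    rw [hcard] at e'
    linarith
  have hT4 : (Z ^ 4).trace + Nk n d k ≤ bC n d k ^ 4 := by
    rw [bC_four hN (by omega), le_div_iff₀ hN]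
    have e1 : Nk n d k ^ 2 ≤ (sR n : ℝ) ^ 2004 := by
      calc Nk n d k ^ 2 ≤ ((sR n : ℝ) ^ 699) ^ 2 := pow_le_pow_left₀ hN.le hNl 2
        _ = (sR n : ℝ) ^ 1398 := by rw [← pow_mul]
        _ ≤ _ := pow_le_pow_right₀ hs1 (by norm_num)
    have e2 : 2 * (sR n : ℝ) ^ 2004 ≤ (sR n : ℝ) ^ 2005 :=
      const_mul_pow_le hs1 (by linarith) (by norm_num)
    generalize (sR n : ℝ) ^ 2004 = u at *
    generalize (sR n : ℝ) ^ 2005 = w at *
    nlinarith
  have hT4' := trace_four_nonneg (Z := Z) hs.symm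
  exact
    { symm := hs.symm
      supp := supp
      row := hs.row
      sg := hs
      T4 := by linarith
      X0 := by rw [hcard]; linarith
      T2 := by rw [tC_sq hN]; linarith
      S := by
        rw [sC_sq (by omega)]
        exact Sr
      V := by
        rw [vC_sq (by omega)]
        have e1 := thC_le hσ hN
        have e2 : 2 * (sR n : ℝ) ^ 700 ≤ (sR n : ℝ) ^ 701 :=
          const_mul_pow_le hs1 (by linarith) (by norm_num)
        have e3 : ∑ a ∈ F, ((Z ^ 2) a a - 1) ^ 2 ≤ thC n d k + Nk n d k := Vr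
        linarith
      W := by
        rw [wC_sq (by omega)]
        exact V2r.trans (thC_le hσ hN)
      T4r := T4r
      V2r := V2r
      Vr := Vr
      Sr := Sr
      T2_ge := T2_ge
      T2_le := T2_le
      TF := TF
      T1_le := T1_le
      T1_ge := T1_ge
      T3_le := T3_le }

/-! ### both signs -/

variable {V : Type*} [Fintype V] [DecidableEq V]

/-- **`Reach` and `PhiC ≤ 1` give all the hypotheses of the rate lemmas of the phase IIIa.** -/
theorem envC_of [Nonempty V] {vert : ι → V} {s : RSt ι} (hd : 3 ≤ d) (hσ : 2000 ≤ sR n)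
    (hfib : ∀ v, (Finset.univ.filter fun i => vert i = v).card = d)
    (hV : Fintype.card V = n) (h : Reach vert (start vert d) k s) (hk1 : k2 n d ≤ k)
    (hk : k < k3 n d) (hP : PhiC n d k s ≤ 1) : EnvC n d k s.F s.Zp s.Zm (forbS vert s) := by
  have hcard := card_eq_Nk hfib hV h
  have hs0 := sR_pos hσ
  have hN : 0 < Nk n d k := lt_of_le_of_lt (by positivity) (Nk_gt3 hk)
  have hc : 0 < s.F.card := by
    rw [← hcard] at hN
    exact_mod_cast hN
  obtain ⟨sp, sm⟩ := h.sg hd hfib hc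
  have np := cOne_nonneg (ε := 1) (F := s.F) hσ hN sp.symm
  have nm := cOne_nonneg (ε := -1) (F := s.F) hσ hN sm.symm
  unfold PhiC at hP
  exact
    { d3 := hd
      k_ge := hk1
      k_lt := hk
      card := hcard
      p := oneC_of hd hσ hk1 hk hcard sp (by linarith)
      m := oneC_of hd hσ hk1 hk hcard sm (by linarith)
      tp := tpar_of (by omega) hfib h }

end Vale.Agent.P049.TS.Asm
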