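import Vale.Agent.P049.TS.Asm.RateW
import Vale.Agent.P049.TS.Asm.ExpoEnv
import Vale.Agent.P049.TS.W.Err

/-!
The exponent bookkeeping of the drift of `W` in the phase I (reflection of `Asm/Expo`).
-/

set_option linter.unusedSectionVars false
set_option exponentiation.threshold 3000

namespace Vale.Agent.P049.TS.Asm.RW

open Vale.Agent.P049.TS.Asm Vale.Agent.P049.TS.Wd

/-! ### the polynomials -/

abbrev vb : Ex := .v 0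
abbrev vt : Ex := .v 1
abbrev vs : Ex := .v 2
abbrev vv : Ex := .v 3
abbrev vw : Ex := .v 4
abbrev vc : Ex := .v 5
abbrev ve : Ex := .v 6
abbrev vG : Ex := .v 7
abbrev vH : Ex := .v 8
abbrev vr : Ex := .v 9
abbrev vn : Ex := .v 10
abbrev vT : Ex := .v 11
abbrev vd : Ex := .v 12
abbrev vi : Ex := .v 13
abbrev vx : Ex := .v 14
abbrev vy : Ex := .v 15
/-- `σ^683` -/
abbrev v6 : Ex := .v 16
/-- `HP` -/
abbrev vHP : Ex := .v 17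
/-- `(d + 25)²` -/
abbrev vD : Ex := .v 18
/-- `σ^30` -/
abbrev v3 : Ex := .v 19

/-- `EU` -/
def exU : Ex := vT * (vb * vc ^ 2 + vt * vc) + vr * vc * (vb * vc + vt)
  + (ve + 3 * (vt + vs ^ 2)) * (vb * vc ^ 2 + vb * vc)
  + (ve * vs + 6 * (vt + vs ^ 2) * vs) * (vb * vc ^ 2 + vb * vc) + vr * vs * (3 * vc ^ 2 + 3 * vc)

/-- `50 ET` -/
def exT : Ex := 50 * (ve * (vy * (vc * vw))) + 50 * (vr * (5 * vn * (2 * vb * vc)))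
  + 420 * ((vt + vs ^ 2) * (vy * (vc * vw)))
  + 432 * (vs * (vy * (vb ^ 2 * vc) + vx * (vc * vw)))
  + 192 * (vs ^ 2 * (vy * (vc * vw) + vx * (vb ^ 2 * vc))) + 243 * (vx * (vb ^ 2 * vc))

/-- `2 EPr` -/
def exP : Ex := 2 * (ve * (2 * (1 + vv) * vc ^ 2 + 2 * vs ^ 2)) + 2 * (vr * (8 * vc ^ 2 + 2 * vs ^ 2))
  + 3 * (vb * vc + vt) ^ 2

/-- `10 EB` -/
def exB : Ex := (240 * ((1 + vv) ^ 2 + vs ^ 4 * (1 + vv)) + 78 * (vs ^ 2 * (1 + vv))) * vx ^ 2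

/-- `500 ER` -/
def exR : Ex := 6000 * (((1 + vv) + vs ^ 4) * vx ^ 2) + 1920 * (vs ^ 2 * vx ^ 2)
  + 15795 * (vt ^ 2 * vy ^ 2) + 12636 * (vs ^ 2 * (1 + vv) * vy ^ 2)
  + (15795 + 12636 * vs ^ 2) * (1 + vv) * vx ^ 2
  + vs ^ 2 * (12480 + 9984 * vs ^ 2) * (1 + vv) * (vx ^ 2 + vy ^ 2)

/-- `200 EQ` -/
def exQ : Ex := 12675 * (vw ^ 2 * vy ^ 2) + 21000 * (vs ^ 2 * (1 + vv) ^ 2 * vy ^ 2)
  + 8400 * (vs ^ 4 * (1 + vv) ^ 2 * vy ^ 2) + 3 * (65 + 52 * vs ^ 2) ^ 2 * (1 + vv) ^ 2 * vx ^ 2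

/-- the remaining terms -/
def exZ : Ex := 16 * (v6 * vc ^ 2) + 2 * (vc ^ 2 * (vD + vHP)) + 40 * vn ^ 4 + 24 * (v3 * vn ^ 4)
  + 8 * (vt * vc * vT) + 4 * vT ^ 2

/-- `1000 (errW + rest)` -/
def exW : Ex := 4000 * (vd * vn ^ 2 + vG + vH) * vc ^ 2 + 16000 * vd * (vt ^ 2 * vx ^ 2)
  + 16000 * (1 + 4 * vd) * (vH * vx ^ 2) + 8000 * exU + 6000 * (vb ^ 2 * vx ^ 2)
  + 3200 * (1 + vi) * exB + 48 * vi * exR + 3000 * (vn ^ 2 * vw ^ 2 + vc ^ 2) + 80 * exT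
  + 2000 * exP + 80 * (1 + vi) * exQ + 1000 * exZ

/-- environment -/
def env (b t s v w cw e G Hr rh ν τ δ δi x xd s683 hp dd s30 : ℝ) : ℕ → ℝ
  | 0 => b
  | 1 => t
  | 2 => s
  | 3 => v
  | 4 => w
  | 5 => cw
  | 6 => e
  | 7 => G
  | 8 => Hr
  | 9 => rh
  | 10 => ν
  | 11 => τ
  | 12 => δ
  | 13 => δi
  | 14 => x
  | 15 => xd
  | 16 => s683
  | 17 => hp
  | 18 => dd
  | 19 => s30
  | _ => 0

/-- exponents -/
def envz (b t s v w cw e G Hr rh ν τ δ δi x xd s683 hp dd s30 : ℤ) : ℕ → ℤ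
  | 0 => b
  | 1 => t
  | 2 => s
  | 3 => v
  | 4 => w
  | 5 => cw
  | 6 => e
  | 7 => G
  | 8 => Hr
  | 9 => rh
  | 10 => ν
  | 11 => τ
  | 12 => δ
  | 13 => δi
  | 14 => x
  | 15 => xd
  | 16 => s683
  | 17 => hp
  | 18 => dd
  | 19 => s30
  | _ => 0

def z1 : ℕ → ℤ := envz 1201 1604 160 1220 1604 1724 1604 1220 2348 1964 1604 1536 (-4) 4 1724 1604
  2732 2348 0 120
def z2 : ℕ → ℤ := envz 1002 2002 160 1220 2002 2122 2002 1220 2746 1964 2002 1536 (-4) 4 2122 2002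
  2732 2746 0 120

theorem exW_1 : exW.y z1 ≤ 6652 := by decide
theorem exW_2 : exW.y z2 ≤ 8244 := by decide

theorem exW_ev (b t s v w cw e G Hr rh ν τ δ δi s683 hp dd s30 : ℝ) :
    exW.ev (env b t s v w cw e G Hr rh ν τ δ δi (cw + 2 * t + ν) (2 * w + 2 * ν) s683 hp dd s30) =
    1000 * (errW b t s v w cw e G Hr rh ν τ δ δi +
      (16 * (s683 * cw ^ 2) + 2 * (cw ^ 2 * (dd + hp)) + 40 * ν ^ 4 + 24 * (s30 * ν ^ 4)
        + 8 * (t * cw * τ) + 4 * τ ^ 2)) := by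
  unfold errW
  generalize cw + 2 * t + ν = x
  generalize 2 * w + 2 * ν = xd
  simp only [exW, exU, exT, exP, exB, exR, exQ, exZ, vb, vt, vs, vv, vw, vc, ve, vG, vH, vr, vn,
    vT, vd, vi, vx, vy, v6, vHP, vD, v3, Ex.ev_v, Ex.ev_ofNat, Ex.ev_add, Ex.ev_mul,
    Ex.ev_pow, env, EU, ET, EPr, EB, ER, EQ]
  push_cast
  ring

end Vale.Agent.P049.TS.Asm.RW
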