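import Mathlib

/-!
Reflection of exponent checks.

For `xl L ≤ X ≤ xh L` (i.e. `σ^xl ≤ N ≤ σ^xh` with `σ = exp L`, `N = exp X`) let
`Em y1 y2` be the monomial `σ^p N^q` whose exponent is `y1/4` for `N = σ^xl` and `y2/4` for
`N = σ^xh`. Products add the pairs `(y1, y2)`, and `Em y1 y2 ≤ Em z1 z2` if `y1 ≤ z1`, `y2 ≤ z2`.

`Ex` = polynomial expressions with natural coefficients. `Ex.bound`: if every variable satisfies
`0 ≤ ρ i ≤ κ i * Em (y1 i) (y2 i)` then `e.ev ρ ≤ e.cs κ * Em z1 z2` as soon as the two integers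
`e.y y1`, `e.y y2` (computed by `max` and `+`) are at most `z1`, `z2` (`by decide`).
-/

namespace Vale.Agent.P049.TS.Asm

/-- `xl L ≤ X ≤ xh L` -/
structure Rg (L X xl xh : ℝ) : Prop where
  lt : xl < xh
  lo : xl * L ≤ X
  hi : X ≤ xh * L

/-- the monomial with exponents `y1/4` at the lower and `y2/4` at the upper end of the range -/
noncomputable def Em (L X xl xh : ℝ) (y1 y2 : ℤ) : ℝ :=
  Real.exp ((y1 * (xh * L - X) + y2 * (X - xl * L)) / (4 * (xh - xl)))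

variable {L X xl xh : ℝ}

theorem Em_pos (L X xl xh : ℝ) (y1 y2 : ℤ) : 0 < Em L X xl xh y1 y2 := Real.exp_pos _

theorem Em_mul (L X xl xh : ℝ) (y1 y2 z1 z2 : ℤ) :
    Em L X xl xh y1 y2 * Em L X xl xh z1 z2 = Em L X xl xh (y1 + z1) (y2 + z2) := by
  unfold Em
  rw [← Real.exp_add]
  congr 1
  push_cast
  ring

theorem Em_zero (L X xl xh : ℝ) : Em L X xl xh 0 0 = 1 := by
  unfold Em; simp

theorem Em_pow (L X xl xh : ℝ) (y1 y2 : ℤ) (n : ℕ) :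
    Em L X xl xh y1 y2 ^ n = Em L X xl xh (n * y1) (n * y2) := by
  unfold Em
  rw [← Real.exp_nat_mul]
  congr 1
  push_cast
  ring

theorem Em_le (R : Rg L X xl xh) {y1 y2 z1 z2 : ℤ} (h1 : y1 ≤ z1) (h2 : y2 ≤ z2) :
    Em L X xl xh y1 y2 ≤ Em L X xl xh z1 z2 := by
  unfold Em
  apply Real.exp_le_exp.2
  have h3 : (0 : ℝ) < 4 * (xh - xl) := by have := R.lt; linarith
  apply div_le_div_of_nonneg_right _ h3.le
  have e1 : (y1 : ℝ) ≤ z1 := by exact_mod_cast h1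
  have e2 : (y2 : ℝ) ≤ z2 := by exact_mod_cast h2
  have h4 : 0 ≤ xh * L - X := by have := R.hi; linarith
  have h5 : 0 ≤ X - xl * L := by have := R.lo; linarith
  exact add_le_add (mul_le_mul_of_nonneg_right e1 h4) (mul_le_mul_of_nonneg_right e2 h5)

/-- `exp (p L + q X)` as an `Em` -/
theorem exp_eq_Em (h : xl < xh) {p q : ℝ} {y1 y2 : ℤ} (h1 : (y1 : ℝ) = 4 * (p + q * xl))
    (h2 : (y2 : ℝ) = 4 * (p + q * xh)) : Real.exp (p * L + q * X) = Em L X xl xh y1 y2 := by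
  unfold Em
  congr 1
  have h3 : (4 * (xh - xl) : ℝ) ≠ 0 := by
    have : 0 < xh - xl := by linarith
    positivity
  rw [h1, h2, eq_div_iff h3]
  ring

/-- polynomial expressions with natural coefficients -/
inductive Ex where
  | v (i : ℕ)
  | c (n : ℕ)
  | add (a b : Ex)
  | mul (a b : Ex)
  | pow (a : Ex) (n : ℕ)

instance : Add Ex := ⟨Ex.add⟩
instance : Mul Ex := ⟨Ex.mul⟩
instance : HPow Ex ℕ Ex := ⟨Ex.pow⟩
instance (n : ℕ) : OfNat Ex n := ⟨Ex.c n⟩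

/-- value -/
def Ex.ev (ρ : ℕ → ℝ) : Ex → ℝ
  | .v i => ρ i
  | .c n => n
  | .add a b => a.ev ρ + b.ev ρ
  | .mul a b => a.ev ρ * b.ev ρ
  | .pow a n => a.ev ρ ^ n

/-- exponent -/
def Ex.y (y : ℕ → ℤ) : Ex → ℤ
  | .v i => y i
  | .c _ => 0
  | .add a b => max (a.y y) (b.y y)
  | .mul a b => a.y y + b.y y
  | .pow a n => n * a.y y

/-- constant -/
def Ex.cs (κ : ℕ → ℝ) : Ex → ℝ
  | .v i => κ i
  | .c n => n
  | .add a b => a.cs κ + b.cs κ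
  | .mul a b => a.cs κ * b.cs κ
  | .pow a n => a.cs κ ^ n

@[simp] theorem Ex.ev_v (ρ : ℕ → ℝ) (i : ℕ) : (Ex.v i).ev ρ = ρ i := rfl
@[simp] theorem Ex.ev_c (ρ : ℕ → ℝ) (n : ℕ) : (Ex.c n).ev ρ = n := rfl
@[simp] theorem Ex.ev_ofNat (ρ : ℕ → ℝ) (n : ℕ) :
    Ex.ev ρ (no_index (OfNat.ofNat n : Ex)) = (n : ℝ) := rfl
@[simp] theorem Ex.ev_add (ρ : ℕ → ℝ) (a b : Ex) : (a + b).ev ρ = a.ev ρ + b.ev ρ := rfl
@[simp] theorem Ex.ev_mul (ρ : ℕ → ℝ) (a b : Ex) : (a * b).ev ρ = a.ev ρ * b.ev ρ := rfl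
@[simp] theorem Ex.ev_pow (ρ : ℕ → ℝ) (a : Ex) (n : ℕ) : (a ^ n).ev ρ = a.ev ρ ^ n := rfl

theorem Ex.ev_nonneg {ρ : ℕ → ℝ} (hρ : ∀ i, 0 ≤ ρ i) : ∀ e : Ex, 0 ≤ e.ev ρ
  | .v i => hρ i
  | .c n => Nat.cast_nonneg n
  | .add a b => add_nonneg (a.ev_nonneg hρ) (b.ev_nonneg hρ)
  | .mul a b => mul_nonneg (a.ev_nonneg hρ) (b.ev_nonneg hρ)
  | .pow a n => pow_nonneg (a.ev_nonneg hρ) n

theorem Ex.ev_le (R : Rg L X xl xh) {ρ κ : ℕ → ℝ} {y1 y2 : ℕ → ℤ} (hρ : ∀ i, 0 ≤ ρ i)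
    (h : ∀ i, ρ i ≤ κ i * Em L X xl xh (y1 i) (y2 i)) (hκ : ∀ i, 0 ≤ κ i) :
    ∀ e : Ex, 0 ≤ e.cs κ ∧ e.ev ρ ≤ e.cs κ * Em L X xl xh (e.y y1) (e.y y2)
  | .v i => ⟨hκ i, h i⟩
  | .c n => ⟨Nat.cast_nonneg n, by
      show (n : ℝ) ≤ n * Em L X xl xh 0 0
      rw [Em_zero, mul_one]⟩
  | .add a b => by
      obtain ⟨a0, a1⟩ := Ex.ev_le R hρ h hκ a
      obtain ⟨b0, b1⟩ := Ex.ev_le R hρ h hκ b
      refine ⟨add_nonneg a0 b0, ?_⟩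
      show a.ev ρ + b.ev ρ ≤ (a.cs κ + b.cs κ) *
        Em L X xl xh (max (a.y y1) (b.y y1)) (max (a.y y2) (b.y y2))
      rw [add_mul]
      refine add_le_add (a1.trans ?_) (b1.trans ?_)
      · exact mul_le_mul_of_nonneg_left (Em_le R (le_max_left _ _) (le_max_left _ _)) a0
      · exact mul_le_mul_of_nonneg_left (Em_le R (le_max_right _ _) (le_max_right _ _)) b0
  | .mul a b => by
      obtain ⟨a0, a1⟩ := Ex.ev_le R hρ h hκ a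
      obtain ⟨b0, b1⟩ := Ex.ev_le R hρ h hκ b
      refine ⟨mul_nonneg a0 b0, ?_⟩
      show a.ev ρ * b.ev ρ ≤ (a.cs κ * b.cs κ) * Em L X xl xh (a.y y1 + b.y y1) (a.y y2 + b.y y2)
      rw [← Em_mul]
      calc a.ev ρ * b.ev ρ ≤ (a.cs κ * Em L X xl xh (a.y y1) (a.y y2)) *
            (b.cs κ * Em L X xl xh (b.y y1) (b.y y2)) :=
            mul_le_mul a1 b1 (b.ev_nonneg hρ) (mul_nonneg a0 (Em_pos _ _ _ _ _ _).le)
        _ = _ := by ring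
  | .pow a n => by
      obtain ⟨a0, a1⟩ := Ex.ev_le R hρ h hκ a
      refine ⟨pow_nonneg a0 n, ?_⟩
      show a.ev ρ ^ n ≤ a.cs κ ^ n * Em L X xl xh (n * a.y y1) (n * a.y y2)
      rw [← Em_pow, ← mul_pow]
      exact pow_le_pow_left₀ (a.ev_nonneg hρ) a1 n

/-- **the bound**; the two integer inequalities are closed: `by decide` -/
theorem Ex.bound (e : Ex) (R : Rg L X xl xh) {ρ κ : ℕ → ℝ} (y1 y2 : ℕ → ℤ) {z1 z2 : ℤ}
    (c1 : e.y y1 ≤ z1) (c2 : e.y y2 ≤ z2) (hρ : ∀ i, 0 ≤ ρ i) (hκ : ∀ i, 0 ≤ κ i)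
    (h : ∀ i, ρ i ≤ κ i * Em L X xl xh (y1 i) (y2 i)) :
    e.ev ρ ≤ e.cs κ * Em L X xl xh z1 z2 := by
  obtain ⟨h0, h1⟩ := Ex.ev_le R hρ h hκ e
  exact h1.trans (mul_le_mul_of_nonneg_left (Em_le R c1 c2) h0)

end Vale.Agent.P049.TS.Asm
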