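import Vale.Agent.P049.TS.Asm.HandC

/-!
The transition from the phase IIIb to the final phase: `PhiB ≤ 1` at `k4` gives `PhiF ≤ 1 / 4`;
the order of the thresholds.
-/

set_option linter.unusedSectionVars false
set_option exponentiation.threshold 3000

namespace Vale.Agent.P049.TS.Asm

open Matrix Finset

variable {n d k : ℕ}

variable {ι : Type*} [Fintype ι] [DecidableEq ι] {F : Finset ι} {Z Zp Zm : Matrix ι ι ℝ} {ε : ℝ}

/-- `1 ≤ tr Z²` from the row sums -/
theorem one_le_trace_sq_of_sg {m : ℝ} (h : Sg F Z m ε) : 1 ≤ (Z ^ 2).trace := by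
  have hN : (0 : ℝ) < F.card := by exact_mod_cast h.card
  have supp : ∀ a, a ∉ F → ∀ b, Z a b = 0 := fun a ha b => h.supp a b (Or.inl ha)
  rw [← sum_w_eq supp]
  have h1 : ∀ a ∈ F, 1 / (F.card : ℝ) ≤ (Z ^ 2) a a := by
    intro a ha
    rw [Mat.sq_diag_eq_sum h.symm a]
    have h2 : ∑ b, Z a b = ∑ b ∈ F, Z a b :=
      (Finset.sum_subset (Finset.subset_univ F) fun b _ hb => h.supp a b (Or.inr hb)).symm
    have h3 := h.row a ha
    have h4 : ∑ b ∈ F, Z a b ^ 2 ≤ ∑ b, Z a b ^ 2 :=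
      Finset.sum_le_sum_of_subset_of_nonneg (Finset.subset_univ F) fun _ _ _ => sq_nonneg _
    have h5 : (∑ b ∈ F, Z a b) ^ 2 ≤ F.card * ∑ b ∈ F, Z a b ^ 2 := sq_sum_le_card_mul_sum_sq
    rw [div_le_iff₀ hN]
    nlinarith
  calc (1 : ℝ) = ∑ a ∈ F, 1 / (F.card : ℝ) := by
        rw [Finset.sum_const, nsmul_eq_mul]; field_simp
    _ ≤ _ := Finset.sum_le_sum h1

theorem handB_one (hσ : 2000 ≤ sR n) (hs : Sg F Z (√((d : ℝ) - 1))⁻¹ ε)
    (hN : 0 < Nk n d k) (h : fOneB n d k ε F Z ≤ 1) :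
    fOneF n d k F Z ≤ 3 / sR n := by
  have hs1 := sR_one hσ
  have hs0 := sR_pos hσ
  have h2 := one_le_trace_sq_of_sg hs
  have h4 := trace_four_nonneg' hs.symm
  have h5 := gV2_nonneg' F Z
  have h6 := Sd_nonneg F Z
  have a1 : 0 ≤ g1B n d k ε Z := sq_nonneg _
  have a2 : 0 ≤ g2B n d k Z := by unfold g2B; positivity
  have aF : 0 ≤ gFB n d k Z := by
    unfold gFB
    have : 0 ≤ (Z ^ 2).trace - 1 := by linarith
    positivity
  have a4 : 0 ≤ g4B n d k Z := by unfold g4B; positivity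
  have a5 : 0 ≤ g5B n d k F Z := by unfold g5B; positivity
  have a6 : 0 ≤ g6B n d k F Z := by unfold g6B; positivity
  unfold fOneB at h
  have cF : gFB n d k Z ≤ 1 := by linarith
  have c5 : g5B n d k F Z ≤ 1 := by linarith
  have c6 : g6B n d k F Z ≤ 1 := by linarith
  clear h a1 a2 aF a4 a5 a6
  have hN2 : 0 < Nk n d k ^ 2 := by positivity
  have b1 : fT2F n d k Z ≤ 1 / sR n := by
    unfold fT2F
    unfold gFB at cF
    rw [div_le_one hN2] at cF
    rw [div_le_div_iff₀ hN2 hs0, one_mul, mul_assoc, ← pow_succ]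
    exact cF
  have b2 : fSF n d k F Z ≤ 1 / sR n := by
    unfold fSF
    unfold g6B at c6
    rw [div_le_one hN] at c6
    rw [div_le_div_iff₀ hN hs0, one_mul, mul_assoc, ← pow_succ]
    refine le_trans ?_ c6
    exact mul_le_mul_of_nonneg_left (pow_le_pow_right₀ hs1 (by norm_num)) h6
  have b3 : fV2F n d k F Z ≤ 1 / sR n := by
    unfold fV2F
    unfold g5B at c5
    rw [div_le_one hN2] at c5
    rw [div_le_div_iff₀ hN2 hs0, one_mul, mul_assoc, ← pow_succ]
    refine le_trans ?_ c5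
    exact mul_le_mul_of_nonneg_left (pow_le_pow_right₀ hs1 (by norm_num)) h5
  unfold fOneF
  have e : (3 : ℝ) / sR n = 1 / sR n + 1 / sR n + 1 / sR n := by ring
  rw [e]
  linarith

theorem fOneB_nonneg_of_sg (hσ : 2000 ≤ sR n) (hs : Sg F Z (√((d : ℝ) - 1))⁻¹ ε)
    (hN : 0 < Nk n d k) : 0 ≤ fOneB n d k ε F Z := by
  have hs0 := sR_pos hσ
  have h2 := one_le_trace_sq_of_sg hs
  have h4 := trace_four_nonneg' hs.symm
  have h5 := gV2_nonneg' F Z
  have h6 := Sd_nonneg F Z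
  have a1 : 0 ≤ g1B n d k ε Z := sq_nonneg _
  have a2 : 0 ≤ g2B n d k Z := by unfold g2B; positivity
  have aF : 0 ≤ gFB n d k Z := by
    unfold gFB
    have : 0 ≤ (Z ^ 2).trace - 1 := by linarith
    positivity
  have a4 : 0 ≤ g4B n d k Z := by unfold g4B; positivity
  have a5 : 0 ≤ g5B n d k F Z := by unfold g5B; positivity
  have a6 : 0 ≤ g6B n d k F Z := by unfold g6B; positivity
  unfold fOneB
  linarith

/-- **The transition from the phase IIIb to the final phase.** -/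
theorem handB {V : Type*} [Fintype V] [DecidableEq V] [Nonempty V] {vert : ι → V} {s : RSt ι}
    (hd : 3 ≤ d) (hσ : 2000 ≤ sR n)
    (hfib : ∀ v, (Finset.univ.filter fun i => vert i = v).card = d)
    (hV : Fintype.card V = n) (h : Reach vert (start vert d) (k4 n d) s)
    (hP : PhiB n d (k4 n d) s ≤ 1) : PhiF n d (k4 n d) s ≤ 1 / 4 := by
  have hcard := card_eq_Nk hfib hV h
  have hs1 := sR_one hσ
  have hs0 := sR_pos hσ
  have hsg := sR_ge hσ
  obtain ⟨hN1, -⟩ := Nk_bds (n := n) (d := d) (j := 530) hd hσ (by norm_num) rfl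
  change _ ≤ Nk n d (k4 n d) at hN1
  have hN : 0 < Nk n d (k4 n d) := by
    have := const_mul_pow_le (c := 2) hs1 (by linarith) (show 0 < 530 by norm_num)
    simp only [pow_zero, mul_one] at this
    linarith
  have hc : 0 < s.F.card := by
    rw [← hcard] at hN
    exact_mod_cast hN
  obtain ⟨sp, sm⟩ := h.sg hd hfib hc
  have np := fOneB_nonneg_of_sg hσ sp hN
  have nm := fOneB_nonneg_of_sg hσ sm hN
  unfold PhiB at hP
  have e1 := handB_one hσ sp hN (by linarith)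
  have e2 := handB_one hσ sm hN (by linarith)
  have e3 : (3 : ℝ) / sR n ≤ 1 / 8 := by
    rw [div_le_div_iff₀ hs0 (by norm_num)]
    linarith
  unfold PhiF
  linarith

/-- the order of the thresholds -/
theorem thresholds_le (h : 1 ≤ sR n) :
    k1 n d ≤ k2 n d ∧ k2 n d ≤ k3 n d ∧ k3 n d ≤ k4 n d := by
  have h1 : sR n ^ 530 ≤ sR n ^ 680 := Nat.pow_le_pow_right h (by norm_num)
  have h2 : sR n ^ 680 ≤ sR n ^ 699 := Nat.pow_le_pow_right h (by norm_num)
  refine ⟨k1_le_k2 h, ?_, ?_⟩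
  · unfold k2 k3; omega
  · unfold k3 k4; omega

theorem two_k5_le (n d : ℕ) : 2 * k5 n d ≤ n * d := by
  unfold k5
  omega

end Vale.Agent.P049.TS.Asm
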