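import Vale.Agent.P049.TS.Asm.EnvF
import Vale.Agent.P049.TS.Asm.Glue
import Vale.Agent.P049.TS.Shell.Fin

/-!
The final phase from its three rate lemmas: `phaseF_of`.
-/

set_option linter.unusedSectionVars false
set_option exponentiation.threshold 3000

namespace Vale.Agent.P049.TS.Asm

open Matrix Finset

variable {n d k : ℕ}

/-! ### General facts -/

section General

variable {ι : Type*} [Fintype ι] [DecidableEq ι] {F : Finset ι} {Z Zp Zm : Matrix ι ι ℝ}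

/-- the right-hand side of the rate lemmas -/
theorem mo_rate (h : 1 ≤ sR n) (hN : 0 < Nk n d k) :
    mo (LL n) (XX n d k) (-1) 1 = Nk n d k / sR n := by
  have h1 := Nk_eq_mo hN (LL n)
  have h2 := sR_pow h (XX n d k) 1
  rw [pow_one] at h2
  rw [h2, h1, mo_div]
  norm_num

/-- many admissible pairs -/
theorem card_adm_ge {A : Finset (ι × ι)} {N c : ℝ} (hA : A ⊆ F ×ˢ F) (hF : (F.card : ℝ) = N)
    (hc : ((((F ×ˢ F) \ A).card : ℕ) : ℝ) ≤ c * N) (hN : 2 * c ≤ N) (_ : 0 ≤ N) :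
    N ^ 2 / 4 ≤ ∑ _p ∈ A, (1 : ℝ) := by
  have h2 : ((F ×ˢ F).card : ℝ) = ((((F ×ˢ F) \ A).card : ℕ) : ℝ) + A.card := by
    rw [← Nat.cast_add, Finset.card_sdiff_add_card_eq_card hA]
  have h3 : ((F ×ˢ F).card : ℝ) = N ^ 2 := by
    rw [Finset.card_product]; push_cast; rw [hF]; ring
  rw [Finset.sum_const, nsmul_eq_mul, mul_one]
  nlinarith

/-- `|Z_ij| ≤ n d` from `tr Z² ≤ (n d)²` -/
theorem abs_entry_le_of_trace_two (hZ : Z.IsSymm) {x : ℝ} (hx : 0 ≤ x)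
    (h : (Z ^ 2).trace ≤ x ^ 2) (i j : ι) : |Z i j| ≤ x := by
  rw [← frob_eq_trace hZ] at h
  have h1 : Z i j ^ 2 ≤ frob Z := by
    unfold frob
    refine le_trans ?_ (Finset.single_le_sum (f := fun i => ∑ j, Z i j ^ 2)
      (fun _ _ => Finset.sum_nonneg fun _ _ => sq_nonneg _) (Finset.mem_univ i))
    exact Finset.single_le_sum (f := fun j => Z i j ^ 2) (fun _ _ => sq_nonneg _)
      (Finset.mem_univ j)
  exact abs_le_of_sq_le_sq (h1.trans h) hx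

end General

/-! ### The rate lemmas -/

/-- the rate lemma of `T₂` -/
def RateTF (d : ℕ) : Prop := ∃ (C : ℝ) (s₀ : ℕ), ∀ (ι : Type) [Fintype ι] [DecidableEq ι]
  (n k : ℕ) (F : Finset ι) (Zp Zm : Matrix ι ι ℝ) (forb : ι → ι → Prop), s₀ ≤ sR n →
  EnvF n d k F Zp Zm forb → ∀ (ε : ℝ) (Z : Matrix ι ι ℝ), Sgn Zp Zm ε Z →
  ∑ p ∈ adm F forb Zp Zm, (fT2F n d (k + 1) (upd Z p.1 p.2) - fT2F n d k Z) ≤ C * rF n d k

/-- the rate lemma of `S₁` -/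
def RateSF (d : ℕ) : Prop := ∃ (C : ℝ) (s₀ : ℕ), ∀ (ι : Type) [Fintype ι] [DecidableEq ι]
  (n k : ℕ) (F : Finset ι) (Zp Zm : Matrix ι ι ℝ) (forb : ι → ι → Prop), s₀ ≤ sR n →
  EnvF n d k F Zp Zm forb → ∀ (ε : ℝ) (Z : Matrix ι ι ℝ), Sgn Zp Zm ε Z →
  ∑ p ∈ adm F forb Zp Zm, (fSF n d (k + 1) ((F.erase p.1).erase p.2) (upd Z p.1 p.2) -
    fSF n d k F Z) ≤ C * rF n d k

/-- the rate lemma of `V₂` -/
def RateVF (d : ℕ) : Prop := ∃ (C : ℝ) (s₀ : ℕ), ∀ (ι : Type) [Fintype ι] [DecidableEq ι]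
  (n k : ℕ) (F : Finset ι) (Zp Zm : Matrix ι ι ℝ) (forb : ι → ι → Prop), s₀ ≤ sR n →
  EnvF n d k F Zp Zm forb → ∀ (ε : ℝ) (Z : Matrix ι ι ℝ), Sgn Zp Zm ε Z →
  ∑ p ∈ adm F forb Zp Zm, (fV2F n d (k + 1) ((F.erase p.1).erase p.2) (upd Z p.1 p.2) -
    fV2F n d k F Z) ≤ C * rF n d k

theorem k5_le (n d : ℕ) : 2 * k5 n d ≤ n * d := by
  unfold k5; omega

/-- **The final phase.** -/
theorem phaseF_of (hd : 3 ≤ d) (hT : RateTF d) (hS : RateSF d) (hV : RateVF d) :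
    Ev d fun n => ∃ r, Phase n d (k4 n d) (k5 n d) (fun k s => PhiF n d k s) (1 / 4) r := by
  obtain ⟨CT, sT, hT⟩ := hT
  obtain ⟨CS, sS, hS⟩ := hS
  obtain ⟨CV, sV, hV⟩ := hV
  refine Ev.phase (fun n k s => PhiF n d k s) (fun n => k4 n d) (fun n => k5 n d)
    (Ev.of_forall fun n => k5_le n d) ⟨2 * (CT + CS + CV), 2000 + sT + sS + sV +
      2 * (d + 25) ^ 2, fun n hs _ k hk4 hk σ hr hΦ => ?_⟩
  have hσ : 2000 ≤ sR n := by omega
  have hn0 : 0 < n := lt_of_lt_of_le (by omega) (sR_le n)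
  have : Nonempty (Fin n) := ⟨⟨0, hn0⟩⟩
  have henv : EnvF n d k σ.F σ.Zp σ.Zm (forbS (vertF n d) σ) :=
    envF_of hd hσ vertF_fib (Fintype.card_fin n) hr hk4 hk hΦ
  have hN := NkF_pos hk
  have hok := henv.admOK hσ (ε := 1) (Z := σ.Zp) (Or.inl ⟨rfl, rfl⟩)
  have e1 : mF n d k ^ 2 = ((d : ℝ) + 25) ^ 2 * Nk n d k := by
    unfold mF
    rw [mul_pow]
    have := nF_sq (n := n) (d := d) (k := k) hN
    unfold nF at this
    rw [this]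
  have hs1 := sR_one hσ
  have hNbig : 2 * ((d : ℝ) + 25) ^ 2 ≤ Nk n d k := by
    have h1 : 2 * (d + 25) ^ 2 ≤ sR n := by omega
    have h2 : (2 * ((d : ℝ) + 25) ^ 2) ≤ sR n := by exact_mod_cast h1
    have h3 : (sR n : ℝ) ≤ (sR n : ℝ) ^ 341 := le_self_pow₀ hs1 (by norm_num)
    have h4 := Nk_gt5 hk
    linarith
  refine ⟨⟨fun _ => 1, fun _ _ => zero_le_one, ?_, ?_⟩, fun i j => ?_⟩
  · refine card_adm_ge hok.sub henv.card ?_ hNbig hN.le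
    have := hok.card
    rw [e1] at this
    exact this
  · have t1 := hT _ n k σ.F σ.Zp σ.Zm _ (by omega) henv 1 σ.Zp (Or.inl ⟨rfl, rfl⟩)
    have t2 := hT _ n k σ.F σ.Zp σ.Zm _ (by omega) henv (-1) σ.Zm (Or.inr ⟨rfl, rfl⟩)
    have s1 := hS _ n k σ.F σ.Zp σ.Zm _ (by omega) henv 1 σ.Zp (Or.inl ⟨rfl, rfl⟩)
    have s2 := hS _ n k σ.F σ.Zp σ.Zm _ (by omega) henv (-1) σ.Zm (Or.inr ⟨rfl, rfl⟩)
    have v1 := hV _ n k σ.F σ.Zp σ.Zm _ (by omega) henv 1 σ.Zp (Or.inl ⟨rfl, rfl⟩)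
    have v2 := hV _ n k σ.F σ.Zp σ.Zm _ (by omega) henv (-1) σ.Zm (Or.inr ⟨rfl, rfl⟩)
    have e2 : ∑ p ∈ admS (vertF n d) σ, 1 * (PhiF n d (k + 1) (σ.join p.1 p.2) -
        PhiF n d k σ) =
        (∑ p ∈ adm σ.F (forbS (vertF n d) σ) σ.Zp σ.Zm,
          (fT2F n d (k + 1) (upd σ.Zp p.1 p.2) - fT2F n d k σ.Zp)) +
        (∑ p ∈ adm σ.F (forbS (vertF n d) σ) σ.Zp σ.Zm,
          (fT2F n d (k + 1) (upd σ.Zm p.1 p.2) - fT2F n d k σ.Zm)) +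
        (∑ p ∈ adm σ.F (forbS (vertF n d) σ) σ.Zp σ.Zm,
          (fSF n d (k + 1) ((σ.F.erase p.1).erase p.2) (upd σ.Zp p.1 p.2) -
            fSF n d k σ.F σ.Zp)) +
        (∑ p ∈ adm σ.F (forbS (vertF n d) σ) σ.Zp σ.Zm,
          (fSF n d (k + 1) ((σ.F.erase p.1).erase p.2) (upd σ.Zm p.1 p.2) -
            fSF n d k σ.F σ.Zm)) +
        (∑ p ∈ adm σ.F (forbS (vertF n d) σ) σ.Zp σ.Zm,
          (fV2F n d (k + 1) ((σ.F.erase p.1).erase p.2) (upd σ.Zp p.1 p.2) -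
            fV2F n d k σ.F σ.Zp)) +
        (∑ p ∈ adm σ.F (forbS (vertF n d) σ) σ.Zp σ.Zm,
          (fV2F n d (k + 1) ((σ.F.erase p.1).erase p.2) (upd σ.Zm p.1 p.2) -
            fV2F n d k σ.F σ.Zm)) := by
      simp only [← Finset.sum_add_distrib]
      refine Finset.sum_congr rfl fun p _ => ?_
      simp only [PhiF, fOneF, RSt.join]
      ring
    rw [e2, ← mo_rate (by omega) hN]
    unfold rF at t1 t2 s1 s2 v1 v2
    linarith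
  · have h1 : ∀ Z : Matrix (Fin (n * d)) (Fin (n * d)) ℝ, (Z ^ 2).trace ≤ tF n d k ^ 2 →
        (Z ^ 2).trace ≤ ((n * d : ℕ) : ℝ) ^ 2 := by
      intro Z hZ
      refine hZ.trans ?_
      rw [tF_sq hN (by omega)]
      have a1 := Nk_le n d k
      have a2 : (2 : ℝ) ≤ (sR n : ℝ) ^ 682 :=
        le_trans (by have := sR_ge hσ; linarith) (le_self_pow₀ hs1 (by norm_num))
      push_cast
      rw [← mul_div_assoc, div_le_iff₀ (by positivity)]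
      have a3 : Nk n d k ^ 2 ≤ ((n : ℝ) * d) ^ 2 := pow_le_pow_left₀ hN.le a1 2
      nlinarith [sq_nonneg ((n : ℝ) * d)]
    exact ⟨abs_entry_le_of_trace_two henv.p.base.symm (Nat.cast_nonneg _)
      (h1 _ henv.p.bds.T) i j, abs_entry_le_of_trace_two henv.m.base.symm (Nat.cast_nonneg _)
      (h1 _ henv.m.bds.T) i j⟩

end Vale.Agent.P049.TS.Asm
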