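import Vale.Agent.P049.TS.Asm.RateF
import Vale.Agent.P049.TS.Asm.StepF
import Vale.Agent.P049.TS.Final.V4

/-!
The rate lemma of the final phase for `V₂`, and the final phase.
-/

set_option linter.unusedSectionVars false
set_option exponentiation.threshold 3000

namespace Vale.Agent.P049.TS.Asm

open Matrix Finset

variable {n d k : ℕ}

/-- `μ = √v` -/
noncomputable def uF (n d k : ℕ) : ℝ := mo (LL n) (XX n d k) (-164) (1 / 2)

/-- `lm = σ⁻¹` -/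
noncomputable def lmF (n d k : ℕ) : ℝ := mo (LL n) (XX n d k) (-1) 0

/-- `li = σ` -/
noncomputable def liF (n d k : ℕ) : ℝ := mo (LL n) (XX n d k) 1 0

theorem uF_sq : uF n d k ^ 2 = vF n d k := by
  unfold uF vF
  rw [mo_pow]
  norm_num

theorem lmF_mul : lmF n d k * liF n d k = 1 := by
  unfold lmF liF
  rw [mo_mul, ← mo_zero (LL n) (XX n d k)]
  norm_num

theorem uF_Em : uF n d k = Em (LL n) (XX n d k) 341 530 26 404 :=
  mo_eq_Em (by norm_num) (by norm_num) (by norm_num)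

theorem lmF_Em : lmF n d k = Em (LL n) (XX n d k) 341 530 (-4) (-4) :=
  mo_eq_Em (by norm_num) (by norm_num) (by norm_num)

theorem liF_Em : liF n d k = Em (LL n) (XX n d k) 341 530 4 4 :=
  mo_eq_Em (by norm_num) (by norm_num) (by norm_num)

/-- the environment `t σ v ν b G m L μ lm li` -/
noncomputable def rhoF2 (n d k : ℕ) : ℕ → ℝ
  | 8 => uF n d k | 9 => lmF n d k | 10 => liF n d k | i => rhoF n d k i

/-- the constants -/
noncomputable def kapF2 (d : ℕ) : ℕ → ℝ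
  | 8 => 1 | 9 => 1 | 10 => 1 | i => kapF d i

/-- the exponents at `N = σ^341` -/
def yG1 : ℕ → ℤ
  | 0 => 0 | 1 => -398 | 2 => 52 | 3 => 682 | 4 => 0 | 5 => 52 | 6 => 682 | 7 => 0 | 8 => 26
  | 9 => -4 | 10 => 4 | _ => 0

/-- the exponents at `N = σ^530` -/
def yG2 : ℕ → ℤ
  | 0 => 756 | 1 => -20 | 2 => 808 | 3 => 1060 | 4 => 756 | 5 => 808 | 6 => 1060 | 7 => 756
  | 8 => 404 | 9 => -4 | 10 => 4 | _ => 0

theorem rhoF2_nonneg (n d k : ℕ) (i : ℕ) : 0 ≤ rhoF2 n d k i := by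
  unfold rhoF2
  split
  · exact mo_nonneg _ _ _ _
  · exact mo_nonneg _ _ _ _
  · exact mo_nonneg _ _ _ _
  · exact rhoF_nonneg _ _ _ _

theorem kapF2_nonneg (d : ℕ) (i : ℕ) : 0 ≤ kapF2 d i := by
  unfold kapF2
  split
  · norm_num
  · norm_num
  · norm_num
  · exact kapF_nonneg _ _

theorem rhoF2_le (R : Rg (LL n) (XX n d k) 341 530) (i : ℕ) :
    rhoF2 n d k i ≤ kapF2 d i * Em (LL n) (XX n d k) 341 530 (yG1 i) (yG2 i) := by
  match i with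
  | 0 => exact tF_Em
  | 1 => show sF n d k ≤ 1 * Em (LL n) (XX n d k) 341 530 (-398) (-20); rw [one_mul, sF_Em]
  | 2 => show vF n d k ≤ 1 * Em (LL n) (XX n d k) 341 530 52 808; rw [one_mul, vF_Em]
  | 3 => show nF n d k ≤ 1 * Em (LL n) (XX n d k) 341 530 682 1060; rw [one_mul, nF_Em]
  | 4 => exact tF_Em
  | 5 => exact GF_Em R
  | 6 => show mF n d k ≤ (d + 25) * Em (LL n) (XX n d k) 341 530 682 1060; rw [mF_Em]
  | 7 => exact LF_Em R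
  | 8 => show uF n d k ≤ 1 * Em (LL n) (XX n d k) 341 530 26 404; rw [one_mul, uF_Em]
  | 9 => show lmF n d k ≤ 1 * Em (LL n) (XX n d k) 341 530 (-4) (-4); rw [one_mul, lmF_Em]
  | 10 => show liF n d k ≤ 1 * Em (LL n) (XX n d k) 341 530 4 4; rw [one_mul, liF_Em]
  | (j + 11) => show (0 : ℝ) ≤ 0 * _; rw [zero_mul]

/-- `5 KV` -/
def eKV : Ex :=
  32 * (.v 1 * .v 3 * .v 4) + 40 * (.v 0 * .v 4) + 40 * (.v 1 ^ 2 * .v 4) +
    600 * (.v 1 ^ 2 * .v 8 ^ 2) + 140 * .v 0 ^ 2 + 560 * .v 4 ^ 2 + 5760 * (.v 1 ^ 4 * .v 8 ^ 4) +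
    7840 * .v 2 ^ 2

/-- `5 K4` -/
def eK4 : Ex :=
  16 * (.v 1 * .v 3) + 20 * (.v 0 * .v 3) + 20 * (.v 1 ^ 2 * .v 3) +
    10 * (.v 9 * (72 * .v 1 ^ 4 + 98 * .v 3 ^ 2)) +
    10 * (.v 10 * (6 * (.v 1 ^ 2 * .v 8 ^ 2) + 7 * .v 4 ^ 2))

/-- `5 errV4` -/
def eVF : Ex :=
  40 * .v 0 ^ 2 + 80 * (.v 3 * .v 8 ^ 2 * .v 2 * (.v 0 + .v 1 ^ 2)) +
    64 * (.v 3 * .v 1 * .v 8 * .v 4 * .v 2) + (10 * .v 5 + 40 * (.v 7 * .v 4) + 2 * eKV) * .v 2 ^ 2 +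
    10 * (.v 0 * .v 2 * .v 3) + 10 * (.v 1 ^ 2 * .v 2 * .v 3) +
    30 * (.v 3 ^ 2 * .v 1 ^ 2 * .v 2) + 10 * .v 0 ^ 2 + 10 * .v 1 ^ 4 +
    50 * (.v 3 ^ 2 * .v 1 ^ 4) + (10 * .v 5 + 2 * eK4) * .v 2 ^ 2

theorem eVF_ev : 5 * errV4 (lmF n d k) (liF n d k) (tF n d k) (sF n d k) (vF n d k) (nF n d k)
      (tF n d k) (uF n d k) (GF n d k) (LF n d k) = eVF.ev (rhoF2 n d k) := by
  simp only [eVF, eKV, eK4, Ex.ev_add, Ex.ev_mul, Ex.ev_pow, Ex.ev_ofNat, Ex.ev_v, rhoF2, rhoF,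
    errV4, errV, KV, K4]
  push_cast
  ring

variable {ι : Type*} [Fintype ι] [DecidableEq ι] {F : Finset ι} {Z Zp Zm : Matrix ι ι ℝ} {ε : ℝ}
  {forb : ι → ι → Prop}

theorem gV2_eq (h : ZBase F Z) : gV2 F Z = ∑ c, (Z ^ 2) c c ^ 2 := by
  unfold gV2
  refine Finset.sum_subset (Finset.subset_univ F) fun x _ hx => ?_
  rw [h.pow_supp 1 x x hx]; norm_num

theorem upd_supp' (h : ZBase F Z) {a b i : ι} (hi : i ∉ (F.erase a).erase b) (j : ι) :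
    upd Z a b i j = 0 := by
  rw [Finset.mem_erase, Finset.mem_erase] at hi
  unfold upd
  simp only [Matrix.of_apply]
  by_cases h1 : i = a ∨ i = b ∨ j = a ∨ j = b
  · rw [if_pos h1]
  · rw [if_neg h1]
    have h2 : i ∉ F := by tauto
    rw [h.supp i j h2, h.supp i a h2, h.supp i b h2]
    ring

theorem gV2_upd (h : ZBase F Z) {a b : ι} :
    gV2 ((F.erase a).erase b) (upd Z a b) = ∑ c, (upd Z a b ^ 2) c c ^ 2 := by
  unfold gV2
  refine Finset.sum_subset (Finset.subset_univ _) fun c _ hc => ?_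
  have : (upd Z a b ^ 2) c c = 0 := by
    rw [sq, Matrix.mul_apply]
    exact Finset.sum_eq_zero fun x _ => by rw [upd_supp' h hc x, zero_mul]
  rw [this]; norm_num

/-- **the rate of `V₂` in the final phase** -/
theorem rate_V2F (d : ℕ) : ∃ C : ℝ, ∀ (ι : Type) [Fintype ι] [DecidableEq ι] (n k : ℕ)
    (F : Finset ι) (Zp Zm : Matrix ι ι ℝ) (forb : ι → ι → Prop), 2000 ≤ sR n →
    EnvF n d k F Zp Zm forb → ∀ (ε : ℝ) (Z : Matrix ι ι ℝ), Sgn Zp Zm ε Z →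
    ∑ p ∈ adm F forb Zp Zm, (fV2F n d (k + 1) ((F.erase p.1).erase p.2) (upd Z p.1 p.2) -
      fV2F n d k F Z) ≤ C * rF n d k := by
  refine ⟨4 * (1 / 5 * eVF.cs (kapF2 d)), fun ι _ _ n k F Zp Zm forb hσ h ε Z hs => ?_⟩
  have hN := NkF_pos h.k_lt
  have R := rgF hσ h.k_ge h.k_lt
  have h1 := h.oneF hs
  have hA := h.admOK hσ hs
  have hw : ∀ a, (Z ^ 2) a a ≤ uF n d k ^ 2 := by
    intro a
    rw [uF_sq]
    have : (Z ^ 2) a a ^ 2 ≤ vF n d k ^ 2 :=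
      (Finset.single_le_sum (f := fun c => (Z ^ 2) c c ^ 2) (fun _ _ => sq_nonneg _)
        (Finset.mem_univ a)).trans h1.bds.V
    exact (abs_le_of_sq_le_sq' this h1.bds.v0).2
  have h2 := V2_drift4 (lm := lmF n d k) (li := liF n d k) h1.base h1.bds hA
    (mo_nonneg _ _ _ _) hw (mo_pos _ _ _ _) lmF_mul
  rw [nF_sq hN] at h2
  set E := errV4 (lmF n d k) (liF n d k) (tF n d k) (sF n d k) (vF n d k) (nF n d k)
      (tF n d k) (uF n d k) (GF n d k) (LF n d k) with hE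
  have hE0 : 0 ≤ E := by
    have := Ex.ev_nonneg (rhoF2_nonneg n d k) eVF
    rw [← eVF_ev] at this
    linarith
  have h4 := lin_rate_sq (adm F forb Zp Zm) (fun p => ∑ c, (upd Z p.1 p.2 ^ 2) c c ^ 2)
    (P := ∑ c, (Z ^ 2) c c ^ 2) (E := E) (N := Nk n d k) (s := (sR n : ℝ) ^ 656)
    (four_le_NkF hσ h.k_lt) (by positivity) (Finset.sum_nonneg fun _ _ => sq_nonneg _)
    (card_adm_le_sq h.card) hE0 h2
  have h5 : E ≤ (1 / 5 * eVF.cs (kapF2 d)) * Em (LL n) (XX n d k) 341 530 1464 3732 := by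
    have := eVF.bound R yG1 yG2 (z1 := 1464) (z2 := 3732) (by decide) (by decide)
      (rhoF2_nonneg n d k) (kapF2_nonneg d) (rhoF2_le R)
    rw [← eVF_ev] at this
    linarith
  have h6 := div_sq_le_rF hσ hN 656 (by norm_num) (by norm_num) h5
  unfold fV2F
  rw [Nk_succ]
  have e1 : ∑ p ∈ adm F forb Zp Zm, (gV2 ((F.erase p.1).erase p.2) (upd Z p.1 p.2) *
      (sR n : ℝ) ^ 656 / (Nk n d k - 2) ^ 2 - gV2 F Z * (sR n : ℝ) ^ 656 / Nk n d k ^ 2) =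
      ∑ p ∈ adm F forb Zp Zm, ((∑ c, (upd Z p.1 p.2 ^ 2) c c ^ 2) *
      (sR n : ℝ) ^ 656 / (Nk n d k - 2) ^ 2 -
        (∑ c, (Z ^ 2) c c ^ 2) * (sR n : ℝ) ^ 656 / Nk n d k ^ 2) := by
    refine Finset.sum_congr rfl fun p _ => ?_
    rw [gV2_upd h1.base, gV2_eq h1.base]
  rw [e1]
  linarith

/-! ### The final phase -/

theorem rateTF (d : ℕ) : RateTF d := by
  obtain ⟨C, h⟩ := rate_T2F d
  exact ⟨C, 2000, fun ι _ _ n k F Zp Zm forb hs => h ι n k F Zp Zm forb hs⟩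

theorem rateSF (d : ℕ) : RateSF d := by
  obtain ⟨C, h⟩ := rate_SF d
  exact ⟨C, 2000, fun ι _ _ n k F Zp Zm forb hs => h ι n k F Zp Zm forb hs⟩

theorem rateVF (d : ℕ) : RateVF d := by
  obtain ⟨C, h⟩ := rate_V2F d
  exact ⟨C, 2000, fun ι _ _ n k F Zp Zm forb hs => h ι n k F Zp Zm forb hs⟩

/-- **The final phase.** -/
theorem phaseF {d : ℕ} (hd : 3 ≤ d) :
    Ev d fun n => ∃ r, Phase n d (k4 n d) (k5 n d) (fun k s => PhiF n d k s) (1 / 4) r :=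
  phaseF_of hd (rateTF d) (rateSF d) (rateVF d)

end Vale.Agent.P049.TS.Asm
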