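import Vale.Agent.P049.TS.Asm.EnvOf

/-!
The potential `PhiA` at the start is at most `C(d) / σ`.
-/

set_option linter.unusedSectionVars false
set_option exponentiation.threshold 3000

namespace Vale.Agent.P049.TS.Asm

open Matrix Finset

variable {n d : ℕ}
variable {ι : Type*} [Fintype ι] [DecidableEq ι] {V : Type*} [Fintype V] [DecidableEq V]
variable {vert : ι → V}

theorem t1_zero (n d : ℕ) : t1 n d 0 = 0 := by
  unfold t1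
  simp

theorem tD_zero (n d : ℕ) : tD n d 0 = 0 := tD_of_le (Nat.zero_le _)

/-- `x ≤ c`, `1 ≤ σ`, `1 ≤ j` give `x / σ^j ≤ c / σ` -/
theorem div_pow_le {x c σ : ℝ} (hσ : 1 ≤ σ) (hx : x ≤ c) (hc : 0 ≤ c) {j : ℕ} (hj : 1 ≤ j) :
    x / σ ^ j ≤ c / σ := by
  have h1 : σ ≤ σ ^ j := by
    calc σ = σ ^ 1 := (pow_one σ).symm
      _ ≤ σ ^ j := pow_le_pow_right₀ hσ hj
  have h0 : 0 < σ := by linarith
  calc x / σ ^ j ≤ c / σ ^ j := by gcongr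
    _ ≤ c / σ := by gcongr

/-- facts about `1/ν` -/
theorem inv_nu_sq {ν : ℝ} (hν : ((d : ℝ) - 1) * ν ^ 2 = 1) : (1 / ν) ^ 2 = d - 1 := by
  have := Init.nu_ne hν
  rw [div_pow, one_pow, div_eq_iff (pow_ne_zero 2 this)]
  linarith

theorem one_sub_inv_nu_sq {ν : ℝ} (hd : 3 ≤ d) (hν : ((d : ℝ) - 1) * ν ^ 2 = 1) :
    (1 - 1 / ν) ^ 2 ≤ (1 + (d : ℝ)) ^ 2 := by
  have hd' : (3 : ℝ) ≤ d := by exact_mod_cast hd
  have a1 : |1 / ν| ≤ d := by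
    apply abs_le_of_sq_le_sq _ (by linarith)
    rw [inv_nu_sq hν]; nlinarith
  have := abs_le.1 a1
  nlinarith [this.1, this.2]

theorem Nk_zero (n d : ℕ) : (Nk n d 0 : ℝ) = n * d := by unfold Nk; simp

theorem init_f1 (h : Init.Fib vert n d) (hd : 3 ≤ d) (hσ : 2000 ≤ sR n) {ε ν : ℝ}
    (hε : ε ^ 2 = 1) (hν : ((d : ℝ) - 1) * ν ^ 2 = 1) :
    f1 n d 0 ε (Init.Z0 vert n d ν) ≤ (1 + (d : ℝ)) ^ 2 / sR n := by
  unfold f1
  refine div_pow_le (sR_one hσ) ?_ (by positivity) (by norm_num)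
  rw [Init.trace_Z0 h hν, t1_zero, sub_zero, mul_pow, hε, one_mul]
  exact one_sub_inv_nu_sq hd hν

theorem init_fD (h : Init.Fib vert n d) (hd : 3 ≤ d) (hσ : 2000 ≤ sR n) {ν : ℝ}
    (hν : ((d : ℝ) - 1) * ν ^ 2 = 1) :
    fD n d 0 (Init.Z0 vert n d ν) ≤ (d : ℝ) ^ 2 / sR n := by
  have hd' : (3 : ℝ) ≤ d := by exact_mod_cast hd
  unfold fD
  refine div_pow_le (sR_one hσ) ?_ (by positivity) (by norm_num)
  rw [Init.trace_Z0_sq h hν, tD_zero, Nk_zero]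
  have e : ((n : ℝ) * d - (d - 1) - n * d - 0) = -((d : ℝ) - 1) := by ring
  nlinarith

theorem init_f3 (h : Init.Fib vert n d) (hd : 3 ≤ d) (hσ : 2000 ≤ sR n) {ε ν : ℝ}
    (hε : ε ^ 2 = 1) (hν : ((d : ℝ) - 1) * ν ^ 2 = 1) (hεν : ε * (1 / ν) = √((d : ℝ) - 1)) :
    f3 n d 0 ε (Init.Z0 vert n d ν) ≤ ((d : ℝ) ^ 2 + 3) ^ 2 / sR n := by
  have hd' : (3 : ℝ) ≤ d := by exact_mod_cast hd
  have hr0 : 0 ≤ √((d : ℝ) - 1) := Real.sqrt_nonneg _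
  have hr2 : √((d : ℝ) - 1) ^ 2 = d - 1 := Real.sq_sqrt (by linarith)
  have hrd : √((d : ℝ) - 1) ≤ d := by
    rw [Real.sqrt_le_left (by linarith)]
    nlinarith
  have e3 : ε * (Init.Z0 vert n d ν ^ 3).trace =
      kapR n d - √((d : ℝ) - 1) * (d - 1) + ε := by
    rw [Init.trace_Z0_cube h hν]
    have e4 : ν ^ 2 = 1 / ((d : ℝ) - 1) := by
      rw [eq_div_iff (by linarith)]; linarith
    have e5 : kapR n d = √((d : ℝ) - 1) * (n * ((d : ℝ) - 1 - 1 / (d - 1))) := by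
      unfold kapR
      have hr : 0 < √((d : ℝ) - 1) := Real.sqrt_pos.2 (by linarith)
      rw [div_eq_iff hr.ne']
      have : √((d : ℝ) - 1) * (n * ((d : ℝ) - 1 - 1 / (d - 1))) * √((d : ℝ) - 1) =
          √((d : ℝ) - 1) ^ 2 * (n * ((d : ℝ) - 1 - 1 / (d - 1))) := by ring
      rw [this, hr2]
      have h1 : (d : ℝ) - 1 ≠ 0 := by linarith
      field_simp
      ring
    rw [e5, e4]
    linear_combination (((n : ℝ) - 1) * (d - 1) - n * (1 / (d - 1))) * hεν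
  unfold f3
  rw [if_pos (k1_pos hσ hd)]
  refine div_pow_le (sR_one hσ) ?_ (by positivity) (by norm_num)
  rw [e3]
  have a1 := kap_le_kapR hd n
  have a2 := kapR_le_kap hd n
  have a3 : |ε| ≤ 1 := by
    rw [abs_le_one_iff_mul_self_le_one]; nlinarith
  have a4 := abs_le.1 a3
  have a5 : √((d : ℝ) - 1) * (d - 1) ≤ (d : ℝ) ^ 2 := by nlinarith
  have a6 : 0 ≤ √((d : ℝ) - 1) * (d - 1) := mul_nonneg hr0 (by linarith)
  have a7 : |kapR n d - √((d : ℝ) - 1) * (d - 1) + ε - kap n d| ≤ (d : ℝ) ^ 2 + 3 := by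
    rw [abs_le]; constructor <;> nlinarith [a4.1, a4.2]
  rw [← sq_abs]
  exact pow_le_pow_left₀ (abs_nonneg _) a7 2

theorem init_f4 (h : Init.Fib vert n d) (hd : 3 ≤ d) (hσ : 2000 ≤ sR n) {ν : ℝ}
    (hν : ((d : ℝ) - 1) * ν ^ 2 = 1) :
    f4 n d 0 (Init.Z0 vert n d ν) ≤ 4 * (d : ℝ) ^ 3 / sR n := by
  have hs1 := sR_one hσ
  have hs0 := sR_pos hσ
  have hn2 := n_le_two_mul hσ
  unfold f4
  have a1 := Init.T4_le h hd hν
  have a0 : 0 ≤ (Init.Z0 vert n d ν ^ 4).trace * Nk n d 0 ∨ True := Or.inr trivial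
  have a2 : (Init.Z0 vert n d ν ^ 4).trace * Nk n d 0 ≤
      4 * (d : ℝ) ^ 3 * (sR n : ℝ) ^ 2000 := by
    rw [Nk_zero]
    have e : (sR n : ℝ) ^ 2000 = (sR n : ℝ) ^ 1000 * (sR n : ℝ) ^ 1000 := by
      rw [← pow_add]
    rw [e]
    have hy : (0 : ℝ) ≤ (sR n : ℝ) ^ 1000 := by positivity
    generalize (sR n : ℝ) ^ 1000 = y at *
    calc (Init.Z0 vert n d ν ^ 4).trace * (n * d) ≤ (d ^ 2 * n) * (n * d) := by gcongr
      _ ≤ (d ^ 2 * (2 * y)) * ((2 * y) * d) := by gcongr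
      _ = _ := by ring
  have e2 : (sR n : ℝ) ^ 2003 = (sR n : ℝ) ^ 2000 * (sR n : ℝ) ^ 3 := by rw [← pow_add]
  have e3 : (sR n : ℝ) ≤ (sR n : ℝ) ^ 3 := by
    calc (sR n : ℝ) = (sR n : ℝ) ^ 1 := (pow_one _).symm
      _ ≤ _ := pow_le_pow_right₀ hs1 (by norm_num)
  have hy : (0 : ℝ) < (sR n : ℝ) ^ 2000 := by positivity
  rw [e2]
  generalize (sR n : ℝ) ^ 2000 = y at *
  rw [div_le_div_iff₀ (by positivity) hs0]
  calc (Init.Z0 vert n d ν ^ 4).trace * Nk n d 0 * sR n ≤ 4 * (d : ℝ) ^ 3 * y * sR n := by gcongr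
    _ ≤ 4 * (d : ℝ) ^ 3 * y * (sR n : ℝ) ^ 3 := by gcongr
    _ = _ := by ring

theorem one_le_nd (hd : 3 ≤ d) (hσ : 2000 ≤ sR n) : (1 : ℝ) ≤ n * d := by
  have hd' : (3 : ℝ) ≤ d := by exact_mod_cast hd
  have hn10 : (10 : ℝ) ≤ n := by exact_mod_cast ten_le_n hσ
  nlinarith

theorem init_fV (h : Init.Fib vert n d) (hd : 3 ≤ d) (hσ : 2000 ≤ sR n) {ν : ℝ}
    (hν : ((d : ℝ) - 1) * ν ^ 2 = 1) :
    fV n d 0 (univ : Finset ι) (Init.Z0 vert n d ν) ≤ (d : ℝ) ^ 2 / sR n := by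
  have hd' : (3 : ℝ) ≤ d := by exact_mod_cast hd
  have hnd := one_le_nd (d := d) hd hσ
  unfold fV gV
  rw [if_pos (k1_pos hσ hd)]
  refine div_pow_le (sR_one hσ) ?_ (by positivity) (by norm_num)
  rw [Init.V_eq h hν, div_le_iff₀ (by linarith)]
  calc ((d : ℝ) - 2) ^ 2 ≤ (d : ℝ) ^ 2 := by
        apply pow_le_pow_left₀ (by linarith) (by linarith)
    _ ≤ _ := le_mul_of_one_le_right (by positivity) hnd

theorem init_fS (h : Init.Fib vert n d) (hd : 3 ≤ d) (hσ : 2000 ≤ sR n) {ν : ℝ}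
    (hν : ((d : ℝ) - 1) * ν ^ 2 = 1) :
    fS n (univ : Finset ι) (Init.Z0 vert n d ν) ≤ (1 + (d : ℝ)) ^ 2 / sR n := by
  have hd' : (3 : ℝ) ≤ d := by exact_mod_cast hd
  have hnd := one_le_nd (d := d) hd hσ
  unfold fS Sd
  refine div_pow_le (sR_one hσ) ?_ (by positivity) (by norm_num)
  rw [Init.S_eq h hν, div_le_iff₀ (by linarith)]
  exact le_trans (one_sub_inv_nu_sq hd hν) (le_mul_of_one_le_right (by positivity) hnd)

theorem init_one (h : Init.Fib vert n d) (hd : 3 ≤ d) (hσ : 2000 ≤ sR n) {ε ν : ℝ}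
    (hε : ε ^ 2 = 1) (hν : ((d : ℝ) - 1) * ν ^ 2 = 1) (hεν : ε * (1 / ν) = √((d : ℝ) - 1)) :
    fOne n d 0 ε (univ : Finset ι) (Init.Z0 vert n d ν) ≤
      (2 * (1 + (d : ℝ)) ^ 2 + 2 * (d : ℝ) ^ 2 + ((d : ℝ) ^ 2 + 3) ^ 2 + 4 * (d : ℝ) ^ 3) / sR n := by
  have b1 := init_f1 h hd hσ hε hν
  have bD := init_fD h hd hσ hν
  have b3 := init_f3 h hd hσ hε hν hεν
  have b4 := init_f4 h hd hσ hν
  have bV := init_fV h hd hσ hν
  have bS := init_fS h hd hσ hν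
  have e : (2 * (1 + (d : ℝ)) ^ 2 + 2 * (d : ℝ) ^ 2 + ((d : ℝ) ^ 2 + 3) ^ 2 + 4 * (d : ℝ) ^ 3) / sR n =
      (1 + (d : ℝ)) ^ 2 / sR n + (d : ℝ) ^ 2 / sR n + ((d : ℝ) ^ 2 + 3) ^ 2 / sR n +
      4 * (d : ℝ) ^ 3 / sR n + (d : ℝ) ^ 2 / sR n + (1 + (d : ℝ)) ^ 2 / sR n := by ring
  rw [e]
  unfold fOne
  linarith

/-- the constant of `init_PhiA` -/
noncomputable def cInit (d : ℕ) : ℝ :=
  2 * (2 * (1 + (d : ℝ)) ^ 2 + 2 * (d : ℝ) ^ 2 + ((d : ℝ) ^ 2 + 3) ^ 2 + 4 * (d : ℝ) ^ 3) + d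

theorem init_PhiA (h : Init.Fib vert n d) (hd : 3 ≤ d) (hσ : 2000 ≤ sR n) :
    PhiA n d 0 (start vert d : RSt ι) ≤ cInit d / sR n := by
  have hd' : (3 : ℝ) ≤ d := by exact_mod_cast hd
  have hs1 := sR_one hσ
  have hs0 := sR_pos hσ
  have hν := mu_sq (d := d) (by omega)
  have hν' := neg_mu_sq (d := d) (by omega)
  have hr0 : 0 < √((d : ℝ) - 1) := Real.sqrt_pos.2 (by linarith)
  have hp := init_one (vert := vert) h hd hσ (ε := 1) (by norm_num) hν (by simp)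
  have hm := init_one (vert := vert) h hd hσ (ε := -1) (by norm_num) hν' (by
    rw [one_div, inv_neg, inv_inv]; ring)
  have hN : Nk n d 0 = n * d := by unfold Nk; simp
  have hn10 : (10 : ℝ) ≤ n := by exact_mod_cast ten_le_n hσ
  have hW : fW n d 0 (start vert d : RSt ι).Zp (start vert d : RSt ι).Zm ≤ d / sR n := by
    unfold fW
    rw [if_pos (k1_pos hσ hd), start_Zp h, start_Zm h]
    have e : (Init.Z0 vert n d (√((d : ℝ) - 1))⁻¹ ^ 2 *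
        Init.Z0 vert n d (-(√((d : ℝ) - 1))⁻¹) ^ 2).trace =
        (Init.Z0 vert n d (√((d : ℝ) - 1))⁻¹ ^ 4).trace := by
      rw [Init.trace_W h hν, Init.trace_Z0_four h hν]
    rw [e, hN]
    have a1 := Init.T4_le h hd hν
    have e1 : (sR n : ℝ) ≤ (sR n : ℝ) ^ 60 := by
      calc (sR n : ℝ) = (sR n : ℝ) ^ 1 := (pow_one _).symm
        _ ≤ _ := pow_le_pow_right₀ hs1 (by norm_num)
    rw [div_le_div_iff₀ (by positivity) hs0]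
    calc (Init.Z0 vert n d (√((d : ℝ) - 1))⁻¹ ^ 4).trace * sR n
        ≤ ((d : ℝ) ^ 2 * n) * (sR n : ℝ) ^ 60 := by gcongr
      _ = _ := by ring
  have e : cInit d / sR n =
      (2 * (1 + (d : ℝ)) ^ 2 + 2 * (d : ℝ) ^ 2 + ((d : ℝ) ^ 2 + 3) ^ 2 + 4 * (d : ℝ) ^ 3) / sR n +
      (2 * (1 + (d : ℝ)) ^ 2 + 2 * (d : ℝ) ^ 2 + ((d : ℝ) ^ 2 + 3) ^ 2 + 4 * (d : ℝ) ^ 3) / sR n +
      d / sR n := by unfold cInit; ring
  rw [e]
  unfold PhiA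
  rw [start_F, start_Zp h, start_Zm h] at *
  linarith

end Vale.Agent.P049.TS.Asm
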