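import Mathlib

/-!
Generic lemmas about weighted averages of potentials:
* `sq_rate`: two-sided squares `(P - t)²` with a moving target;
* `pos_sq_rate`: one-sided squares `(max (P - t) 0)²`;
* `lin_rate`, `lin_rate_le`: linear potentials with a moving scale;
* `abs_sum_weight_sub_le`, `sum_weight_ge`: the normalisation `∑ ω`.
-/

namespace Vale.Agent.P049.TS.Asm

open Finset

section Generic

variable {α : Type*} (A : Finset α) (om P' : α → ℝ)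

/-- **square lemma** (two-sided target).
If `|∑ ω (P' - P) - M| ≤ E₁`, `∑ ω (P' - P)² ≤ E₂`, `|P - t| ≤ δ`, then
`∑ ω ((P' - t')² - (P - t)²) ≤ 2 δ |M - (t' - t) ∑ ω| + 2 δ E₁ + 2 E₂ + 2 (t' - t)² ∑ ω`. -/
theorem sq_rate {P t t' M E1 E2 del : ℝ} (hom : ∀ p ∈ A, 0 ≤ om p)
    (h1 : |∑ p ∈ A, om p * (P' p - P) - M| ≤ E1)
    (h2 : ∑ p ∈ A, om p * (P' p - P) ^ 2 ≤ E2) (hd : |P - t| ≤ del) :
    ∑ p ∈ A, om p * ((P' p - t') ^ 2 - (P - t) ^ 2) ≤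
      2 * del * |M - (t' - t) * ∑ p ∈ A, om p| + 2 * del * E1 + 2 * E2 +
        2 * (t' - t) ^ 2 * ∑ p ∈ A, om p := by
  have hdel : 0 ≤ del := (abs_nonneg _).trans hd
  have key : ∀ p ∈ A, om p * ((P' p - t') ^ 2 - (P - t) ^ 2) ≤
      2 * (P - t) * (om p * (P' p - P)) - 2 * (P - t) * (t' - t) * om p +
        2 * (om p * (P' p - P) ^ 2) + 2 * (t' - t) ^ 2 * om p := by
    intro p hp
    have h := hom p hp
    nlinarith [mul_nonneg h (sq_nonneg ((P' p - P) + (t' - t)))]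
  refine (Finset.sum_le_sum key).trans ?_
  rw [Finset.sum_add_distrib, Finset.sum_add_distrib, Finset.sum_sub_distrib, ← Finset.mul_sum,
    ← Finset.mul_sum, ← Finset.mul_sum, ← Finset.mul_sum]
  set S := ∑ p ∈ A, om p * (P' p - P)
  set W := ∑ p ∈ A, om p
  have e : 2 * (P - t) * S - 2 * (P - t) * (t' - t) * W
      = 2 * ((P - t) * (M - (t' - t) * W)) + 2 * ((P - t) * (S - M)) := by ring
  have b1 : (P - t) * (M - (t' - t) * W) ≤ del * |M - (t' - t) * W| := by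
    refine (le_abs_self _).trans ?_
    rw [abs_mul]
    exact mul_le_mul_of_nonneg_right hd (abs_nonneg _)
  have b2 : (P - t) * (S - M) ≤ del * E1 := by
    refine (le_abs_self _).trans ?_
    rw [abs_mul]
    exact mul_le_mul hd h1 (abs_nonneg _) hdel
  have := h2
  rw [e]
  linarith

/-- the same, divided by a positive scale `c` -/
theorem sq_rate_div {P t t' M E1 E2 del c : ℝ} (hc : 0 < c) (hom : ∀ p ∈ A, 0 ≤ om p)
    (h1 : |∑ p ∈ A, om p * (P' p - P) - M| ≤ E1)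
    (h2 : ∑ p ∈ A, om p * (P' p - P) ^ 2 ≤ E2) (hd : |P - t| ≤ del) :
    ∑ p ∈ A, om p * ((P' p - t') ^ 2 / c - (P - t) ^ 2 / c) ≤
      (2 * del * |M - (t' - t) * ∑ p ∈ A, om p| + 2 * del * E1 + 2 * E2 +
        2 * (t' - t) ^ 2 * ∑ p ∈ A, om p) / c := by
  have h := sq_rate A om P' (t' := t') hom h1 h2 hd
  rw [le_div_iff₀ hc]
  refine le_trans (le_of_eq ?_) h
  rw [Finset.sum_mul]
  refine Finset.sum_congr rfl fun p _ => ?_
  field_simp

/-- **square lemma** (one-sided target).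
If `∑ ω (P' - P) ≤ M`, `∑ ω (P' - P)² ≤ E₂`, then
`∑ ω ((P' - t')₊² - (P - t)₊²) ≤ 2 (P - t)₊ (M - (t' - t) ∑ ω) + 2 E₂ + 2 (t' - t)² ∑ ω`. -/
theorem pos_sq_rate {P t t' M E2 : ℝ} (hom : ∀ p ∈ A, 0 ≤ om p)
    (h1 : ∑ p ∈ A, om p * (P' p - P) ≤ M)
    (h2 : ∑ p ∈ A, om p * (P' p - P) ^ 2 ≤ E2) :
    ∑ p ∈ A, om p * ((max (P' p - t') 0) ^ 2 - (max (P - t) 0) ^ 2) ≤
      2 * max (P - t) 0 * (M - (t' - t) * ∑ p ∈ A, om p) + 2 * E2 +
        2 * (t' - t) ^ 2 * ∑ p ∈ A, om p := by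
  set x := max (P - t) 0 with hx
  have hx0 : 0 ≤ x := le_max_right _ _
  have key : ∀ p ∈ A, om p * ((max (P' p - t') 0) ^ 2 - x ^ 2) ≤
      2 * x * (om p * (P' p - P)) - 2 * x * (t' - t) * om p +
        2 * (om p * (P' p - P) ^ 2) + 2 * (t' - t) ^ 2 * om p := by
    intro p hp
    have h := hom p hp
    -- (x + e)_+^2 ≤ x_+^2 + 2 x_+ e + e^2
    have h3 : (max (P' p - t') 0) ^ 2 ≤ x ^ 2 + 2 * x * ((P' p - P) - (t' - t)) +
        ((P' p - P) - (t' - t)) ^ 2 := by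
      have e1 : (P' p - t') = (P - t) + ((P' p - P) - (t' - t)) := by ring
      have e2 : P - t ≤ x := le_max_left _ _
      have e3 : x ^ 2 + 2 * x * ((P' p - P) - (t' - t)) + ((P' p - P) - (t' - t)) ^ 2
          = (x + ((P' p - P) - (t' - t))) ^ 2 := by ring
      rw [e3]
      rcases le_total (P' p - t') 0 with h0 | h0
      · rw [max_eq_right h0, zero_pow two_ne_zero]
        exact sq_nonneg _
      · rw [max_eq_left h0]
        apply pow_le_pow_left₀ h0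
        linarith
    have h4 : ((P' p - P) - (t' - t)) ^ 2 ≤ 2 * (P' p - P) ^ 2 + 2 * (t' - t) ^ 2 := by
      nlinarith [sq_nonneg ((P' p - P) + (t' - t))]
    have h5 : (max (P' p - t') 0) ^ 2 - x ^ 2 ≤ 2 * x * ((P' p - P) - (t' - t)) +
        (2 * (P' p - P) ^ 2 + 2 * (t' - t) ^ 2) := by linarith
    have h6 := mul_le_mul_of_nonneg_left h5 h
    refine h6.trans (le_of_eq ?_)
    ring
  refine (Finset.sum_le_sum key).trans ?_
  rw [Finset.sum_add_distrib, Finset.sum_add_distrib, Finset.sum_sub_distrib, ← Finset.mul_sum,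
    ← Finset.mul_sum, ← Finset.mul_sum, ← Finset.mul_sum]
  have h7 : 2 * x * ∑ p ∈ A, om p * (P' p - P) ≤ 2 * x * M :=
    mul_le_mul_of_nonneg_left h1 (by positivity)
  linarith

/-- the same, divided by a positive scale `c` -/
theorem pos_sq_rate_div {P t t' M E2 c : ℝ} (hc : 0 < c) (hom : ∀ p ∈ A, 0 ≤ om p)
    (h1 : ∑ p ∈ A, om p * (P' p - P) ≤ M)
    (h2 : ∑ p ∈ A, om p * (P' p - P) ^ 2 ≤ E2) :
    ∑ p ∈ A, om p * ((max (P' p - t') 0) ^ 2 / c - (max (P - t) 0) ^ 2 / c) ≤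
      (2 * max (P - t) 0 * (M - (t' - t) * ∑ p ∈ A, om p) + 2 * E2 +
        2 * (t' - t) ^ 2 * ∑ p ∈ A, om p) / c := by
  have h := pos_sq_rate A om P' (t := t) (t' := t') hom h1 h2
  rw [le_div_iff₀ hc]
  refine le_trans (le_of_eq ?_) h
  rw [Finset.sum_mul]
  refine Finset.sum_congr rfl fun p _ => ?_
  field_simp

/-- one-sided squares with a moving scale: if moreover `c' ≤ c` then
`x²/c' - x²/c` must be added -/
theorem pos_sq_rate_scale {P t t' M E2 c c' : ℝ} (hc : 0 < c) (hc' : 0 < c')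
    (hom : ∀ p ∈ A, 0 ≤ om p) (h1 : ∑ p ∈ A, om p * (P' p - P) ≤ M)
    (h2 : ∑ p ∈ A, om p * (P' p - P) ^ 2 ≤ E2) :
    ∑ p ∈ A, om p * ((max (P' p - t') 0) ^ 2 / c' - (max (P - t) 0) ^ 2 / c) ≤
      (2 * max (P - t) 0 * (M - (t' - t) * ∑ p ∈ A, om p) + 2 * E2 +
        2 * (t' - t) ^ 2 * ∑ p ∈ A, om p) / c' +
      (max (P - t) 0) ^ 2 * (1 / c' - 1 / c) * ∑ p ∈ A, om p := by
  have h := pos_sq_rate_div A om P' (t := t) (t' := t') hc' hom h1 h2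
  have e : ∑ p ∈ A, om p * ((max (P' p - t') 0) ^ 2 / c' - (max (P - t) 0) ^ 2 / c)
      = ∑ p ∈ A, om p * ((max (P' p - t') 0) ^ 2 / c' - (max (P - t) 0) ^ 2 / c') +
        (max (P - t) 0) ^ 2 * (1 / c' - 1 / c) * ∑ p ∈ A, om p := by
    rw [Finset.mul_sum, ← Finset.sum_add_distrib]
    refine Finset.sum_congr rfl fun p _ => ?_
    have := hc.ne'
    have := hc'.ne'
    field_simp
    ring
  rw [e]
  linarith

/-- the two-sided version with a moving scale -/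
theorem sq_rate_scale {P t t' M E1 E2 del c c' : ℝ} (hc : 0 < c) (hc' : 0 < c')
    (hom : ∀ p ∈ A, 0 ≤ om p)
    (h1 : |∑ p ∈ A, om p * (P' p - P) - M| ≤ E1)
    (h2 : ∑ p ∈ A, om p * (P' p - P) ^ 2 ≤ E2) (hd : |P - t| ≤ del) :
    ∑ p ∈ A, om p * ((P' p - t') ^ 2 / c' - (P - t) ^ 2 / c) ≤
      (2 * del * |M - (t' - t) * ∑ p ∈ A, om p| + 2 * del * E1 + 2 * E2 +
        2 * (t' - t) ^ 2 * ∑ p ∈ A, om p) / c' +
      (P - t) ^ 2 * (1 / c' - 1 / c) * ∑ p ∈ A, om p := by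
  have h := sq_rate_div A om P' (t := t) (t' := t') hc' hom h1 h2 hd
  have e : ∑ p ∈ A, om p * ((P' p - t') ^ 2 / c' - (P - t) ^ 2 / c)
      = ∑ p ∈ A, om p * ((P' p - t') ^ 2 / c' - (P - t) ^ 2 / c') +
        (P - t) ^ 2 * (1 / c' - 1 / c) * ∑ p ∈ A, om p := by
    rw [Finset.mul_sum, ← Finset.sum_add_distrib]
    refine Finset.sum_congr rfl fun p _ => ?_
    have := hc.ne'
    have := hc'.ne'
    field_simp
    ring
  rw [e]
  linarith

/-- linear potentials `P / c` with a moving scale (exact form) -/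
theorem lin_rate {P c c' : ℝ} (hc : 0 < c) (hc' : 0 < c') :
    ∑ p ∈ A, om p * (P' p / c' - P / c) =
      (∑ p ∈ A, om p * (P' p - P)) / c' + P * (1 / c' - 1 / c) * ∑ p ∈ A, om p := by
  rw [Finset.mul_sum, Finset.sum_div, ← Finset.sum_add_distrib]
  refine Finset.sum_congr rfl fun p _ => ?_
  have := hc.ne'
  have := hc'.ne'
  field_simp
  ring

/-- linear potentials `P / c` with a moving scale, upper bound -/
theorem lin_rate_le {P c c' M : ℝ} (hc : 0 < c) (hc' : 0 < c')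
    (h1 : ∑ p ∈ A, om p * (P' p - P) ≤ M) :
    ∑ p ∈ A, om p * (P' p / c' - P / c) ≤ M / c' + P * (1 / c' - 1 / c) * ∑ p ∈ A, om p := by
  rw [lin_rate A om P' hc hc']
  have : (∑ p ∈ A, om p * (P' p - P)) / c' ≤ M / c' := by gcongr
  linarith

/-- linear potentials `P * N / c` (`c` constant, `N' = N - 2`) -/
theorem lin_rate_mulN {P N c M : ℝ} (hc : 0 < c) (hN : 2 ≤ N)
    (h1 : ∑ p ∈ A, om p * (P' p - P) ≤ M) :
    ∑ p ∈ A, om p * (P' p * (N - 2) / c - P * N / c) ≤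
      (N - 2) * M / c - 2 * P / c * ∑ p ∈ A, om p := by
  have e : ∑ p ∈ A, om p * (P' p * (N - 2) / c - P * N / c)
      = (N - 2) * (∑ p ∈ A, om p * (P' p - P)) / c - 2 * P / c * ∑ p ∈ A, om p := by
    rw [Finset.mul_sum, Finset.mul_sum, Finset.sum_div, ← Finset.sum_sub_distrib]
    refine Finset.sum_congr rfl fun p _ => ?_
    have := hc.ne'
    field_simp
    ring
  rw [e]
  have : (N - 2) * (∑ p ∈ A, om p * (P' p - P)) / c ≤ (N - 2) * M / c := by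
    apply div_le_div_of_nonneg_right _ hc.le
    exact mul_le_mul_of_nonneg_left h1 (by linarith)
  linarith

/-- sum of the rates of finitely many potentials -/
theorem sum_rates {κ : Type*} (I : Finset κ) (f' : κ → α → ℝ) (f r : κ → ℝ)
    (h : ∀ i ∈ I, ∑ p ∈ A, om p * (f' i p - f i) ≤ r i) :
    ∑ p ∈ A, om p * ((∑ i ∈ I, f' i p) - ∑ i ∈ I, f i) ≤ ∑ i ∈ I, r i := by
  calc ∑ p ∈ A, om p * ((∑ i ∈ I, f' i p) - ∑ i ∈ I, f i)
      = ∑ i ∈ I, ∑ p ∈ A, om p * (f' i p - f i) := by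
        rw [Finset.sum_comm]
        refine Finset.sum_congr rfl fun p _ => ?_
        rw [← Finset.sum_sub_distrib, Finset.mul_sum]
    _ ≤ _ := Finset.sum_le_sum h

/-- second moments: weights at most `3/2` -/
theorem sum_weight_sq_le {P E : ℝ} (hom : ∀ p ∈ A, om p ≤ 3 / 2)
    (h : ∑ p ∈ A, (P' p - P) ^ 2 ≤ E) : ∑ p ∈ A, om p * (P' p - P) ^ 2 ≤ 3 / 2 * E := by
  calc _ ≤ ∑ p ∈ A, 3 / 2 * (P' p - P) ^ 2 :=
        Finset.sum_le_sum fun p hp => mul_le_mul_of_nonneg_right (hom p hp) (sq_nonneg _)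
    _ = 3 / 2 * ∑ p ∈ A, (P' p - P) ^ 2 := by rw [Finset.mul_sum]
    _ ≤ _ := by linarith

end Generic

section Norm

variable {ι : Type*} {F : Finset ι} {A : Finset (ι × ι)} {h : ι → ι → ℝ}

/-- `|∑_A h| ≤ N H` if `∑ h² ≤ H²` -/
theorem abs_sum_h_le {H : ℝ} (hA : A ⊆ F ×ˢ F) (hH : 0 ≤ H)
    (hHh : ∑ p ∈ F ×ˢ F, h p.1 p.2 ^ 2 ≤ H ^ 2) : |∑ p ∈ A, h p.1 p.2| ≤ F.card * H := by
  have h1 : (∑ p ∈ A, h p.1 p.2) ^ 2 ≤ ((F.card : ℝ) * H) ^ 2 := by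
    calc (∑ p ∈ A, h p.1 p.2) ^ 2 ≤ (A.card : ℝ) * ∑ p ∈ A, h p.1 p.2 ^ 2 :=
          sq_sum_le_card_mul_sum_sq
      _ ≤ ((F ×ˢ F).card : ℝ) * ∑ p ∈ F ×ˢ F, h p.1 p.2 ^ 2 := by
          refine mul_le_mul ?_ ?_ (Finset.sum_nonneg fun _ _ => sq_nonneg _) (Nat.cast_nonneg _)
          · exact_mod_cast Finset.card_le_card hA
          · exact Finset.sum_le_sum_of_subset_of_nonneg hA fun _ _ _ => sq_nonneg _
      _ ≤ ((F ×ˢ F).card : ℝ) * H ^ 2 := mul_le_mul_of_nonneg_left hHh (Nat.cast_nonneg _)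
      _ = _ := by rw [Finset.card_product]; push_cast; ring
  exact abs_le_of_sq_le_sq h1 (by positivity)

/-- `|∑_A (1 - h) - N²| ≤ e² + N H` -/
theorem abs_sum_weight_sub_le [DecidableEq ι] {H e : ℝ} (hA : A ⊆ F ×ˢ F) (hH : 0 ≤ H)
    (hHh : ∑ p ∈ F ×ˢ F, h p.1 p.2 ^ 2 ≤ H ^ 2)
    (hE : (((F ×ˢ F) \ A).card : ℝ) ≤ e ^ 2) :
    |∑ p ∈ A, (1 - h p.1 p.2) - (F.card : ℝ) ^ 2| ≤ e ^ 2 + F.card * H := by
  have h1 := abs_sum_h_le hA hH hHh
  have h2 : ((F ×ˢ F).card : ℝ) = (((F ×ˢ F) \ A).card : ℝ) + A.card := by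
    rw [← Nat.cast_add, Finset.card_sdiff_add_card_eq_card hA]
  have h3 : ((F ×ˢ F).card : ℝ) = (F.card : ℝ) ^ 2 := by
    rw [Finset.card_product]; push_cast; ring
  have e1 : ∑ p ∈ A, (1 - h p.1 p.2) - (F.card : ℝ) ^ 2
      = -(((F ×ˢ F) \ A).card : ℝ) - ∑ p ∈ A, h p.1 p.2 := by
    rw [Finset.sum_sub_distrib, Finset.sum_const, nsmul_eq_mul, mul_one, ← h3, h2]
    ring
  rw [e1]
  refine (abs_sub _ _).trans ?_
  rw [abs_neg, abs_of_nonneg (Nat.cast_nonneg _)]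
  linarith

/-- lower bound for the total weight -/
theorem sum_weight_ge [DecidableEq ι] {e : ℝ} (hA : A ⊆ F ×ˢ F) (hh : ∀ p ∈ A, |h p.1 p.2| ≤ 1 / 2)
    (hE : (((F ×ˢ F) \ A).card : ℝ) ≤ e ^ 2) :
    ((F.card : ℝ) ^ 2 - e ^ 2) / 2 ≤ ∑ p ∈ A, (1 - h p.1 p.2) := by
  have h2 : ((F ×ˢ F).card : ℝ) = (((F ×ˢ F) \ A).card : ℝ) + A.card := by
    rw [← Nat.cast_add, Finset.card_sdiff_add_card_eq_card hA]
  have h3 : ((F ×ˢ F).card : ℝ) = (F.card : ℝ) ^ 2 := by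
    rw [Finset.card_product]; push_cast; ring
  have h4 : ∑ _p ∈ A, (1 / 2 : ℝ) ≤ ∑ p ∈ A, (1 - h p.1 p.2) :=
    Finset.sum_le_sum fun p hp => by have := abs_le.1 (hh p hp); linarith [this.2]
  rw [Finset.sum_const, nsmul_eq_mul] at h4
  have h5 : (A.card : ℝ) = (F.card : ℝ) ^ 2 - (((F ×ˢ F) \ A).card : ℝ) := by linarith
  rw [h5] at h4
  linarith

theorem sum_weight_le (hA : A ⊆ F ×ˢ F) (hh : ∀ p ∈ A, |h p.1 p.2| ≤ 1 / 2) :
    ∑ p ∈ A, (1 - h p.1 p.2) ≤ 3 / 2 * (F.card : ℝ) ^ 2 := by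
  have h4 : ∑ p ∈ A, (1 - h p.1 p.2) ≤ ∑ _p ∈ A, (3 / 2 : ℝ) :=
    Finset.sum_le_sum fun p hp => by have := abs_le.1 (hh p hp); linarith [this.1]
  rw [Finset.sum_const, nsmul_eq_mul] at h4
  have h5 : (A.card : ℝ) ≤ (F.card : ℝ) ^ 2 := by
    have := Finset.card_le_card hA
    rw [Finset.card_product] at this
    have h6 : (A.card : ℝ) ≤ (F.card : ℝ) * F.card := by exact_mod_cast this
    nlinarith
  linarith

end Norm

end Vale.Agent.P049.TS.Asm
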