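import Vale.Agent.P049.TS.Asm.MkPhase
import Vale.Agent.P049.TS.Asm.EnvOf
import Vale.Agent.P049.TS.Asm.InitA
import Vale.Agent.P049.TS.Asm.Square
import Vale.Agent.P049.TS.Asm.Thr

/-!
The phases I and II from the rate lemmas: `RatesA d → Phase n d 0 (k2 n d) (PhiA n d) ..`.
-/

set_option linter.unusedSectionVars false
set_option exponentiation.threshold 3000

namespace Vale.Agent.P049.TS.Asm

open Finset

/-- the rate statement of a functional of one sign -/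
def ROne (d : ℕ) (g : ∀ n : ℕ, ℕ → ℝ → Finset (Fin (n * d)) →
    Matrix (Fin (n * d)) (Fin (n * d)) ℝ → ℝ) : Prop :=
  ∃ C : ℝ, ∃ s0 : ℕ, ∀ (n k : ℕ) (F : Finset (Fin (n * d)))
    (Zp Zm : Matrix (Fin (n * d)) (Fin (n * d)) ℝ) (forb : Fin (n * d) → Fin (n * d) → Prop),
    s0 ≤ sR n → EnvA n d k F Zp Zm forb → ∀ (ε : ℝ) (Z : Matrix (Fin (n * d)) (Fin (n * d)) ℝ),
    Sgn Zp Zm ε Z → ∑ p ∈ adm F forb Zp Zm, (1 - hA n d k F forb Zp Zm p.1 p.2) *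
      (g n (k + 1) ε ((F.erase p.1).erase p.2) (upd Z p.1 p.2) - g n k ε F Z) ≤ C * rT n d k

/-- the rate statement of a functional of both signs -/
def RTwo (d : ℕ) (g : ∀ n : ℕ, ℕ → Finset (Fin (n * d)) → Matrix (Fin (n * d)) (Fin (n * d)) ℝ →
    Matrix (Fin (n * d)) (Fin (n * d)) ℝ → ℝ) : Prop :=
  ∃ C : ℝ, ∃ s0 : ℕ, ∀ (n k : ℕ) (F : Finset (Fin (n * d)))
    (Zp Zm : Matrix (Fin (n * d)) (Fin (n * d)) ℝ) (forb : Fin (n * d) → Fin (n * d) → Prop),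
    s0 ≤ sR n → EnvA n d k F Zp Zm forb → ∑ p ∈ adm F forb Zp Zm,
      (1 - hA n d k F forb Zp Zm p.1 p.2) *
      (g n (k + 1) ((F.erase p.1).erase p.2) (upd Zp p.1 p.2) (upd Zm p.1 p.2) - g n k F Zp Zm) ≤
      C * rT n d k

theorem rT_nonneg (n d k : ℕ) : 0 ≤ rT n d k := mo_nonneg _ _ _ _

variable {d : ℕ}

theorem ROne.add {f g : ∀ n : ℕ, ℕ → ℝ → Finset (Fin (n * d)) →
    Matrix (Fin (n * d)) (Fin (n * d)) ℝ → ℝ} (hf : ROne d f) (hg : ROne d g) :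
    ROne d fun n k ε F Z => f n k ε F Z + g n k ε F Z := by
  obtain ⟨C₁, s₁, h₁⟩ := hf
  obtain ⟨C₂, s₂, h₂⟩ := hg
  refine ⟨C₁ + C₂, max s₁ s₂, fun n k F Zp Zm forb hσ h ε Z hs => ?_⟩
  have a1 := h₁ n k F Zp Zm forb (le_trans (le_max_left _ _) hσ) h ε Z hs
  have a2 := h₂ n k F Zp Zm forb (le_trans (le_max_right _ _) hσ) h ε Z hs
  rw [add_mul]
  refine le_trans (le_of_eq ?_) (add_le_add a1 a2)
  rw [← Finset.sum_add_distrib]
  exact Finset.sum_congr rfl fun p _ => by ring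

theorem RTwo.add {f g : ∀ n : ℕ, ℕ → Finset (Fin (n * d)) →
    Matrix (Fin (n * d)) (Fin (n * d)) ℝ → Matrix (Fin (n * d)) (Fin (n * d)) ℝ → ℝ}
    (hf : RTwo d f) (hg : RTwo d g) : RTwo d fun n k F Z Z' => f n k F Z Z' + g n k F Z Z' := by
  obtain ⟨C₁, s₁, h₁⟩ := hf
  obtain ⟨C₂, s₂, h₂⟩ := hg
  refine ⟨C₁ + C₂, max s₁ s₂, fun n k F Zp Zm forb hσ h => ?_⟩
  have a1 := h₁ n k F Zp Zm forb (le_trans (le_max_left _ _) hσ) h
  have a2 := h₂ n k F Zp Zm forb (le_trans (le_max_right _ _) hσ) h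
  rw [add_mul]
  refine le_trans (le_of_eq ?_) (add_le_add a1 a2)
  rw [← Finset.sum_add_distrib]
  exact Finset.sum_congr rfl fun p _ => by ring

theorem ROne.two {f : ∀ n : ℕ, ℕ → ℝ → Finset (Fin (n * d)) →
    Matrix (Fin (n * d)) (Fin (n * d)) ℝ → ℝ} (hf : ROne d f) :
    RTwo d fun n k F Zp Zm => f n k 1 F Zp + f n k (-1) F Zm := by
  obtain ⟨C, s, h⟩ := hf
  refine RTwo.add (f := fun n k F Zp _ => f n k 1 F Zp) (g := fun n k F _ Zm => f n k (-1) F Zm)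
    ⟨C, s, fun n k F Zp Zm forb hσ h' => ?_⟩ ⟨C, s, fun n k F Zp Zm forb hσ h' => ?_⟩
  · exact h n k F Zp Zm forb hσ h' 1 Zp (Or.inl ⟨rfl, rfl⟩)
  · exact h n k F Zp Zm forb hσ h' (-1) Zm (Or.inr ⟨rfl, rfl⟩)

/-- the rates of all the functionals -/
structure RatesA (d : ℕ) : Prop where
  r1 : ROne d fun n k ε _ Z => f1 n d k ε Z
  rD : ROne d fun n k _ _ Z => fD n d k Z
  r3 : ROne d fun n k ε _ Z => f3 n d k ε Z
  r4 : ROne d fun n k _ _ Z => f4 n d k Z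
  rV : ROne d fun n k _ F Z => fV n d k F Z
  rS : ROne d fun n _ _ F Z => fS n F Z
  rW : RTwo d fun n k _ Zp Zm => fW n d k Zp Zm

theorem RatesA.total (h : RatesA d) :
    RTwo d fun n k F Zp Zm => fOne n d k 1 F Zp + fOne n d k (-1) F Zm + fW n d k Zp Zm :=
  ((((((h.r1.add h.rD).add h.r3).add h.r4).add h.rV).add h.rS).two).add h.rW

variable {n k : ℕ}

theorem EnvA.total_weight {F : Finset (Fin (n * d))} {Zp Zm : Matrix (Fin (n * d)) (Fin (n * d)) ℝ}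
    {forb : Fin (n * d) → Fin (n * d) → Prop} (h : EnvA n d k F Zp Zm forb) (hσ : 2000 ≤ sR n)
    (hσd : 2 * ((d : ℝ) + 25) ^ 2 ≤ sR n) :
    Nk n d k ^ 2 / 4 ≤ ∑ p ∈ adm F forb Zp Zm, (1 - hA n d k F forb Zp Zm p.1 p.2) := by
  have hs1 := sR_one hσ
  have hN := Nk_pos (by omega) h.k_lt
  have h1 := sum_weight_ge (F := F) (A := adm F forb Zp Zm) (h := hA n d k F forb Zp Zm)
    (adm_subset _ _ _ _) (fun p _ => abs_hA_le h p.1 p.2) (card_compl_le h (by omega))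
  refine le_trans ?_ h1
  rw [h.card, eP_sq hN]
  have h2 : 2 * ((d : ℝ) + 25) ^ 2 ≤ Nk n d k := by
    refine hσd.trans (le_trans ?_ (Nk_gt h.k_lt).le)
    calc (sR n : ℝ) = (sR n : ℝ) ^ 1 := (pow_one _).symm
      _ ≤ _ := pow_le_pow_right₀ hs1 (by norm_num)
  nlinarith

theorem ent_A (hd : 3 ≤ d) (hσ : 2000 ≤ sR n) (hσd : 64 * (d : ℝ) ^ 4 ≤ sR n) (hk : k < k2 n d)
    {σ : RSt (Fin (n * d))} (hr : Reach (vertF n d) (start (vertF n d) d) k σ)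
    (hP : PhiA n d k σ ≤ 1) (i j : Fin (n * d)) :
    |σ.Zp i j| ≤ (n * d : ℕ) ∧ |σ.Zm i j| ≤ (n * d : ℕ) := by
  have hn := n_pos_of_sR (n := n) (by omega)
  have : Nonempty (Fin n) := ⟨⟨0, hn⟩⟩
  have hf := fib_vertF hn (show 0 < d by omega)
  have e := envA_of hd hσ hσd hf.fib hf.cardV hr hk hP
  have hs1 := sR_one hσ
  have hN := Nk_pos (by omega) hk
  have hb : bP n d k ^ 4 ≤ ((n * d : ℕ) : ℝ) ^ 4 := by
    rw [bP_four hN (by omega)]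
    have a1 : (sR n : ℝ) ^ 1000 ≤ ((n * d : ℕ) : ℝ) := by
      refine n_ge.trans ?_
      have : n ≤ n * d := Nat.le_mul_of_pos_right n (by omega)
      exact_mod_cast this
    have a2 : (1 : ℝ) ≤ (sR n : ℝ) ^ 699 := one_le_pow₀ hs1
    have a3 := (Nk_gt hk).le
    have a4 : (sR n : ℝ) ^ 2003 / Nk n d k ≤ (sR n : ℝ) ^ 2003 / (sR n : ℝ) ^ 699 := by gcongr
    have a5 : (sR n : ℝ) ^ 2003 / (sR n : ℝ) ^ 699 = (sR n : ℝ) ^ 1304 := by
      rw [div_eq_iff (by positivity), ← pow_add]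
    have a6 : (sR n : ℝ) ^ 1304 ≤ ((sR n : ℝ) ^ 1000) ^ 4 := by
      rw [← pow_mul]; exact pow_le_pow_right₀ hs1 (by norm_num)
    have a7 : ((sR n : ℝ) ^ 1000) ^ 4 ≤ ((n * d : ℕ) : ℝ) ^ 4 :=
      pow_le_pow_left₀ (by positivity) a1 4
    linarith
  exact ent_of_T4 hr (e.p.T4.trans hb) (e.m.T4.trans hb) i j

/-- the weights of the phases I and II -/
noncomputable def omA (n d k : ℕ) (σ : RSt (Fin (n * d))) (p : Fin (n * d) × Fin (n * d)) : ℝ :=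
  1 - hA n d k σ.F (forbS (vertF n d) σ) σ.Zp σ.Zm p.1 p.2

theorem two_k2_le (hσ : 1 ≤ sR n) : 2 * k2 n d ≤ n * d := by
  unfold k2
  have : 1 ≤ sR n ^ 699 := Nat.one_le_pow _ _ hσ
  omega

/-- **Phases I and II.** -/
theorem phaseA (hd : 3 ≤ d) (R : RatesA d) : ∃ C : ℝ, ∃ s₀ : ℕ, ∀ n, s₀ ≤ sR n →
    Phase n d 0 (k2 n d) (PhiA n d) (1 / 4)
      (fun k => C / ((sR n : ℝ) * (((n * d : ℕ) : ℝ) - 2 * k))) ∧
    PhiA n d 0 (start (vertF n d) d) ≤ 1 / 4 := by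
  obtain ⟨C, s₁, hC⟩ := R.total
  obtain ⟨s₂, h2⟩ := phase_of_steps d (C := |C|) (abs_nonneg C)
  obtain ⟨s₃, h3⟩ := exists_nat_ge (64 * (d : ℝ) ^ 4 + 2 * ((d : ℝ) + 25) ^ 2 + 4 * cInit d)
  refine ⟨4 * |C|, max (max s₁ s₂) (max s₃ 2000), fun n hn => ?_⟩
  simp only [max_le_iff] at hn
  obtain ⟨⟨n1, n2⟩, n3, n4⟩ := hn
  have hs0 := sR_pos n4
  have h3' : 64 * (d : ℝ) ^ 4 + 2 * ((d : ℝ) + 25) ^ 2 + 4 * cInit d ≤ sR n :=
    h3.trans (by exact_mod_cast n3)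
  have hcI : 0 ≤ cInit d := by unfold cInit; positivity
  have g1 : 64 * (d : ℝ) ^ 4 ≤ sR n := by
    have : 0 ≤ 2 * ((d : ℝ) + 25) ^ 2 := by positivity
    linarith
  have g2 : 2 * ((d : ℝ) + 25) ^ 2 ≤ sR n := by
    have : 0 ≤ 64 * (d : ℝ) ^ 4 := by positivity
    linarith
  have hnp := n_pos_of_sR (n := n) (by omega)
  have : Nonempty (Fin n) := ⟨⟨0, hnp⟩⟩
  have hf := fib_vertF hnp (show 0 < d by omega)
  refine ⟨h2 n n2 0 (k2 n d) (PhiA n d) (omA n d) (two_k2_le (by omega)) ?_ ?_, ?_⟩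
  · intro k _ hk σ hr hP
    have e := envA_of hd n4 g1 hf.fib hf.cardV hr hk hP
    have hN := Nk_pos (by omega) hk
    refine ⟨fun p _ => weight_nonneg e p.1 p.2, e.total_weight n4 g2, ?_⟩
    refine (hC n k σ.F σ.Zp σ.Zm (forbS (vertF n d) σ) n1 e).trans ?_
    rw [← rT_eq (by omega) hN]
    exact mul_le_mul_of_nonneg_right (le_abs_self C) (rT_nonneg _ _ _)
  · intro k _ hk σ hr hP i j
    exact ent_A hd n4 g1 hk hr hP i j
  · refine (init_PhiA hf hd n4).trans ?_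
    rw [div_le_iff₀ hs0]
    have : 0 ≤ 64 * (d : ℝ) ^ 4 := by positivity
    have : 0 ≤ 2 * ((d : ℝ) + 25) ^ 2 := by positivity
    linarith

end Vale.Agent.P049.TS.Asm
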