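import Vale.Agent.P049.TS.Asm.StepU
import Vale.Agent.P049.TS.Asm.EnvB

/-!
The phase IIIb from its rate lemmas.
-/

set_option linter.unusedSectionVars false
set_option exponentiation.threshold 3000

namespace Vale.Agent.P049.TS.Asm

open Finset

/-- the hypotheses of the rate lemmas of the phase IIIb for `ι = Fin (n * d)` -/
def EB (d : ℕ) : EnvT d := fun n k F Zp Zm forb => EnvB n d k F Zp Zm forb

/-- the rates of all the functionals of the phase IIIb -/
structure RatesB (d : ℕ) : Prop where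
  r1 : RUni d (EB d) fun n k ε _ Z => g1B n d k ε Z
  r2 : RUni d (EB d) fun n k _ _ Z => g2B n d k Z
  rF : RUni d (EB d) fun n k _ _ Z => gFB n d k Z
  r4 : RUni d (EB d) fun n k _ _ Z => g4B n d k Z
  r5 : RUni d (EB d) fun n k _ F Z => g5B n d k F Z
  r6 : RUni d (EB d) fun n k _ F Z => g6B n d k F Z

variable {n d k : ℕ}

theorem RatesB.total (h : RatesB d) : RUni d (EB d) fun n k ε F Z => fOneB n d k ε F Z :=
  ((((h.r1.add h.r2).add h.rF).add h.r4).add h.r5).add h.r6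

theorem two_k4_le (hσ : 1 ≤ sR n) : 2 * k4 n d ≤ n * d := by
  unfold k4
  have : 1 ≤ sR n ^ 530 := Nat.one_le_pow _ _ hσ
  omega

/-- **Phase IIIb.** -/
theorem evPhaseB (hd : 3 ≤ d) (R : RatesB d) :
    Ev d fun n => ∃ r, Phase n d (k3 n d) (k4 n d) (fun k σ => PhiB n d k σ) (1 / 4) r := by
  refine phase_uniform R.total (fun n k σ => PhiB n d k σ) (fun _ _ _ => rfl) _ _
    ((Ev.of_sR 1).mono fun n _ h => two_k4_le h) ((Ev.of_sR 2000).mono fun n _ hσ => ?_) ?_
  · intro k h1 h2 σ hr hP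
    have hnp := n_pos_of_sR (n := n) (by omega)
    have : Nonempty (Fin n) := ⟨⟨0, hnp⟩⟩
    have hf := fib_vertF hnp (show 0 < d by omega)
    exact envB_of hd hσ hf.fib hf.cardV hr h1 h2 hP
  obtain ⟨s₃, h3⟩ := exists_nat_ge (2 * ((d : ℝ) + 25) ^ 2)
  refine (Ev.of_sR (max s₃ 2000)).mono fun n _ h2 => ?_
  rw [max_le_iff] at h2
  intro k F Zp Zm forb hk e
  have hs1 := sR_one h2.2
  have hN := Nk_gt4 e.k_lt
  have hN0 : 0 < Nk n d k := NkB_pos e.k_lt
  have hN1 : (sR n : ℝ) ≤ Nk n d k := by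
    refine le_trans ?_ hN.le
    exact le_self_pow₀ hs1 (by norm_num)
  refine ⟨e.card, (e.card_compl_le h2.2).trans ?_, fun i j => ?_⟩
  · rw [eB_sq hN0]
    have : 2 * ((d : ℝ) + 25) ^ 2 ≤ Nk n d k := by
      have : (s₃ : ℝ) ≤ sR n := by exact_mod_cast h2.1
      linarith
    nlinarith
  · have hb : bB n d k ^ 4 ≤ ((n * d : ℕ) : ℝ) ^ 4 := by
      rw [bB_four hN0 (by omega)]
      have a0 := Nk_le n d k
      have a1 : Nk n d k ^ 4 ≤ ((n : ℝ) * d) ^ 4 := pow_le_pow_left₀ hN0.le a0 4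
      have a2 : (16 : ℝ) ≤ (sR n : ℝ) ^ 1393 :=
        le_trans (by have := sR_ge h2.2; linarith) (le_self_pow₀ hs1 (by norm_num))
      push_cast
      rw [← mul_div_assoc, div_le_iff₀ (by positivity)]
      nlinarith [pow_nonneg (mul_nonneg (Nat.cast_nonneg (α := ℝ) n) (Nat.cast_nonneg d)) 4]
    exact ⟨abs_entry_le_of_trace_four e.p.symm (Nat.cast_nonneg _) (e.p.T4.trans hb) i j,
      abs_entry_le_of_trace_four e.m.symm (Nat.cast_nonneg _) (e.m.T4.trans hb) i j⟩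

end Vale.Agent.P049.TS.Asm
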