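import Vale.Agent.P049.TS.Asm.StepU
import Vale.Agent.P049.TS.Asm.ParC
import Vale.Agent.P049.TS.Asm.EnvC2

/-!
The phase IIIa from its rate lemmas.
-/

set_option linter.unusedSectionVars false
set_option exponentiation.threshold 3000

namespace Vale.Agent.P049.TS.Asm

open Finset

/-- the hypotheses of the rate lemmas of the phase IIIa for `ι = Fin (n * d)` -/
def EC (d : ℕ) : EnvT d := fun n k F Zp Zm forb => EnvC n d k F Zp Zm forb

/-- the rates of all the functionals of the phase IIIa -/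
structure RatesC (d : ℕ) : Prop where
  r1 : RUni d (EC d) fun n k ε _ Z => A1c n d k ε Z
  r2 : RUni d (EC d) fun n _ ε _ Z => A2c n d ε Z
  rF : RUni d (EC d) fun n k _ _ Z => AFc n d k Z
  r3 : RUni d (EC d) fun n _ ε _ Z => A3c n d ε Z
  r4 : RUni d (EC d) fun n k _ _ Z => A4c n d k Z
  r5 : RUni d (EC d) fun n k _ F Z => A5c n d k F Z
  r6 : RUni d (EC d) fun n _ _ F Z => A6c n F Z

variable {n d k : ℕ}

theorem RatesC.total (h : RatesC d) : RUni d (EC d) fun n k ε F Z => cOne n d k ε F Z :=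
  (((((h.r1.add h.r2).add h.rF).add h.r3).add h.r4).add h.r5).add h.r6

theorem two_k3_le (hσ : 1 ≤ sR n) : 2 * k3 n d ≤ n * d := by
  unfold k3
  have : 1 ≤ sR n ^ 680 := Nat.one_le_pow _ _ hσ
  omega

/-- **Phase IIIa.** `henv`: `Reach` and `PhiC ≤ 1` give `EnvC`; `hcompl`: the number of
non-admissible pairs. -/
theorem evPhaseC (hd : 3 ≤ d) (R : RatesC d)
    (henv : Ev d fun n => ∀ k, k2 n d ≤ k → k < k3 n d → ∀ σ : RSt (Fin (n * d)),
      Reach (vertF n d) (start (vertF n d) d) k σ → PhiC n d k σ ≤ 1 →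
      EnvC n d k σ.F σ.Zp σ.Zm (forbS (vertF n d) σ))
    (hcompl : Ev d fun n => ∀ (k : ℕ) (F : Finset (Fin (n * d)))
      (Zp Zm : Matrix (Fin (n * d)) (Fin (n * d)) ℝ) (forb : Fin (n * d) → Fin (n * d) → Prop),
      EnvC n d k F Zp Zm forb →
      ((((F ×ˢ F) \ adm F forb Zp Zm).card : ℕ) : ℝ) ≤ eC n d k ^ 2) :
    Ev d fun n => ∃ r, Phase n d (k2 n d) (k3 n d) (fun k σ => PhiC n d k σ) (1 / 4) r := by
  refine phase_uniform R.total (fun n k σ => PhiC n d k σ) (fun _ _ _ => rfl) _ _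
    ((Ev.of_sR 1).mono fun n _ h => two_k3_le h) henv ?_
  obtain ⟨s₃, h3⟩ := exists_nat_ge (2 * ((d : ℝ) + 25) ^ 2)
  refine (hcompl.and (Ev.of_sR (max s₃ 2000))).mono fun n _ hn => ?_
  obtain ⟨h1, h2⟩ := hn
  rw [max_le_iff] at h2
  intro k F Zp Zm forb hk e
  have hs1 := sR_one h2.2
  have hN := Nk_gt3 hk
  have hN0 : 0 < Nk n d k := lt_of_le_of_lt (by positivity) hN
  have hN1 : (sR n : ℝ) ≤ Nk n d k := by
    refine le_trans ?_ hN.le
    calc (sR n : ℝ) = (sR n : ℝ) ^ 1 := (pow_one _).symm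
      _ ≤ _ := pow_le_pow_right₀ hs1 (by norm_num)
  refine ⟨e.card, (h1 k F Zp Zm forb e).trans ?_, fun i j => ?_⟩
  · rw [eC_sq hN0]
    have : 2 * ((d : ℝ) + 25) ^ 2 ≤ Nk n d k := by
      have : (s₃ : ℝ) ≤ sR n := by exact_mod_cast h2.1
      linarith
    nlinarith
  · have hb : bC n d k ^ 4 ≤ ((n * d : ℕ) : ℝ) ^ 4 := by
      rw [bC_four hN0 (by omega)]
      have a1 : (sR n : ℝ) ^ 1000 ≤ ((n * d : ℕ) : ℝ) := by
        refine n_ge.trans ?_
        have : n ≤ n * d := Nat.le_mul_of_pos_right n (by omega)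
        exact_mod_cast this
      have a3 : (0 : ℝ) < (sR n : ℝ) ^ 680 := by positivity
      have a4 : (sR n : ℝ) ^ 2005 / Nk n d k ≤ (sR n : ℝ) ^ 2005 / (sR n : ℝ) ^ 680 := by gcongr
      have a5 : (sR n : ℝ) ^ 2005 / (sR n : ℝ) ^ 680 = (sR n : ℝ) ^ 1325 := by
        rw [div_eq_iff (by positivity), ← pow_add]
      have a6 : (sR n : ℝ) ^ 1325 ≤ ((sR n : ℝ) ^ 1000) ^ 4 := by
        rw [← pow_mul]; exact pow_le_pow_right₀ hs1 (by norm_num)
      have a7 : ((sR n : ℝ) ^ 1000) ^ 4 ≤ ((n * d : ℕ) : ℝ) ^ 4 :=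
        pow_le_pow_left₀ (by positivity) a1 4
      linarith
    exact ⟨abs_entry_le_of_trace_four e.p.symm (Nat.cast_nonneg _) (e.p.T4.trans hb) i j,
      abs_entry_le_of_trace_four e.m.symm (Nat.cast_nonneg _) (e.m.T4.trans hb) i j⟩

/-- **Phase IIIa**, final form: only the rate lemmas are needed. -/
theorem phaseC (hd : 3 ≤ d) (R : RatesC d) :
    Ev d fun n => ∃ r, Phase n d (k2 n d) (k3 n d) (fun k σ => PhiC n d k σ) (1 / 4) r := by
  refine evPhaseC hd R ((Ev.of_sR 2000).mono fun n _ hσ => ?_)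
    ((Ev.of_sR 2000).mono fun n _ hσ => fun _ _ _ _ _ e => card_complC_le hσ e)
  intro k h1 h2 σ hr hP
  have hnp := n_pos_of_sR (n := n) (by omega)
  have : Nonempty (Fin n) := ⟨⟨0, hnp⟩⟩
  have hf := fib_vertF hnp (show 0 < d by omega)
  exact envC_of hd hσ hf.fib hf.cardV hr h1 h2 hP

end Vale.Agent.P049.TS.Asm
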