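import Vale.Agent.P049.TS.Alg.Top
import Vale.Agent.P049.TS.Asm.HandB
import Vale.Agent.P049.TS.Asm.RateF2
import Vale.Agent.P049.TS.Asm.StepA
import Vale.Agent.P049.TS.Asm.StepB
import Vale.Agent.P049.TS.Asm.StepC

/-!
The final assembly: the theorem from the rate lemmas of the phases I+II, IIIa, IIIb.
-/

set_option linter.unusedSectionVars false
set_option exponentiation.threshold 3000

namespace Vale.Agent.P049.TS.Asm

open Finset

variable {n d : ℕ}

theorem k3_le_k4 (h : 1 ≤ sR n) : k3 n d ≤ k4 n d := by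
  unfold k3 k4
  have : sR n ^ 530 ≤ sR n ^ 680 := Nat.pow_le_pow_right h (by norm_num)
  omega

theorem k4_le_k5 (h : 2 ≤ sR n) : k4 n d ≤ k5 n d := by
  unfold k4 k5
  have : sR n ^ 341 < sR n ^ 530 := Nat.pow_lt_pow_right h (by norm_num)
  omega

/-- the hand-over from the phase IIIa to the phase IIIb (proved in `HandCE.lean`) -/
def HandC (d : ℕ) : Prop :=
  Ev d fun n => ∀ σ, Reach (vertF n d) (start (vertF n d) d) (k3 n d) σ →
    PhiC n d (k3 n d) σ ≤ 1 → PhiB n d (k3 n d) σ ≤ 1 / 4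

/-- **The final statement from the rate lemmas.** -/
theorem final_of_rates (hd : 3 ≤ d) (RA : RatesA d) (RC : RatesC d) (RB : RatesB d) :
    ∃ f : ℕ → List Bool,
      (∃ M : Turing.TM2ComputableInPolyTime (fun n : ℕ => List.replicate n true)
        (id : List Bool → List Bool) f, ∀ k, Finite (M.tm.Γ k)) ∧
      ∃ n₁ : ℕ, ∀ n : ℕ, n₁ ≤ n → Even (d * n) →
        ∃ (G : SimpleGraph (Fin n)) (_ : DecidableRel G.Adj),
          IsRamanujanUpTo d 0 G ∧
          f n = (List.ofFn fun i : Fin n => List.ofFn fun j : Fin n =>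
            decide (G.Adj i j)).flatten := by
  obtain ⟨P1, h0⟩ := evPhaseA hd RA
  obtain ⟨s₃, h3⟩ := exists_nat_ge (72 * (d : ℝ) ^ 4)
  refine final_phases hd ((Ev.of_sR 2).mono fun n _ h =>
      ⟨k2_le_k3 (by omega), k3_le_k4 (by omega), k4_le_k5 h⟩) P1 (phaseC hd RC) (evPhaseB hd RB)
      (phaseF hd) h0 ((Ev.of_sR (max s₃ 2000)).mono fun n _ hσ => ?_)
      ((Ev.of_sR (max s₃ 2000)).mono fun n _ hσ => ?_)
      ((Ev.of_sR (max s₃ 2000)).mono fun n _ hσ => ?_)
      ((Ev.of_sR (max s₃ 2000)).mono fun n _ hσ => ?_)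
  all_goals
    rw [max_le_iff] at hσ
    intro σ hr hP
    have hnp := n_pos_of_sR (n := n) (by omega)
    have : Nonempty (Fin n) := ⟨⟨0, hnp⟩⟩
    have hf := fib_vertF hnp (show 0 < d by omega)
  · exact handA hd hσ.2 hf.fib hf.cardV hr hP
  · have h4 : (s₃ : ℝ) ≤ sR n := by exact_mod_cast hσ.1
    exact handC hd hσ.2 (h3.trans h4) hf.fib hf.cardV hr hP
  · exact handB hd hσ.2 hf.fib hf.cardV hr hP
  · exact endF_of hd hσ.2 hf.fib hf.cardV hr hP

end Vale.Agent.P049.TS.Asm
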