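import Vale.Agent.P049.TS.Asm.EnvOf
import Vale.Agent.P049.TS.Asm.ParC
import Vale.Agent.P049.TS.Asm.Glue

/-!
The transition from the phase II to the phase IIIa: `PhiA ≤ 1` at `k2` gives `PhiC ≤ 1 / 4`.
-/

set_option linter.unusedSectionVars false
set_option exponentiation.threshold 3000

namespace Vale.Agent.P049.TS.Asm

open Matrix Finset

variable {n d k : ℕ}

/-- the first `k` with `N_k ≤ σ^j` -/
theorem Nk_bds {j k : ℕ} (hd : 3 ≤ d) (hσ : 2000 ≤ sR n) (hj : j ≤ 1000)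
    (hk : k = (n * d - sR n ^ j + 1) / 2) :
    (sR n : ℝ) ^ j - 1 ≤ Nk n d k ∧ Nk n d k ≤ (sR n : ℝ) ^ j := by
  have h0 : sR n ^ j ≤ sR n ^ 1000 := Nat.pow_le_pow_right (by omega) hj
  have h1 := sR_pow_le n
  have h2 : n ≤ n * d := Nat.le_mul_of_pos_right n (by omega)
  have h3 : sR n ^ j ≤ n * d := h0.trans (h1.trans h2)
  have h4 : 2 * k + sR n ^ j ≤ n * d + 1 := by omega
  have h5 : n * d ≤ 2 * k + sR n ^ j := by omega
  have h6 : ((2 * k + sR n ^ j : ℕ) : ℝ) ≤ ((n * d + 1 : ℕ) : ℝ) := by exact_mod_cast h4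
  have h7 : ((n * d : ℕ) : ℝ) ≤ ((2 * k + sR n ^ j : ℕ) : ℝ) := by exact_mod_cast h5
  push_cast at h6 h7
  unfold Nk
  constructor <;> linarith

variable {ι : Type*} [Fintype ι] [DecidableEq ι] {F : Finset ι} {Z Zp Zm : Matrix ι ι ℝ} {ε : ℝ}

theorem handA_one (hd : 3 ≤ d) (hσ : 2000 ≤ sR n) (hs : Sg F Z (√((d : ℝ) - 1))⁻¹ ε)
    (hcard : (F.card : ℝ) = Nk n d (k2 n d)) (h : fOne n d (k2 n d) ε F Z ≤ 1) :
    cOne n d (k2 n d) ε F Z ≤ 10 / sR n := by
  have hs1 := sR_one hσ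
  have hs0 := sR_pos hσ
  have hsg := sR_ge hσ
  have hN := Nk2_pos hσ hd
  have hk1 : ¬ k2 n d < k1 n d := not_lt.2 (k1_le_k2 (by omega))
  obtain ⟨hN1, hN2⟩ := Nk_bds (n := n) (d := d) (j := 699) hd hσ (by norm_num) rfl
  change _ ≤ Nk n d (k2 n d) at hN1
  change Nk n d (k2 n d) ≤ _ at hN2
  have supp : ∀ a, a ∉ F → ∀ b, Z a b = 0 := fun a ha b => hs.supp a b (Or.inl ha)
  have n1 := f1_nonneg n d (k2 n d) ε Z
  have nD := fD_nonneg n d (k2 n d) Z
  have n3 := f3_nonneg n d (k2 n d) ε Z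
  have n4 := f4_nonneg (n := n) (d := d) (k := k2 n d) hs.symm hN.le
  have nV := fV_nonneg n d (k2 n d) F Z
  have nS := fS_nonneg n F Z
  unfold fOne at h
  have h1 : f1 n d (k2 n d) ε Z ≤ 1 := by linarith
  have hD : fD n d (k2 n d) Z ≤ 1 := by linarith
  have h3 : f3 n d (k2 n d) ε Z ≤ 1 := by linarith
  have h4 : f4 n d (k2 n d) Z ≤ 1 := by linarith
  have hV : fV n d (k2 n d) F Z ≤ 1 := by linarith
  have hS : fS n F Z ≤ 1 := by linarith
  clear h n1 nD n3 n4 nV nS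
  have d1 : |ε * Z.trace - t1 n d (k2 n d)| ≤ (sR n : ℝ) ^ 377 := by
    refine sq_le_of_div_le (by positivity) ?_
    rw [← pow_mul]
    exact h1
  have dD : |(Z ^ 2).trace - Nk n d (k2 n d) - tD n d (k2 n d)| ≤ (sR n : ℝ) ^ 683 := by
    refine sq_le_of_div_le (by positivity) ?_
    rw [← pow_mul]
    exact hD
  have d3 : |ε * (Z ^ 3).trace - kap n d| ≤ (sR n : ℝ) ^ 993 := by
    unfold f3 at h3
    rw [if_neg hk1] at h3
    refine sq_le_of_div_le (by positivity) ?_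
    rw [← pow_mul]
    exact h3
  unfold f4 at h4
  rw [div_le_one (by positivity)] at h4
  unfold fV at hV
  rw [if_neg hk1, div_le_one (by positivity)] at hV
  unfold fS at hS
  rw [div_le_one (by positivity)] at hS
  clear h1 hD h3
  rw [t1_of_ge (not_lt.1 hk1)] at d1
  have k1 := K1_ge hσ hd
  have k2' := K1_le hσ hd
  have kp := kap_le' hσ hd
  have tD2 := tD_k2_le hσ hd
  have hd' : (9 : ℝ) ≤ (d : ℝ) ^ 2 := by
    have : (3 : ℝ) ≤ d := by exact_mod_cast hd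
    nlinarith
  -- powers of `σ`
  have p1 : 4 * (sR n : ℝ) ^ 377 ≤ (sR n : ℝ) ^ 384 :=
    const_mul_pow_le hs1 (by linarith) (by norm_num)
  have p2 : 4 * (sR n : ℝ) ^ 683 ≤ (sR n : ℝ) ^ 685 :=
    const_mul_pow_le hs1 (by linarith) (by norm_num)
  have p3 : 4 * (sR n : ℝ) ^ 993 ≤ (sR n : ℝ) ^ 1000 :=
    const_mul_pow_le hs1 (by linarith) (by norm_num)
  have p4 : 4 * (sR n : ℝ) ^ 685 ≤ (sR n : ℝ) ^ 699 :=
    const_mul_pow_le hs1 (by linarith) (by norm_num)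
  have p5 : 4 * (sR n : ℝ) ^ 690 ≤ (sR n : ℝ) ^ 699 :=
    const_mul_pow_le hs1 (by linarith) (by norm_num)
  have q1 : (1 : ℝ) ≤ (sR n : ℝ) ^ 685 := one_le_pow₀ hs1
  have q2 : (1 : ℝ) ≤ (sR n : ℝ) ^ 384 := one_le_pow₀ hs1
  have q3 : (1 : ℝ) ≤ (sR n : ℝ) ^ 1000 := one_le_pow₀ hs1
  have q4 : (0 : ℝ) ≤ (sR n : ℝ) ^ 377 := by positivity
  have q5 : (0 : ℝ) ≤ (sR n : ℝ) ^ 683 := by positivity
  have hT2 : (Z ^ 2).trace ≤ Nk n d (k2 n d) - (sR n : ℝ) ^ 685 := by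
    have := (abs_le.1 dD).2
    linarith
  -- `T₁`
  have a1 : A1c n d (k2 n d) ε Z = 0 := by
    unfold A1c
    have h5 : rhoC n d (k2 n d) ≤ (sR n : ℝ) ^ 384 / 8 := by
      unfold rhoC
      rw [div_le_div_iff₀ (by positivity) (by norm_num)]
      have e : (sR n : ℝ) ^ 384 * (8 * (sR n : ℝ) ^ 315) = 8 * (sR n : ℝ) ^ 699 := by
        rw [mul_left_comm, ← pow_add]
      rw [e]; linarith
    have h6 : ε * Z.trace + 2 * rhoC n d (k2 n d) ≤ 0 := by
      have := (abs_le.1 d1).2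
      linarith
    rw [max_eq_right h6]; simp
  have a2 : A2c n d ε Z = 0 := by
    unfold A2c
    have h6 : -(ε * Z.trace) - 5 * (d : ℝ) ^ 2 * (sR n : ℝ) ^ 384 ≤ 0 := by
      have h7 := (abs_le.1 d1).1
      have h8 : (sR n : ℝ) ^ 384 ≤ (d : ℝ) ^ 2 * (sR n : ℝ) ^ 384 := by
        have : (0 : ℝ) ≤ (sR n : ℝ) ^ 384 := by positivity
        nlinarith
      linarith
    rw [max_eq_right h6]; simp
  have aF : AFc n d (k2 n d) Z = 0 := by
    unfold AFc
    have h5 : Nk n d (k2 n d) - (sR n : ℝ) ^ 685 ≤ tgC n d (k2 n d) := by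
      unfold tgC CC
      rw [le_div_iff₀ (by positivity)]
      have : 0 ≤ ((sR n : ℝ) ^ 685) ^ 2 := sq_nonneg _
      linarith
    have h6 : (Z ^ 2).trace - 1 - tgC n d (k2 n d) ≤ 0 := by linarith
    rw [max_eq_right h6]; simp
  have a3 : A3c n d ε Z = 0 := by
    unfold A3c
    have h6 : ε * (Z ^ 3).trace - 3 * (d : ℝ) ^ 2 * (sR n : ℝ) ^ 1000 ≤ 0 := by
      have h7 := (abs_le.1 d3).2
      have h8 : (sR n : ℝ) ^ 1000 ≤ (d : ℝ) ^ 2 * (sR n : ℝ) ^ 1000 := by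
        have : (0 : ℝ) ≤ (sR n : ℝ) ^ 1000 := by positivity
        nlinarith
      linarith
    rw [max_eq_right h6]; simp
  have a4 : A4c n d (k2 n d) Z ≤ 1 / sR n := by
    unfold A4c
    rw [div_le_div_iff₀ (by positivity) hs0]
    have e : (1 : ℝ) * (sR n : ℝ) ^ 2004 = (sR n : ℝ) ^ 2003 * sR n := by
      rw [one_mul, ← pow_succ]
    rw [e]
    exact mul_le_mul_of_nonneg_right h4 hs0.le
  have a5 : A5c n d (k2 n d) F Z ≤ 8 / sR n := by
    unfold A5c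
    have h5 : gV2 F Z ≤ 2 * (sR n : ℝ) ^ 699 := by
      have := sum_w_sq_eq supp
      unfold gV2
      rw [this, hcard]
      linarith
    have h6 : (sR n : ℝ) ^ 700 / 4 ≤ thC n d (k2 n d) := by
      unfold thC
      rw [div_le_div_iff₀ (by norm_num) (by unfold CC; positivity)]
      have h7 : CC n ≤ Nk n d (k2 n d) := by unfold CC; linarith
      have h8 : 0 ≤ CC n := by unfold CC; positivity
      have h9 : (Nk n d (k2 n d) + CC n) ^ 2 ≤ Nk n d (k2 n d) ^ 2 * 4 := by nlinarith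
      have h10 : (0 : ℝ) ≤ (sR n : ℝ) ^ 700 := by positivity
      calc (sR n : ℝ) ^ 700 * (Nk n d (k2 n d) + CC n) ^ 2
          ≤ (sR n : ℝ) ^ 700 * (Nk n d (k2 n d) ^ 2 * 4) := mul_le_mul_of_nonneg_left h9 h10
        _ = _ := by ring
    have h11 : (0 : ℝ) < (sR n : ℝ) ^ 700 := by positivity
    have h12 : 0 < thC n d (k2 n d) := by linarith
    rw [div_le_div_iff₀ h12 hs0]
    have e : (sR n : ℝ) ^ 700 = (sR n : ℝ) ^ 699 * sR n := by rw [← pow_succ]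
    calc gV2 F Z * sR n ≤ 2 * (sR n : ℝ) ^ 699 * sR n := mul_le_mul_of_nonneg_right h5 hs0.le
      _ = 8 * ((sR n : ℝ) ^ 700 / 4) := by rw [e]; ring
      _ ≤ 8 * thC n d (k2 n d) := by linarith
  have a6 : A6c n F Z ≤ 1 / sR n := by
    unfold A6c
    rw [div_le_div_iff₀ (by positivity) hs0]
    have h5 : (sR n : ℝ) ^ 80 * sR n ≤ (sR n : ℝ) ^ 104 := by
      rw [← pow_succ]
      exact pow_le_pow_right₀ hs1 (by norm_num)
    have := mul_le_mul_of_nonneg_right hS hs0.le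
    linarith
  unfold cOne
  rw [a1, a2, aF, a3]
  have e : (10 : ℝ) / sR n = 1 / sR n + 8 / sR n + 1 / sR n := by ring
  rw [e]
  linarith

/-- **The transition from the phase II to the phase IIIa.** -/
theorem handA {V : Type*} [Fintype V] [DecidableEq V] [Nonempty V] {vert : ι → V} {s : RSt ι}
    (hd : 3 ≤ d) (hσ : 2000 ≤ sR n)
    (hfib : ∀ v, (Finset.univ.filter fun i => vert i = v).card = d)
    (hV : Fintype.card V = n) (h : Reach vert (start vert d) (k2 n d) s)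
    (hP : PhiA n d (k2 n d) s ≤ 1) : PhiC n d (k2 n d) s ≤ 1 / 4 := by
  have hcard := card_eq_Nk hfib hV h
  have hN := Nk2_pos hσ hd
  have hc : 0 < s.F.card := by
    rw [← hcard] at hN
    exact_mod_cast hN
  obtain ⟨sp, sm⟩ := h.sg hd hfib hc
  have hk1 : ¬ k2 n d < k1 n d := not_lt.2 (k1_le_k2 (by omega))
  have np : 0 ≤ fOne n d (k2 n d) 1 s.F s.Zp := by
    unfold fOne
    have := f1_nonneg n d (k2 n d) 1 s.Zp
    have := fD_nonneg n d (k2 n d) s.Zp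
    have := f3_nonneg n d (k2 n d) 1 s.Zp
    have := f4_nonneg (n := n) (d := d) (k := k2 n d) sp.symm hN.le
    have := fV_nonneg n d (k2 n d) s.F s.Zp
    have := fS_nonneg n s.F s.Zp
    linarith
  have nm : 0 ≤ fOne n d (k2 n d) (-1) s.F s.Zm := by
    unfold fOne
    have := f1_nonneg n d (k2 n d) (-1) s.Zm
    have := fD_nonneg n d (k2 n d) s.Zm
    have := f3_nonneg n d (k2 n d) (-1) s.Zm
    have := f4_nonneg (n := n) (d := d) (k := k2 n d) sm.symm hN.le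
    have := fV_nonneg n d (k2 n d) s.F s.Zm
    have := fS_nonneg n s.F s.Zm
    linarith
  have nW : fW n d (k2 n d) s.Zp s.Zm = 0 := by unfold fW; rw [if_neg hk1]
  unfold PhiA at hP
  have e1 := handA_one hd hσ sp hcard (by linarith)
  have e2 := handA_one hd hσ sm hcard (by linarith)
  have hs0 := sR_pos hσ
  have hsg := sR_ge hσ
  have e3 : (10 : ℝ) / sR n ≤ 1 / 8 := by
    rw [div_le_div_iff₀ hs0 (by norm_num)]
    linarith
  unfold PhiC
  linarith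

end Vale.Agent.P049.TS.Asm
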