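import Vale.Agent.P049.TS.Asm.HandA
import Vale.Agent.P049.TS.Asm.ParB
import Vale.Agent.P049.TS.Asm.EnvC2

/-!
The transition from the phase IIIa to the phase IIIb: `PhiC ≤ 1` at `k3` gives `PhiB ≤ 1 / 4`.
-/

set_option linter.unusedSectionVars false
set_option exponentiation.threshold 3000

namespace Vale.Agent.P049.TS.Asm

open Matrix Finset

variable {n d k : ℕ}

variable {ι : Type*} [Fintype ι] [DecidableEq ι] {F : Finset ι} {Z Zp Zm : Matrix ι ι ℝ} {ε : ℝ}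

theorem trace_four_nonneg' (hZ : Z.IsSymm) : 0 ≤ (Z ^ 4).trace := by
  rw [Mat.trace_four_eq_frob hZ]; exact Mat.frob_nonneg _

theorem handC_one (hd : 3 ≤ d) (hσ : 2000 ≤ sR n) (hσd : 72 * (d : ℝ) ^ 4 ≤ sR n)
    (hε : ε = 1 ∨ ε = -1) (hs : Sg F Z (√((d : ℝ) - 1))⁻¹ ε)
    (hN : 0 < Nk n d k) (hN1 : (sR n : ℝ) ^ 680 - 1 ≤ Nk n d k)
    (h : cOne n d k ε F Z ≤ 1) :
    fOneB n d k ε F Z ≤ 20 / sR n := by
  have hs1 := sR_one hσ
  have hs0 := sR_pos hσ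
  have hsg := sR_ge hσ
  have h4 := trace_four_nonneg' hs.symm
  have h5 := gV2_nonneg' F Z
  have h6 := Sd_nonneg F Z
  have a1 : 0 ≤ A1c n d k ε Z := by unfold A1c; positivity
  have a2 : 0 ≤ A2c n d ε Z := by unfold A2c; positivity
  have aF : 0 ≤ AFc n d k Z := by unfold AFc; positivity
  have a3 : 0 ≤ A3c n d ε Z := by unfold A3c; positivity
  have a4 : 0 ≤ A4c n d k Z := by unfold A4c; positivity
  have a5 : 0 ≤ A5c n d k F Z := div_nonneg h5 (thC_pos hσ hN).le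
  have a6 : 0 ≤ A6c n F Z := by unfold A6c; positivity
  unfold cOne at h
  have c1 : A1c n d k ε Z ≤ 1 := by linarith
  have c2 : A2c n d ε Z ≤ 1 := by linarith
  have cF : AFc n d k Z ≤ 1 := by linarith
  have c4 : A4c n d k Z ≤ 1 := by linarith
  have c5 : A5c n d k F Z ≤ 1 := by linarith
  have c6 : A6c n F Z ≤ 1 := by linarith
  clear h a1 a2 aF a3 a4 a5 a6
  -- `N ≥ σ^680 / (1 + 1/10)`
  have hN3 : (sR n : ℝ) ^ 680 ≤ 11 / 10 * Nk n d k := by
    have := const_mul_pow_le (c := 100) hs1 (by linarith) (show 0 < 680 by norm_num)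
    simp only [pow_zero, mul_one] at this
    linarith
  have hρ : 0 < rhoC n d k := rhoC_pos hσ hN
  have hCC : 0 < CC n := CC_pos hσ
  have hgC : 0 < gC n d k := gC_pos hσ hN
  have hthC : 0 < thC n d k := thC_pos hσ hN
  have t1 : ε * Z.trace ≤ -rhoC n d k := by
    have := le_of_max_sq_div hρ c1
    linarith
  have t2 : -(ε * Z.trace) ≤ (5 * (d : ℝ) ^ 2 + 1) * (sR n : ℝ) ^ 384 := by
    have h7 : (max (-(ε * Z.trace) - 5 * (d : ℝ) ^ 2 * (sR n : ℝ) ^ 384) 0) ^ 2 /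
        ((sR n : ℝ) ^ 384) ^ 2 ≤ 1 := by
      rw [← pow_mul]; exact c2
    have := le_of_max_sq_div (by positivity) h7
    linarith
  have t3 : (Z ^ 2).trace - 1 ≤ tgC n d k + gC n d k := by
    have := le_of_max_sq_div hgC cF
    linarith
  -- the six terms
  have b1 : g1B n d k ε Z = 0 := by
    unfold g1B
    have h7 : ε * Z.trace / rhoB n d k + 2 ≤ 0 := by
      have h8 : 0 < rhoB n d k := by unfold rhoB; positivity
      have h9 : rhoC n d k = 4 * rhoB n d k := by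
        unfold rhoC rhoB
        field_simp
        norm_num
      have h10 : ε * Z.trace / rhoB n d k ≤ -2 := by
        rw [div_le_iff₀ h8]
        rw [h9] at t1
        linarith
      linarith
    rw [max_eq_right h7]; simp
  have b2 : g2B n d k Z ≤ 1 / sR n := by
    unfold g2B
    have h7 : Z.trace ^ 2 ≤ ((5 * (d : ℝ) ^ 2 + 1) * (sR n : ℝ) ^ 384) ^ 2 := by
      have h8 : (ε * Z.trace) ^ 2 = Z.trace ^ 2 := by
        rcases hε with rfl | rfl <;> ring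
      rw [← h8]
      have h9 : 0 ≤ -(ε * Z.trace) := by linarith
      nlinarith
    have hd' : (3 : ℝ) ≤ d := by exact_mod_cast hd
    have h10 : (5 * (d : ℝ) ^ 2 + 1) ^ 2 ≤ 36 * (d : ℝ) ^ 4 := by
      have : 5 * (d : ℝ) ^ 2 + 1 ≤ 6 * (d : ℝ) ^ 2 := by nlinarith
      calc (5 * (d : ℝ) ^ 2 + 1) ^ 2 ≤ (6 * (d : ℝ) ^ 2) ^ 2 := by gcongr
        _ = _ := by ring
    rw [div_le_div_iff₀ (by positivity) hs0]
    have h11 : ((sR n : ℝ) ^ 680) ^ 2 ≤ (11 / 10 * Nk n d k) ^ 2 := by gcongr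
    calc Z.trace ^ 2 * (sR n : ℝ) ^ 590 * sR n
        ≤ ((5 * (d : ℝ) ^ 2 + 1) * (sR n : ℝ) ^ 384) ^ 2 * (sR n : ℝ) ^ 590 * sR n := by gcongr
      _ = (5 * (d : ℝ) ^ 2 + 1) ^ 2 * (sR n : ℝ) ^ 1359 := by
          rw [mul_pow, ← pow_mul, mul_assoc, mul_assoc, ← pow_succ, ← pow_add]
      _ ≤ 36 * (d : ℝ) ^ 4 * (sR n : ℝ) ^ 1359 := by gcongr
      _ ≤ (sR n : ℝ) / 2 * (sR n : ℝ) ^ 1359 := by gcongr; linarith
      _ = ((sR n : ℝ) ^ 680) ^ 2 / 2 := by
          rw [← pow_mul]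
          have : (sR n : ℝ) ^ (680 * 2) = (sR n : ℝ) ^ 1359 * sR n := by
            rw [← pow_succ]
          rw [this]; ring
      _ ≤ 1 * Nk n d k ^ 2 := by nlinarith
  have bF : gFB n d k Z ≤ 2 / sR n := by
    unfold gFB
    have h7 : tgC n d k ≤ Nk n d k ^ 2 / (sR n : ℝ) ^ 685 := by
      unfold tgC CC
      gcongr
      linarith
    have h8 : gC n d k ≤ Nk n d k ^ 2 / (sR n : ℝ) ^ 685 := by
      unfold gC CC
      rw [div_le_div_iff₀ (by positivity) (by positivity)]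
      have h9 : ((sR n : ℝ) ^ 685) ^ 2 ≤ (Nk n d k + (sR n : ℝ) ^ 685) ^ 2 := by
        gcongr; linarith
      have h10 : (1 : ℝ) ≤ (sR n : ℝ) ^ 5 := one_le_pow₀ hs1
      have h11 : ((sR n : ℝ) ^ 685) ^ 2 ≤
          (sR n : ℝ) ^ 5 * (Nk n d k + (sR n : ℝ) ^ 685) ^ 2 := by
        calc ((sR n : ℝ) ^ 685) ^ 2 = 1 * ((sR n : ℝ) ^ 685) ^ 2 := (one_mul _).symm
          _ ≤ _ := mul_le_mul h10 h9 (by positivity) (by positivity)
      calc Nk n d k ^ 2 * (sR n : ℝ) ^ 685 * (sR n : ℝ) ^ 685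
          = Nk n d k ^ 2 * ((sR n : ℝ) ^ 685) ^ 2 := by ring
        _ ≤ _ := by gcongr
    rw [div_le_div_iff₀ (by positivity) hs0]
    have h12 : (Z ^ 2).trace - 1 ≤ 2 * Nk n d k ^ 2 / (sR n : ℝ) ^ 685 := by
      have : 2 * Nk n d k ^ 2 / (sR n : ℝ) ^ 685 =
        Nk n d k ^ 2 / (sR n : ℝ) ^ 685 + Nk n d k ^ 2 / (sR n : ℝ) ^ 685 := by ring
      linarith
    calc ((Z ^ 2).trace - 1) * (sR n : ℝ) ^ 684 * sR n
        = ((Z ^ 2).trace - 1) * (sR n : ℝ) ^ 685 := by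
          rw [mul_assoc, ← pow_succ]
      _ ≤ 2 * Nk n d k ^ 2 / (sR n : ℝ) ^ 685 * (sR n : ℝ) ^ 685 := by gcongr
      _ = 2 * Nk n d k ^ 2 := by field_simp
  have b4 : g4B n d k Z ≤ 2 / sR n := by
    unfold g4B
    unfold A4c at c4
    rw [div_le_one (by positivity)] at c4
    rw [div_le_div_iff₀ (by positivity) hs0]
    have h7 : (Z ^ 4).trace * (sR n : ℝ) ^ 1393 * sR n * Nk n d k ≤
        2 * Nk n d k ^ 4 * Nk n d k := by
      have h8 : ((sR n : ℝ) ^ 680) ^ 5 ≤ (11 / 10 * Nk n d k) ^ 5 := by gcongr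
      calc (Z ^ 4).trace * (sR n : ℝ) ^ 1393 * sR n * Nk n d k
          = ((Z ^ 4).trace * Nk n d k) * ((sR n : ℝ) ^ 1393 * sR n) := by ring
        _ ≤ (sR n : ℝ) ^ 2004 * ((sR n : ℝ) ^ 1393 * sR n) := by gcongr
        _ = (sR n : ℝ) ^ 3398 := by rw [← pow_succ, ← pow_add]
        _ ≤ (sR n : ℝ) ^ 3400 := pow_le_pow_right₀ hs1 (by norm_num)
        _ = ((sR n : ℝ) ^ 680) ^ 5 := by rw [← pow_mul]
        _ ≤ (11 / 10 * Nk n d k) ^ 5 := h8
        _ = (11 / 10) ^ 5 * (Nk n d k ^ 4 * Nk n d k) := by ring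
        _ ≤ 2 * (Nk n d k ^ 4 * Nk n d k) := by
            gcongr; norm_num
        _ = _ := by ring
    exact le_of_mul_le_mul_right h7 hN
  have b5 : g5B n d k F Z ≤ 1 / sR n := by
    unfold g5B
    unfold A5c at c5
    rw [div_le_one hthC] at c5
    have h7 : thC n d k ≤ Nk n d k ^ 2 / (sR n : ℝ) ^ 670 := by
      unfold thC CC
      rw [div_le_div_iff₀ (by positivity) (by positivity)]
      have h9 : ((sR n : ℝ) ^ 685) ^ 2 ≤ (Nk n d k + (sR n : ℝ) ^ 685) ^ 2 := by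
        gcongr; linarith
      calc (sR n : ℝ) ^ 700 * Nk n d k ^ 2 * (sR n : ℝ) ^ 670
          = Nk n d k ^ 2 * ((sR n : ℝ) ^ 700 * (sR n : ℝ) ^ 670) := by ring
        _ = Nk n d k ^ 2 * ((sR n : ℝ) ^ 685) ^ 2 := by rw [← pow_add, ← pow_mul]
        _ ≤ _ := by gcongr
    rw [div_le_div_iff₀ (by positivity) hs0]
    calc gV2 F Z * (sR n : ℝ) ^ 669 * sR n = gV2 F Z * (sR n : ℝ) ^ 670 := by
          rw [mul_assoc, ← pow_succ]
      _ ≤ Nk n d k ^ 2 / (sR n : ℝ) ^ 670 * (sR n : ℝ) ^ 670 := by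
          gcongr
          exact c5.trans h7
      _ = 1 * Nk n d k ^ 2 := by field_simp
  have b6 : g6B n d k F Z ≤ 2 / sR n := by
    unfold g6B
    unfold A6c at c6
    rw [div_le_one (by positivity)] at c6
    rw [div_le_div_iff₀ (by positivity) hs0]
    calc Sd F Z * (sR n : ℝ) ^ 574 * sR n ≤ (sR n : ℝ) ^ 104 * (sR n : ℝ) ^ 574 * sR n := by
          gcongr
      _ = (sR n : ℝ) ^ 679 := by rw [← pow_add, ← pow_succ]
      _ ≤ (sR n : ℝ) ^ 680 := pow_le_pow_right₀ hs1 (by norm_num)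
      _ ≤ 2 * Nk n d k := by linarith
  unfold fOneB
  rw [b1]
  have e : (20 : ℝ) / sR n = 1 / sR n + 2 / sR n + 2 / sR n + 1 / sR n + 2 / sR n + 12 / sR n := by
    ring
  have e2 : 0 < 12 / (sR n : ℝ) := by positivity
  rw [e]
  linarith

/-- **The transition from the phase IIIa to the phase IIIb.** -/
theorem handC {V : Type*} [Fintype V] [DecidableEq V] [Nonempty V] {vert : ι → V} {s : RSt ι}
    (hd : 3 ≤ d) (hσ : 2000 ≤ sR n) (hσd : 72 * (d : ℝ) ^ 4 ≤ sR n)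
    (hfib : ∀ v, (Finset.univ.filter fun i => vert i = v).card = d)
    (hV : Fintype.card V = n) (h : Reach vert (start vert d) (k3 n d) s)
    (hP : PhiC n d (k3 n d) s ≤ 1) : PhiB n d (k3 n d) s ≤ 1 / 4 := by
  have hcard := card_eq_Nk hfib hV h
  have hs1 := sR_one hσ
  have hs0 := sR_pos hσ
  have hsg := sR_ge hσ
  obtain ⟨hN1, -⟩ := Nk_bds (n := n) (d := d) (j := 680) hd hσ (by norm_num) rfl
  change _ ≤ Nk n d (k3 n d) at hN1
  have hN : 0 < Nk n d (k3 n d) := by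
    have := const_mul_pow_le (c := 2) hs1 (by linarith) (show 0 < 680 by norm_num)
    simp only [pow_zero, mul_one] at this
    linarith
  have hc : 0 < s.F.card := by
    rw [← hcard] at hN
    exact_mod_cast hN
  obtain ⟨sp, sm⟩ := h.sg hd hfib hc
  have np := cOne_nonneg (ε := 1) (F := s.F) hσ hN sp.symm
  have nm := cOne_nonneg (ε := -1) (F := s.F) hσ hN sm.symm
  unfold PhiC at hP
  have e1 := handC_one hd hσ hσd (Or.inl rfl) sp hN hN1 (by linarith)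
  have e2 := handC_one hd hσ hσd (Or.inr rfl) sm hN hN1 (by linarith)
  have e3 : (20 : ℝ) / sR n ≤ 1 / 8 := by
    rw [div_le_div_iff₀ hs0 (by norm_num)]
    linarith
  unfold PhiB
  linarith

end Vale.Agent.P049.TS.Asm
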