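import Vale.Agent.P049.TS.Asm.Final

/-!
The hand-over from the phase IIIa to the phase IIIb in the form used by `final_of_rates`.
-/

namespace Vale.Agent.P049.TS.Asm

variable {d : ℕ}

theorem handC_ev (hd : 3 ≤ d) : HandC d := by
  refine (Ev.of_sR (2000 + 72 * d ^ 4)).mono fun n _ hσ σ hr hP => ?_
  have hnp := n_pos_of_sR (n := n) (by omega)
  have : Nonempty (Fin n) := ⟨⟨0, hnp⟩⟩
  have hf := fib_vertF hnp (show 0 < d by omega)
  have h1 : 72 * (d : ℝ) ^ 4 ≤ sR n := by
    exact_mod_cast (by omega : 72 * d ^ 4 ≤ sR n)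
  exact handC hd (by omega) h1 hf.fib hf.cardV hr hP

end Vale.Agent.P049.TS.Asm
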