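import Vale.Agent.P049.TS.Asm.StepA
import Vale.Agent.P049.TS.Rate.RT1
import Vale.Agent.P049.TS.T34.RateT3
import Vale.Agent.P049.TS.T34.RateT4

/-!
The rate lemmas of `T₁`, `T₂ - N`, `T₃`, `T₄` in the form of `RatesA`.
-/

namespace Vale.Agent.P049.TS.Asm

variable {d : ℕ}

theorem rA1 (hd : 3 ≤ d) : ROne d fun n k ε _ Z => f1 n d k ε Z := by
  obtain ⟨C, s0, h⟩ := Rate.rate_T1 d hd
  exact ⟨C, s0, fun n k F Zp Zm forb hσ e ε Z hs => h _ n k F Zp Zm forb hσ e ε Z hs⟩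

theorem rAD (hd : 3 ≤ d) : ROne d fun n k _ _ Z => fD n d k Z := by
  obtain ⟨C, s0, h⟩ := Rate.rate_D d hd
  exact ⟨C, s0, fun n k F Zp Zm forb hσ e ε Z hs => h _ n k F Zp Zm forb hσ e ε Z hs⟩

theorem rA3 : ROne d fun n k ε _ Z => f3 n d k ε Z := by
  obtain ⟨C, -, s0, h⟩ := T34.rate_T3 d
  exact ⟨C, s0, fun n k F Zp Zm forb hσ e ε Z hs => h n k F Zp Zm forb hσ e ε Z hs⟩

theorem rA4 : ROne d fun n k _ _ Z => f4 n d k Z := by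
  obtain ⟨C, -, s0, h⟩ := T34.rate_T4 d
  exact ⟨C, s0, fun n k F Zp Zm forb hσ e ε Z hs => h n k F Zp Zm forb hσ e ε Z hs⟩

end Vale.Agent.P049.TS.Asm
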