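import Vale.Agent.P049.TS.Asm.Phase
import Vale.Agent.P049.TS.Asm.Rates
import Vale.Agent.P049.TS.Asm.Tgt
import Vale.Agent.P049.TS.Shell.Fin
import Vale.Agent.P049.TS.Init.Start

/-!
From rate inequalities `Σ_adm om (Φ(k+1) - Φ(k)) ≤ C N / σ` (all phases) to `Phase`.
-/

set_option linter.unusedSectionVars false
set_option exponentiation.threshold 3000

namespace Vale.Agent.P049.TS.Asm

open Finset

variable {n d : ℕ}

theorem fib_vertF (hn : 0 < n) (hd : 0 < d) : Init.Fib (vertF n d) n d where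
  fib := vertF_fib
  cardV := Fintype.card_fin n
  n_pos := hn
  d_pos := hd

theorem n_pos_of_sR (h : 1 ≤ sR n) : 0 < n := by
  have := sR_le n
  omega

/-- one step: nonnegative weights, total weight at least `N²/4`, drift at most `C N / σ` -/
structure StepOK (n d k : ℕ) (C : ℝ) (Φ : ℕ → RSt (Fin (n * d)) → ℝ) (σ : RSt (Fin (n * d)))
    (om : Fin (n * d) × Fin (n * d) → ℝ) : Prop where
  nonneg : ∀ p ∈ admS (vertF n d) σ, 0 ≤ om p
  total : Nk n d k ^ 2 / 4 ≤ ∑ p ∈ admS (vertF n d) σ, om p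
  drift : ∑ p ∈ admS (vertF n d) σ, om p * (Φ (k + 1) (σ.join p.1 p.2) - Φ k σ) ≤
    C * (Nk n d k / sR n)

/-- **Making a phase.** -/
theorem phase_of_steps (d : ℕ) {C : ℝ} (hC : 0 ≤ C) : ∃ s₀ : ℕ, ∀ n, s₀ ≤ sR n →
    ∀ (ka kb : ℕ) (Φ : ℕ → RSt (Fin (n * d)) → ℝ) (om : ℕ → RSt (Fin (n * d)) →
      Fin (n * d) × Fin (n * d) → ℝ), 2 * kb ≤ n * d →
    (∀ k, ka ≤ k → k < kb → ∀ σ, Reach (vertF n d) (start (vertF n d) d) k σ → Φ k σ ≤ 1 →
      StepOK n d k C Φ σ (om k σ)) →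
    (∀ k, ka ≤ k → k < kb → ∀ σ, Reach (vertF n d) (start (vertF n d) d) k σ → Φ k σ ≤ 1 →
      ∀ i j, |σ.Zp i j| ≤ (n * d : ℕ) ∧ |σ.Zm i j| ≤ (n * d : ℕ)) →
    Phase n d ka kb Φ (1 / 4) fun k => 4 * C / ((sR n : ℝ) * (((n * d : ℕ) : ℝ) - 2 * k)) := by
  obtain ⟨s₀, h0, h⟩ := exists_rate_bound d (4 * C) (1 / 4) (by positivity) (by norm_num)
  refine ⟨s₀, fun n hn ka kb Φ om hkb hs he => ?_⟩
  have hσ : (0 : ℝ) < sR n := by
    have : 0 < sR n := by omega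
    exact_mod_cast this
  have hN : ∀ k, k < kb → (0 : ℝ) < ((n * d : ℕ) : ℝ) - 2 * k := by
    intro k hk
    have h1 : 2 * k < n * d := by omega
    have h2 : ((2 * k : ℕ) : ℝ) < ((n * d : ℕ) : ℝ) := by exact_mod_cast h1
    push_cast at h2 ⊢
    linarith
  refine ⟨fun k h1 h2 σ hr hΦ => ?_, fun k h1 h2 => ?_, ?_, he⟩
  · obtain ⟨a1, a2, a3⟩ := hs k h1 h2 σ hr hΦ
    have e : Nk n d k = ((n * d : ℕ) : ℝ) - 2 * k := by unfold Nk; push_cast; ring
    have hk := hN k h2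
    rw [e] at a2 a3
    refine ⟨om k σ, a1, lt_of_lt_of_le (by positivity) a2, a3.trans ?_⟩
    calc C * ((((n * d : ℕ) : ℝ) - 2 * k) / sR n) =
        4 * C / ((sR n : ℝ) * (((n * d : ℕ) : ℝ) - 2 * k)) *
          ((((n * d : ℕ) : ℝ) - 2 * k) ^ 2 / 4) := by
          generalize ((n * d : ℕ) : ℝ) - 2 * k = x at *
          field_simp
      _ ≤ _ := mul_le_mul_of_nonneg_left a2 (by positivity)
  · have hk := hN k h2
    positivity
  · have := h n hn ka kb hkb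
    linarith

end Vale.Agent.P049.TS.Asm
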