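import Mathlib

/-!
Monomial calculus for the exponent bookkeeping.

`mo L X p q = exp (p L + q X)` is the monomial `σ^p N^q` for `σ = exp L`, `N = exp X`.
If `xl L ≤ X ≤ xh L + c₀` (i.e. `σ^xl ≤ N ≤ e^{c₀} σ^xh`) every comparison of monomials is two linear
inequalities between numerals (`mo_le_mo`), proved by `norm_num`.
-/

namespace Vale.Agent.P049.TS.Asm

/-- the monomial `σ^p N^q` with `σ = exp L`, `N = exp X` -/
noncomputable def mo (L X p q : ℝ) : ℝ := Real.exp (p * L + q * X)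

variable {L X p q p' q' c₀ xl xh : ℝ}

theorem mo_pos (L X p q : ℝ) : 0 < mo L X p q := Real.exp_pos _
theorem mo_nonneg (L X p q : ℝ) : 0 ≤ mo L X p q := (mo_pos _ _ _ _).le

theorem mo_mul (L X p q p' q' : ℝ) : mo L X p q * mo L X p' q' = mo L X (p + p') (q + q') := by
  unfold mo; rw [← Real.exp_add]; congr 1; ring

theorem mo_pow (L X p q : ℝ) (k : ℕ) : mo L X p q ^ k = mo L X (k * p) (k * q) := by
  unfold mo; rw [← Real.exp_nat_mul]; congr 1; ring

theorem mo_inv (L X p q : ℝ) : (mo L X p q)⁻¹ = mo L X (-p) (-q) := by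
  unfold mo; rw [← Real.exp_neg]; congr 1; ring

theorem mo_div (L X p q p' q' : ℝ) : mo L X p q / mo L X p' q' = mo L X (p - p') (q - q') := by
  unfold mo; rw [← Real.exp_sub]; congr 1; ring

theorem mo_sqrt (L X p q : ℝ) : √(mo L X p q) = mo L X (p / 2) (q / 2) := by
  rw [Real.sqrt_eq_iff_mul_self_eq (mo_nonneg _ _ _ _) (mo_nonneg _ _ _ _), mo_mul]
  congr 1 <;> ring

theorem mo_zero (L X : ℝ) : mo L X 0 0 = 1 := by simp [mo]

theorem mo_N (L X : ℝ) : mo L X 0 1 = Real.exp X := by simp [mo]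

theorem mo_natpow (L X : ℝ) (k : ℕ) : mo L X k 0 = Real.exp L ^ k := by
  unfold mo; rw [← Real.exp_nat_mul]; congr 1; ring

/-- `σ^xl ≤ N ≤ e^{c₀} σ^xh`, `1 ≤ σ` -/
structure Rng (L X c₀ xl xh : ℝ) : Prop where
  L0 : 0 ≤ L
  c0 : 0 ≤ c₀
  lo : xl * L ≤ X
  hi : X ≤ xh * L + c₀

/-- the constant which absorbs the factor `e^{c₀}` -/
noncomputable def KK (c₀ : ℝ) : ℝ := Real.exp (10 * c₀)

theorem KK_pos (c₀ : ℝ) : 0 < KK c₀ := Real.exp_pos _
theorem one_le_KK (h : 0 ≤ c₀) : 1 ≤ KK c₀ := by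
  unfold KK; rw [← Real.exp_zero]; exact Real.exp_le_exp.2 (by linarith)

/-- comparison of two monomials: two linear inequalities in the exponents -/
theorem mo_le_mo (h : Rng L X c₀ xl xh) (hq : q - q' ≤ 10)
    (e1 : (p - p') + (q - q') * xl ≤ 0) (e2 : (p - p') + (q - q') * xh ≤ 0) :
    mo L X p q ≤ KK c₀ * mo L X p' q' := by
  unfold mo KK
  rw [← Real.exp_add]
  apply Real.exp_le_exp.2
  have hL := h.L0
  have hc := h.c0
  have lo := h.lo
  have hi := h.hi
  rcases le_total 0 (q - q') with h0 | h0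
  · have := mul_le_mul_of_nonneg_left hi h0
    have := mul_le_mul_of_nonneg_right hq hc
    have := mul_le_mul_of_nonneg_right e2 hL
    nlinarith
  · have := mul_le_mul_of_nonneg_left lo (neg_nonneg.2 h0)
    have := mul_le_mul_of_nonneg_right e1 hL
    nlinarith

/-- comparison without the constant, when the exponent of `N` does not increase -/
theorem mo_le_mo' (h : Rng L X c₀ xl xh) (hq : q ≤ q')
    (e1 : (p - p') + (q - q') * xl ≤ 0) :
    mo L X p q ≤ mo L X p' q' := by
  unfold mo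
  apply Real.exp_le_exp.2
  have hL := h.L0
  have lo := h.lo
  have := mul_le_mul_of_nonneg_left lo (sub_nonneg.2 hq)
  have := mul_le_mul_of_nonneg_right e1 hL
  nlinarith

/-- comparison with an arbitrary prefactor `c ≤ K`, for sums of monomials -/
theorem mul_mo_le {c : ℝ} (hc : 0 ≤ c) (h : Rng L X c₀ xl xh) (hq : q - q' ≤ 10)
    (e1 : (p - p') + (q - q') * xl ≤ 0) (e2 : (p - p') + (q - q') * xh ≤ 0) :
    c * mo L X p q ≤ c * KK c₀ * mo L X p' q' := by
  have := mul_le_mul_of_nonneg_left (mo_le_mo (p := p) (q := q) (p' := p') (q' := q') h hq e1 e2) hc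
  linarith

/-- absorbing a constant by a positive power of `σ` -/
theorem const_mo_le {c r : ℝ} (hc : c ≤ Real.exp (r * L)) :
    c * mo L X p q ≤ mo L X (p + r) q := by
  have : mo L X (p + r) q = Real.exp (r * L) * mo L X p q := by
    unfold mo; rw [← Real.exp_add]; congr 1; ring
  rw [this]
  exact mul_le_mul_of_nonneg_right hc (mo_nonneg _ _ _ _)

end Vale.Agent.P049.TS.Asm
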