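import Vale.Agent.P049.TS.Asm.Forb
import Vale.Agent.P049.TS.Alg.RunCorrect

/-!
Phases of the stub process.

* `Phase`: rate inequalities for a potential `Φ` on the steps `ka ≤ k < kb`;
* `Seg`: the selection property (the fields `hA`, `hB` of `Good`) on `ka ≤ k < kb`;
* `Phase.seg`, `Seg.glue`, `Seg.good`.
-/

namespace Vale.Agent.P049.TS.Asm

open Finset

/-- The potential `Φ` can be kept bounded on the steps `ka ≤ k < kb`: on average over the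
admissible pairs, with some weights, the increment of `Φ` is at most `r k`. -/
structure Phase (n d ka kb : ℕ) (Φ : ℕ → RSt (Fin (n * d)) → ℝ) (b0 : ℝ) (r : ℕ → ℝ) :
    Prop where
  step : ∀ k, ka ≤ k → k < kb → ∀ σ, Reach (vertF n d) (start (vertF n d) d) k σ → Φ k σ ≤ 1 →
    ∃ om : Fin (n * d) × Fin (n * d) → ℝ, (∀ p ∈ admS (vertF n d) σ, 0 ≤ om p) ∧
      0 < ∑ p ∈ admS (vertF n d) σ, om p ∧
      ∑ p ∈ admS (vertF n d) σ, om p * (Φ (k + 1) (σ.join p.1 p.2) - Φ k σ) ≤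
        r k * ∑ p ∈ admS (vertF n d) σ, om p
  rnn : ∀ k, ka ≤ k → k < kb → 0 ≤ r k
  sum : b0 + ∑ k ∈ Finset.Ico ka kb, r k ≤ 1 / 2
  ent : ∀ k, ka ≤ k → k < kb → ∀ σ, Reach (vertF n d) (start (vertF n d) d) k σ → Φ k σ ≤ 1 →
    ∀ i j, |σ.Zp i j| ≤ (n * d : ℕ) ∧ |σ.Zm i j| ≤ (n * d : ℕ)

/-- The selection property on the steps `ka ≤ k < kb`. -/
structure Seg (n d c ka kb : ℕ) (Φ : ℕ → RSt (Fin (n * d)) → ℝ) (b : ℕ → ℝ) : Prop where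
  hA : ∀ k, ka ≤ k → k < kb → ∀ σ, Reach (vertF n d) (start (vertF n d) d) k σ → ∀ δ : ℝ,
    0 ≤ δ → δ ≤ (1 / 2) ^ (n * d) → Φ k σ ≤ b k + δ → ∃ x y, σ.Adm (vertF n d) (2 / c) x y ∧
      Φ (k + 1) (σ.join x y) ≤ b (k + 1) + δ
  hB : ∀ k, ka ≤ k → k < kb → ∀ σ, Reach (vertF n d) (start (vertF n d) d) k σ →
    Φ k σ ≤ b k + (1 / 2) ^ (n * d) → ∀ i j, |σ.Zp i j| ≤ (n * d : ℕ) ∧ |σ.Zm i j| ≤ (n * d : ℕ)
  hle : ∀ k, ka ≤ k → k ≤ kb → b k ≤ 1 / 2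

variable {n d : ℕ}

theorem half_pow_le (hn : 0 < n * d) : (1 / 2 : ℝ) ^ (n * d) ≤ 1 / 2 := by
  calc (1 / 2 : ℝ) ^ (n * d) ≤ (1 / 2) ^ 1 :=
        pow_le_pow_of_le_one (by norm_num) (by norm_num) hn
    _ = 1 / 2 := pow_one _

/-- From rates to selection. -/
theorem Phase.seg {ka kb : ℕ} {Φ : ℕ → RSt (Fin (n * d)) → ℝ} {b0 : ℝ} {r : ℕ → ℝ}
    (hn : 0 < n * d) (h : Phase n d ka kb Φ b0 r) :
    Seg n d 4 ka kb Φ fun k => b0 + ∑ j ∈ Finset.Ico ka k, r j := by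
  have hp := half_pow_le hn
  have hle : ∀ k, ka ≤ k → k ≤ kb → b0 + ∑ j ∈ Finset.Ico ka k, r j ≤ 1 / 2 := by
    intro k h1 h2
    refine le_trans (add_le_add le_rfl ?_) h.sum
    refine Finset.sum_le_sum_of_subset_of_nonneg (Finset.Ico_subset_Ico le_rfl h2)
      fun j hj _ => ?_
    rw [Finset.mem_Ico] at hj
    exact h.rnn j hj.1 hj.2
  refine ⟨fun k h1 h2 σ hr δ hδ0 hδ1 hΦ => ?_, fun k h1 h2 σ hr hΦ => ?_, hle⟩
  · have hΦ1 : Φ k σ ≤ 1 := by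
      have := hle k h1 h2.le
      linarith
    obtain ⟨om, ho1, ho2, ho3⟩ := h.step k h1 h2 σ hr hΦ1
    have h4 : ∑ p ∈ admS (vertF n d) σ, om p * Φ (k + 1) (σ.join p.1 p.2) ≤
        (Φ k σ + r k) * ∑ p ∈ admS (vertF n d) σ, om p := by
      have e : ∑ p ∈ admS (vertF n d) σ, om p * (Φ (k + 1) (σ.join p.1 p.2) - Φ k σ) =
          ∑ p ∈ admS (vertF n d) σ, om p * Φ (k + 1) (σ.join p.1 p.2) -
            Φ k σ * ∑ p ∈ admS (vertF n d) σ, om p := by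
        rw [Finset.mul_sum, ← Finset.sum_sub_distrib]
        exact Finset.sum_congr rfl fun p _ => by ring
      rw [e] at ho3
      linarith
    obtain ⟨p, hp, -, hp2⟩ := exists_le_of_weighted ho1 ho2 h4
    refine ⟨p.1, p.2, (adm_of_mem_admS hp).mono (by norm_num), ?_⟩
    rw [Finset.sum_Ico_succ_top h1]
    linarith
  · refine h.ent k h1 h2 σ hr ?_
    have := hle k h1 h2.le
    linarith

/-- Gluing two segments. -/
theorem Seg.glue {c ka kb kc : ℕ} {Φ₁ Φ₂ : ℕ → RSt (Fin (n * d)) → ℝ} {b₁ b₂ : ℕ → ℝ}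
    (hn : 0 < n * d) (hc : 0 < c) (hab : ka ≤ kb) (h₁ : Seg n d c ka kb Φ₁ b₁)
    (h₂ : Seg n d c kb kc Φ₂ b₂)
    (hand : ∀ σ, Reach (vertF n d) (start (vertF n d) d) kb σ → Φ₁ kb σ ≤ 1 →
      Φ₂ kb σ ≤ b₂ kb) :
    Seg n d c ka kc (fun k σ => if k < kb then Φ₁ k σ else Φ₂ k σ)
      (fun k => if k < kb then b₁ k else b₂ k) := by
  have hp := half_pow_le hn
  refine ⟨fun k h1 h2 σ hr δ hδ0 hδ1 hΦ => ?_, fun k h1 h2 σ hr hΦ => ?_, fun k h1 h2 => ?_⟩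
  · by_cases hk : k < kb
    · simp only [if_pos hk] at hΦ
      obtain ⟨x, y, hxy, h3⟩ := h₁.hA k h1 hk σ hr δ hδ0 hδ1 hΦ
      refine ⟨x, y, hxy, ?_⟩
      by_cases hk' : k + 1 < kb
      · simp only [if_pos hk']
        exact h3
      · have e : k + 1 = kb := by omega
        simp only [if_neg hk']
        rw [e] at h3 ⊢
        have h4 : Φ₁ kb (σ.join x y) ≤ 1 := by
          have := h₁.hle kb (by omega) le_rfl
          linarith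
        have hr' : Reach (vertF n d) (start (vertF n d) d) kb (σ.join x y) := by
          rw [← e]
          exact hr.succ (c := 2 / c) (by positivity) hxy
        have := hand _ hr' h4
        linarith
    · simp only [if_neg hk] at hΦ
      obtain ⟨x, y, hxy, h3⟩ := h₂.hA k (by omega) h2 σ hr δ hδ0 hδ1 hΦ
      exact ⟨x, y, hxy, by simpa only [if_neg (show ¬ k + 1 < kb by omega)] using h3⟩
  · by_cases hk : k < kb
    · simp only [if_pos hk] at hΦ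
      exact h₁.hB k h1 hk σ hr hΦ
    · simp only [if_neg hk] at hΦ
      exact h₂.hB k (by omega) h2 σ hr hΦ
  · by_cases hk : k < kb
    · simp only [if_pos hk]
      exact h₁.hle k h1 hk.le
    · simp only [if_neg hk]
      exact h₂.hle k (by omega) h2

/-- The hypotheses of the algorithm from a segment `[0, K)`. -/
theorem Seg.good {c K : ℕ} {Φ : ℕ → RSt (Fin (n * d)) → ℝ} {b : ℕ → ℝ}
    {V : List ℕ → ℤ → St → ℤ} {W : ℕ → ℝ} (h : Seg n d c 0 K Φ b)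
    (hC : Φ 0 (start (vertF n d) d) ≤ b 0) (hW : ∀ k, 0 < W k)
    (hV : ∀ k, 0 < k → k ≤ K → ∀ s σ, Reach (vertF n d) (start (vertF n d) d) k σ →
      Rel n d (scale (List.range (n * d))) ((1 / 2) ^ (30 * (n * d + 2) ^ 2)) s σ →
      (∀ i j, |σ.Zp i j| ≤ (((n * d : ℕ) : ℝ) + 2) ^ 5 ∧
        |σ.Zm i j| ≤ (((n * d : ℕ) : ℝ) + 2) ^ 5) →
      |(V (List.range (n * d)) (scale (List.range (n * d))) s : ℝ) / W k - Φ k σ| ≤
        (1 / 2) ^ (2 * (n * d))) : Good n d c K V W Φ b := by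
  refine ⟨hW, fun k hk σ hr δ h0 h1 hΦ => ?_, fun k hk => h.hB k (Nat.zero_le k) hk, hC, hV⟩
  obtain ⟨x, y, hxy, h2⟩ := h.hA k (Nat.zero_le k) hk σ hr δ h0 h1 hΦ
  exact ⟨x, y, hxy, by linarith⟩

/-- The final bound: the potential at the last step is at most `1`. -/
theorem Seg.final {c K : ℕ} {Φ : ℕ → RSt (Fin (n * d)) → ℝ} {b : ℕ → ℝ} (hn : 0 < n * d)
    (h : Seg n d c 0 K Φ b) {σ : RSt (Fin (n * d))} (hΦ : Φ K σ ≤ b K + (1 / 2) ^ (n * d)) :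
    Φ K σ ≤ 1 := by
  have := half_pow_le hn
  have := h.hle K (Nat.zero_le K) le_rfl
  linarith

/-- A chain of phases on `[ka, kb)` with first potential `Ψ` and its start value `β`. -/
structure Chain (n d ka kb : ℕ) (Ψ : ℕ → RSt (Fin (n * d)) → ℝ) (β : ℝ)
    (Φ : ℕ → RSt (Fin (n * d)) → ℝ) (b : ℕ → ℝ) : Prop where
  seg : Seg n d 4 ka kb Φ b
  entry : ∀ σ, Reach (vertF n d) (start (vertF n d) d) ka σ → Ψ ka σ ≤ β → Φ ka σ ≤ b ka

theorem Phase.b0_le {ka kb : ℕ} {Φ : ℕ → RSt (Fin (n * d)) → ℝ} {b0 : ℝ} {r : ℕ → ℝ}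
    (h : Phase n d ka kb Φ b0 r) : b0 ≤ 1 / 2 := by
  refine le_trans ?_ h.sum
  have : 0 ≤ ∑ k ∈ Finset.Ico ka kb, r k := Finset.sum_nonneg fun k hk => by
    rw [Finset.mem_Ico] at hk
    exact h.rnn k hk.1 hk.2
  linarith

theorem Phase.chain {ka kb : ℕ} {Φ : ℕ → RSt (Fin (n * d)) → ℝ} {b0 : ℝ} {r : ℕ → ℝ}
    (hn : 0 < n * d) (h : Phase n d ka kb Φ b0 r) :
    Chain n d ka kb Φ b0 Φ fun k => b0 + ∑ j ∈ Finset.Ico ka k, r j :=
  ⟨h.seg hn, fun σ _ h1 => by simpa using h1⟩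

/-- Put a phase in front of a chain. -/
theorem Phase.cons {ka kb kc : ℕ} {Φ₁ Ψ Φ₂ : ℕ → RSt (Fin (n * d)) → ℝ} {b₁ β : ℝ}
    {r₁ b₂ : ℕ → ℝ} (p : Phase n d ka kb Φ₁ b₁ r₁) (hn : 0 < n * d) (hab : ka ≤ kb)
    (h₂ : Chain n d kb kc Ψ β Φ₂ b₂)
    (hand : ∀ σ, Reach (vertF n d) (start (vertF n d) d) kb σ → Φ₁ kb σ ≤ 1 → Ψ kb σ ≤ β) :
    Chain n d ka kc Φ₁ b₁ (fun k σ => if k < kb then Φ₁ k σ else Φ₂ k σ)
      (fun k => if k < kb then b₁ + ∑ j ∈ Finset.Ico ka k, r₁ j else b₂ k) := by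
  refine ⟨(p.seg hn).glue hn (by norm_num) hab h₂.seg
    fun σ h1 h2 => h₂.entry σ h1 (hand σ h1 h2), fun σ h1 h2 => ?_⟩
  by_cases h : ka < kb
  · simpa only [if_pos h, Finset.Ico_self, Finset.sum_empty, add_zero] using h2
  · have e : ka = kb := le_antisymm hab (not_lt.1 h)
    subst e
    simp only [lt_irrefl, if_false]
    exact h₂.entry σ h1 (hand σ h1 (h2.trans (p.b0_le.trans (by norm_num))))

/-- The hypotheses of the algorithm from a chain on `[0, K)`. -/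
theorem Chain.good {K : ℕ} {Ψ Φ : ℕ → RSt (Fin (n * d)) → ℝ} {β : ℝ} {b : ℕ → ℝ}
    {V : List ℕ → ℤ → St → ℤ} {W : ℕ → ℝ} (h : Chain n d 0 K Ψ β Φ b)
    (hC : Ψ 0 (start (vertF n d) d) ≤ β) (hW : ∀ k, 0 < W k)
    (hV : ∀ k, 0 < k → k ≤ K → ∀ s σ, Reach (vertF n d) (start (vertF n d) d) k σ →
      Rel n d (scale (List.range (n * d))) ((1 / 2) ^ (30 * (n * d + 2) ^ 2)) s σ →
      (∀ i j, |σ.Zp i j| ≤ (((n * d : ℕ) : ℝ) + 2) ^ 5 ∧
        |σ.Zm i j| ≤ (((n * d : ℕ) : ℝ) + 2) ^ 5) →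
      |(V (List.range (n * d)) (scale (List.range (n * d))) s : ℝ) / W k - Φ k σ| ≤
        (1 / 2) ^ (2 * (n * d))) : Good n d 4 K V W Φ b :=
  h.seg.good (h.entry _ Reach.zero hC) hW hV

/-! ### Entries -/

variable {ι : Type*} [Fintype ι] [DecidableEq ι]

theorem abs_entry_le_of_trace_four {Z : Matrix ι ι ℝ} (hZ : Z.IsSymm) {x : ℝ} (hx : 0 ≤ x)
    (h : (Z ^ 4).trace ≤ x ^ 4) (i j : ι) : |Z i j| ≤ x := by
  have h1 : (Z ^ 2) i i ≤ x ^ 2 := by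
    have h2 : (Z ^ 2) i i ^ 2 ≤ frob (Z ^ 2) := by
      unfold frob
      refine le_trans ?_ (Finset.single_le_sum (f := fun i => ∑ j, (Z ^ 2) i j ^ 2)
        (fun _ _ => Finset.sum_nonneg fun _ _ => sq_nonneg _) (Finset.mem_univ i))
      exact Finset.single_le_sum (f := fun j => (Z ^ 2) i j ^ 2) (fun _ _ => sq_nonneg _)
        (Finset.mem_univ i)
    rw [frob_pow hZ] at h2
    have h3 : (Z ^ 2) i i ^ 2 ≤ (x ^ 2) ^ 2 := by
      calc _ ≤ (Z ^ (2 * 2)).trace := h2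
        _ ≤ x ^ 4 := h
        _ = _ := by ring
    exact le_of_sq_le_sq h3 (by positivity)
  have h4 := sq_entry_le hZ i j
  exact abs_le_of_sq_le_sq (h4.trans h1) hx

/-- bounded entries from `T₄` -/
theorem ent_of_T4 {k : ℕ} {σ : RSt (Fin (n * d))}
    (h : Reach (vertF n d) (start (vertF n d) d) k σ)
    (hp : (σ.Zp ^ 4).trace ≤ ((n * d : ℕ) : ℝ) ^ 4) (hm : (σ.Zm ^ 4).trace ≤ ((n * d : ℕ) : ℝ) ^ 4)
    (i j : Fin (n * d)) : |σ.Zp i j| ≤ (n * d : ℕ) ∧ |σ.Zm i j| ≤ (n * d : ℕ) := by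
  obtain ⟨h1, h2, -, -⟩ := h.base
  exact ⟨abs_entry_le_of_trace_four h1 (Nat.cast_nonneg _) hp i j,
    abs_entry_le_of_trace_four h2 (Nat.cast_nonneg _) hm i j⟩

end Vale.Agent.P049.TS.Asm
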