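import Vale.Agent.P049.TS.Asm.Env
import Vale.Agent.P049.TS.Shell.Sign2

/-!
The one-sided bound `ε Z ≥ -5/7 - 1_F 1_Fᵀ/N` from the sign facts `Sg`.
-/

set_option linter.unusedSectionVars false

namespace Vale.Agent.P049.TS.Asm

open Matrix Finset

variable {n d k : ℕ}
variable {ι : Type*} [Fintype ι] [DecidableEq ι]
variable {F : Finset ι} {Zp Zm Z : Matrix ι ι ℝ} {forb : ι → ι → Prop} {ε : ℝ}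

/-- `ε Z + 5/7 + 1_F 1_Fᵀ / N ≥ 0` -/
theorem psd_of_sg {m : ℝ} (h : Sg F Z m ε) (hm0 : 0 ≤ m) (hm1 : m ≤ 5 / 7)
    (hε : ε = 1 ∨ ε = -1) (v : ι → ℝ) :
    0 ≤ ε * (v ⬝ᵥ (Z *ᵥ v)) + 5 / 7 * (v ⬝ᵥ v) + (∑ i ∈ F, v i) ^ 2 / (F.card : ℝ) := by
  have h1 := h.lo v
  have hN : (0 : ℝ) < F.card := by exact_mod_cast h.card
  have h2 : ∑ i ∈ F, v i ^ 2 ≤ v ⬝ᵥ v := by
    simp only [dotProduct, ← sq]
    exact Finset.sum_le_sum_of_subset_of_nonneg (Finset.subset_univ F) fun _ _ _ => sq_nonneg _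
  have h4 : 0 ≤ ∑ i ∈ F, v i ^ 2 := Finset.sum_nonneg fun _ _ => sq_nonneg _
  have h6 : 0 ≤ (∑ i ∈ F, v i) ^ 2 / (F.card : ℝ) := by positivity
  have h7 : m * ∑ i ∈ F, v i ^ 2 ≤ 5 / 7 * (v ⬝ᵥ v) := by
    calc m * ∑ i ∈ F, v i ^ 2 ≤ 5 / 7 * ∑ i ∈ F, v i ^ 2 := mul_le_mul_of_nonneg_right hm1 h4
      _ ≤ _ := mul_le_mul_of_nonneg_left h2 (by norm_num)
  rw [mul_div_assoc] at h1
  generalize (∑ i ∈ F, v i) ^ 2 / (F.card : ℝ) = x at *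
  rcases hε with rfl | rfl
  · have : 0 ≤ (1 + m) * x := by positivity
    linarith
  · nlinarith [mul_nonneg hm0 h6]

theorem OneA.psd (h : OneA n d k ε F Z) (hd : 3 ≤ d) (hε : ε = 1 ∨ ε = -1) (v : ι → ℝ) :
    0 ≤ ε * (v ⬝ᵥ (Z *ᵥ v)) + 5 / 7 * (v ⬝ᵥ v) + (∑ i ∈ F, v i) ^ 2 / (F.card : ℝ) :=
  psd_of_sg h.sg (by positivity) (mu_le hd) hε v

theorem Sgn.eps (hs : Sgn Zp Zm ε Z) : ε = 1 ∨ ε = -1 := by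
  rcases hs with ⟨rfl, rfl⟩ | ⟨rfl, rfl⟩
  · exact Or.inl rfl
  · exact Or.inr rfl

theorem EnvA.psd (h : EnvA n d k F Zp Zm forb) (hs : Sgn Zp Zm ε Z) (v : ι → ℝ) :
    0 ≤ ε * (v ⬝ᵥ (Z *ᵥ v)) + 5 / 7 * (v ⬝ᵥ v) + (∑ i ∈ F, v i) ^ 2 / (F.card : ℝ) :=
  (h.oneA hs).psd h.d3 hs.eps v

end Vale.Agent.P049.TS.Asm
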