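import Vale.Agent.P049.TS.Asm.EnvF
import Vale.Agent.P049.TS.Final.T2
import Vale.Agent.P049.TS.Final.S1

/-!
The rate lemmas of the final phase for `T₂` and `S₁`.
-/

set_option linter.unusedSectionVars false
set_option exponentiation.threshold 3000

namespace Vale.Agent.P049.TS.Asm

open Matrix Finset

/-! ### Linear potentials with weights `s / N²` and `s / N` -/

section Lin
variable {α : Type*} (A : Finset α) (P' : α → ℝ) {P E N s : ℝ}

theorem lin_rate_sq (hN : 4 ≤ N) (hs : 0 ≤ s) (hP : 0 ≤ P) (hA : (A.card : ℝ) ≤ N ^ 2)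
    (hE : 0 ≤ E) (h : ∑ p ∈ A, (P' p - P) ≤ -4 * N * P + E) :
    ∑ p ∈ A, (P' p * s / (N - 2) ^ 2 - P * s / N ^ 2) ≤ 4 * (E * s / N ^ 2) := by
  have hN2 : 0 < N - 2 := by linarith
  have hN0 : 0 < N := by linarith
  have e1 : ∑ p ∈ A, (P' p * s / (N - 2) ^ 2 - P * s / N ^ 2) =
      s / (N - 2) ^ 2 * ∑ p ∈ A, (P' p - P) +
        P * s * (1 / (N - 2) ^ 2 - 1 / N ^ 2) * A.card := by
    rw [Finset.mul_sum]
    have : P * s * (1 / (N - 2) ^ 2 - 1 / N ^ 2) * (A.card : ℝ) =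
        ∑ _p ∈ A, P * s * (1 / (N - 2) ^ 2 - 1 / N ^ 2) := by
      rw [Finset.sum_const, nsmul_eq_mul]; ring
    rw [this, ← Finset.sum_add_distrib]
    exact Finset.sum_congr rfl fun p _ => by ring
  have e2 : 1 / (N - 2) ^ 2 - 1 / N ^ 2 = (4 * N - 4) / (N ^ 2 * (N - 2) ^ 2) := by
    field_simp; ring
  have e3 : P * s * (1 / (N - 2) ^ 2 - 1 / N ^ 2) * A.card ≤ s / (N - 2) ^ 2 * (4 * N * P) := by
    rw [e2]
    have h1 : P * s * ((4 * N - 4) / (N ^ 2 * (N - 2) ^ 2)) * A.card ≤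
        P * s * ((4 * N - 4) / (N ^ 2 * (N - 2) ^ 2)) * N ^ 2 := by
      refine mul_le_mul_of_nonneg_left hA (mul_nonneg (mul_nonneg hP hs) ?_)
      exact div_nonneg (by linarith) (by positivity)
    refine h1.trans ?_
    have h2 : P * s * ((4 * N - 4) / (N ^ 2 * (N - 2) ^ 2)) * N ^ 2 =
        s / (N - 2) ^ 2 * (P * (4 * N - 4)) := by
      field_simp
    rw [h2]
    refine mul_le_mul_of_nonneg_left ?_ (by positivity)
    nlinarith
  have e4 : s / (N - 2) ^ 2 * ∑ p ∈ A, (P' p - P) ≤ s / (N - 2) ^ 2 * (-4 * N * P + E) :=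
    mul_le_mul_of_nonneg_left h (by positivity)
  rw [e1]
  have e5 : s / (N - 2) ^ 2 * E ≤ 4 * (E * s / N ^ 2) := by
    have h3 : N ^ 2 ≤ 4 * (N - 2) ^ 2 := by nlinarith
    have h4 : s / (N - 2) ^ 2 * E = E * s / (N - 2) ^ 2 := by ring
    rw [h4, mul_div_assoc', div_le_div_iff₀ (by positivity) (by positivity)]
    have h5 : 0 ≤ E * s := mul_nonneg hE hs
    nlinarith
  linarith

theorem lin_rate_one (hN : 4 ≤ N) (hs : 0 ≤ s) (hP : 0 ≤ P) (hA : (A.card : ℝ) ≤ N ^ 2)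
    (hE : 0 ≤ E) (h : ∑ p ∈ A, (P' p - P) ≤ -2 * N * P + E) :
    ∑ p ∈ A, (P' p * s / (N - 2) - P * s / N) ≤ 2 * (E * s / N) := by
  have hN2 : 0 < N - 2 := by linarith
  have hN0 : 0 < N := by linarith
  have e1 : ∑ p ∈ A, (P' p * s / (N - 2) - P * s / N) =
      s / (N - 2) * ∑ p ∈ A, (P' p - P) + P * s * (1 / (N - 2) - 1 / N) * A.card := by
    rw [Finset.mul_sum]
    have : P * s * (1 / (N - 2) - 1 / N) * (A.card : ℝ) =
        ∑ _p ∈ A, P * s * (1 / (N - 2) - 1 / N) := by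
      rw [Finset.sum_const, nsmul_eq_mul]; ring
    rw [this, ← Finset.sum_add_distrib]
    exact Finset.sum_congr rfl fun p _ => by ring
  have e2 : 1 / (N - 2) - 1 / N = 2 / (N * (N - 2)) := by
    field_simp; ring
  have e3 : P * s * (1 / (N - 2) - 1 / N) * A.card ≤ s / (N - 2) * (2 * N * P) := by
    rw [e2]
    have h1 : P * s * (2 / (N * (N - 2))) * A.card ≤ P * s * (2 / (N * (N - 2))) * N ^ 2 :=
      mul_le_mul_of_nonneg_left hA (mul_nonneg (mul_nonneg hP hs) (by positivity))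
    refine h1.trans (le_of_eq ?_)
    field_simp
  have e4 : s / (N - 2) * ∑ p ∈ A, (P' p - P) ≤ s / (N - 2) * (-2 * N * P + E) :=
    mul_le_mul_of_nonneg_left h (by positivity)
  rw [e1]
  have e5 : s / (N - 2) * E ≤ 2 * (E * s / N) := by
    have h4 : s / (N - 2) * E = E * s / (N - 2) := by ring
    rw [h4, mul_div_assoc', div_le_div_iff₀ (by positivity) (by positivity)]
    have h5 : 0 ≤ E * s := mul_nonneg hE hs
    nlinarith
  linarith

end Lin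

/-! ### The parameters as monomials (`xl = 341`, `xh = 530`) -/

variable {n d k : ℕ}

theorem tF_Em : tF n d k ≤ 2 * Em (LL n) (XX n d k) 341 530 0 756 := by
  unfold tF
  have h : mo (LL n) (XX n d k) (-341) 1 = Em (LL n) (XX n d k) 341 530 0 756 :=
    mo_eq_Em (by norm_num) (by norm_num) (by norm_num)
  rw [h]
  exact mul_le_mul_of_nonneg_right sqrt_two_le (Em_pos _ _ _ _ _ _).le

theorem sF_Em : sF n d k = Em (LL n) (XX n d k) 341 530 (-398) (-20) :=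
  mo_eq_Em (by norm_num) (by norm_num) (by norm_num)

theorem vF_Em : vF n d k = Em (LL n) (XX n d k) 341 530 52 808 :=
  mo_eq_Em (by norm_num) (by norm_num) (by norm_num)

theorem nF_Em : nF n d k = Em (LL n) (XX n d k) 341 530 682 1060 :=
  mo_eq_Em (by norm_num) (by norm_num) (by norm_num)

theorem mF_Em : mF n d k = (d + 25) * Em (LL n) (XX n d k) 341 530 682 1060 := by
  unfold mF
  have h : mo (LL n) (XX n d k) 0 (1 / 2) = Em (LL n) (XX n d k) 341 530 682 1060 :=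
    mo_eq_Em (by norm_num) (by norm_num) (by norm_num)
  rw [h]

theorem one_le_Em (R : Rg (LL n) (XX n d k) 341 530) {y1 y2 : ℤ} (h1 : 0 ≤ y1) (h2 : 0 ≤ y2) :
    1 ≤ Em (LL n) (XX n d k) 341 530 y1 y2 := by
  rw [← Em_zero (LL n) (XX n d k) 341 530]
  exact Em_le R h1 h2

theorem GF_Em (R : Rg (LL n) (XX n d k) 341 530) :
    GF n d k ≤ (1 + (d : ℝ) * (d + 1) + 256) * Em (LL n) (XX n d k) 341 530 52 808 := by
  unfold GF
  have h1 := one_le_Em (n := n) (d := d) (k := k) R (y1 := 52) (y2 := 808) (by norm_num)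
    (by norm_num)
  have h2 : sF n d k ^ 4 ≤ Em (LL n) (XX n d k) 341 530 52 808 := by
    rw [sF_Em, Em_pow]
    exact Em_le R (by norm_num) (by norm_num)
  rw [vF_Em]
  have h3 : (0 : ℝ) ≤ 1 + (d : ℝ) * (d + 1) := by positivity
  nlinarith

theorem LF_Em (R : Rg (LL n) (XX n d k) 341 530) :
    LF n d k ≤ (1 + (d : ℝ) * (d + 1) + 48) * Em (LL n) (XX n d k) 341 530 0 756 := by
  unfold LF
  have h1 := one_le_Em (n := n) (d := d) (k := k) R (y1 := 0) (y2 := 756) (by norm_num)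
    (by norm_num)
  have h2 : sF n d k ^ 2 ≤ Em (LL n) (XX n d k) 341 530 0 756 := by
    rw [sF_Em, Em_pow]
    exact Em_le R (by norm_num) (by norm_num)
  have h4 := tF_Em (n := n) (d := d) (k := k)
  have h3 : (0 : ℝ) ≤ 1 + (d : ℝ) * (d + 1) := by positivity
  nlinarith

theorem NkF_Em (h : 0 < Nk n d k) : Nk n d k = Em (LL n) (XX n d k) 341 530 1364 2120 := by
  rw [Nk_eq_mo h (LL n)]
  exact mo_eq_Em (by norm_num) (by norm_num) (by norm_num)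

theorem rF_Em : rF n d k = Em (LL n) (XX n d k) 341 530 1360 2116 :=
  mo_eq_Em (by norm_num) (by norm_num) (by norm_num)

theorem GF_nonneg (n d k : ℕ) : 0 ≤ GF n d k := by
  unfold GF
  have := vF_nonneg n d k
  have := sF_nonneg n d k
  positivity

theorem LF_nonneg (n d k : ℕ) : 0 ≤ LF n d k := by
  unfold LF
  have := tF_nonneg n d k
  have := sF_nonneg n d k
  positivity

/-- the environment `t σ v ν b G m L` of the error polynomials -/
noncomputable def rhoF (n d k : ℕ) : ℕ → ℝ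
  | 0 => tF n d k | 1 => sF n d k | 2 => vF n d k | 3 => nF n d k | 4 => tF n d k
  | 5 => GF n d k | 6 => mF n d k | 7 => LF n d k | _ => 0

/-- the constants -/
noncomputable def kapF (d : ℕ) : ℕ → ℝ
  | 0 => 2 | 1 => 1 | 2 => 1 | 3 => 1 | 4 => 2
  | 5 => 1 + (d : ℝ) * (d + 1) + 256 | 6 => d + 25 | 7 => 1 + (d : ℝ) * (d + 1) + 48 | _ => 0

/-- the exponents at `N = σ^341` -/
def yF1 : ℕ → ℤ
  | 0 => 0 | 1 => -398 | 2 => 52 | 3 => 682 | 4 => 0 | 5 => 52 | 6 => 682 | 7 => 0 | _ => 0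

/-- the exponents at `N = σ^530` -/
def yF2 : ℕ → ℤ
  | 0 => 756 | 1 => -20 | 2 => 808 | 3 => 1060 | 4 => 756 | 5 => 808 | 6 => 1060 | 7 => 756 | _ => 0

theorem rhoF_nonneg (n d k : ℕ) (i : ℕ) : 0 ≤ rhoF n d k i := by
  unfold rhoF
  split
  · exact tF_nonneg _ _ _
  · exact sF_nonneg _ _ _
  · exact vF_nonneg _ _ _
  · exact nF_nonneg _ _ _
  · exact tF_nonneg _ _ _
  · exact GF_nonneg _ _ _
  · exact mF_nonneg _ _ _
  · exact LF_nonneg _ _ _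
  · exact le_rfl

theorem kapF_nonneg (d : ℕ) (i : ℕ) : 0 ≤ kapF d i := by
  unfold kapF
  split <;> positivity

theorem rhoF_le (R : Rg (LL n) (XX n d k) 341 530) (i : ℕ) :
    rhoF n d k i ≤ kapF d i * Em (LL n) (XX n d k) 341 530 (yF1 i) (yF2 i) := by
  match i with
  | 0 => exact tF_Em
  | 1 => show sF n d k ≤ 1 * Em (LL n) (XX n d k) 341 530 (-398) (-20); rw [one_mul, sF_Em]
  | 2 => show vF n d k ≤ 1 * Em (LL n) (XX n d k) 341 530 52 808; rw [one_mul, vF_Em]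
  | 3 => show nF n d k ≤ 1 * Em (LL n) (XX n d k) 341 530 682 1060; rw [one_mul, nF_Em]
  | 4 => exact tF_Em
  | 5 => exact GF_Em R
  | 6 => show mF n d k ≤ (d + 25) * Em (LL n) (XX n d k) 341 530 682 1060; rw [mF_Em]
  | 7 => exact LF_Em R
  | (j + 8) => show (0 : ℝ) ≤ 0 * _; rw [zero_mul]

/-- **the exponent check** of the final phase -/
theorem boundF (R : Rg (LL n) (XX n d k) 341 530) (e : Ex) {z1 z2 : ℤ} (c1 : e.y yF1 ≤ z1)
    (c2 : e.y yF2 ≤ z2) :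
    e.ev (rhoF n d k) ≤ e.cs (kapF d) * Em (LL n) (XX n d k) 341 530 z1 z2 :=
  e.bound R yF1 yF2 c1 c2 (rhoF_nonneg n d k) (kapF_nonneg d) (rhoF_le R)

theorem cs_nonneg {κ : ℕ → ℝ} (h : ∀ i, 0 ≤ κ i) : ∀ e : Ex, 0 ≤ e.cs κ
  | .v i => h i
  | .c n => Nat.cast_nonneg n
  | .add a b => add_nonneg (cs_nonneg h a) (cs_nonneg h b)
  | .mul a b => mul_nonneg (cs_nonneg h a) (cs_nonneg h b)
  | .pow a n => pow_nonneg (cs_nonneg h a) n

/-- `E s^j / N² ≤ c rF` for `E ≤ c s^(-1-j) N³` -/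
theorem div_sq_le_rF (hσ : 2000 ≤ sR n) (hN : 0 < Nk n d k)
    {E c : ℝ} (j : ℕ) {z1 z2 : ℤ} (hz1 : z1 = 4 * (1022 - j)) (hz2 : z2 = 4 * (1589 - j))
    (h : E ≤ c * Em (LL n) (XX n d k) 341 530 z1 z2) :
    E * (sR n : ℝ) ^ j / Nk n d k ^ 2 ≤ c * rF n d k := by
  have hs := sR_pos hσ
  rw [div_le_iff₀ (by positivity), rF_Em]
  have e1 : (sR n : ℝ) ^ j = Em (LL n) (XX n d k) 341 530 (4 * j) (4 * j) :=
    sR_pow_Em hσ (by norm_num) j
  have e2 : Nk n d k ^ 2 = Em (LL n) (XX n d k) 341 530 2728 4240 := by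
    rw [NkF_Em hN, Em_pow]; norm_num
  calc E * (sR n : ℝ) ^ j ≤ (c * Em (LL n) (XX n d k) 341 530 z1 z2) * (sR n : ℝ) ^ j :=
        mul_le_mul_of_nonneg_right h (by positivity)
    _ = c * Em (LL n) (XX n d k) 341 530 1360 2116 * Nk n d k ^ 2 := by
        rw [e1, e2, mul_assoc, mul_assoc, Em_mul, Em_mul, hz1, hz2]
        congr 2 <;> ring

/-- `E s^j / N ≤ c rF` for `E ≤ c s^(-1-j) N²` -/
theorem div_le_rF (hσ : 2000 ≤ sR n) (hN : 0 < Nk n d k)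
    {E c : ℝ} (j : ℕ) {z1 z2 : ℤ} (hz1 : z1 = 4 * (681 - j)) (hz2 : z2 = 4 * (1059 - j))
    (h : E ≤ c * Em (LL n) (XX n d k) 341 530 z1 z2) :
    E * (sR n : ℝ) ^ j / Nk n d k ≤ c * rF n d k := by
  have hs := sR_pos hσ
  rw [div_le_iff₀ (by positivity), rF_Em]
  have e1 : (sR n : ℝ) ^ j = Em (LL n) (XX n d k) 341 530 (4 * j) (4 * j) :=
    sR_pow_Em hσ (by norm_num) j
  calc E * (sR n : ℝ) ^ j ≤ (c * Em (LL n) (XX n d k) 341 530 z1 z2) * (sR n : ℝ) ^ j :=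
        mul_le_mul_of_nonneg_right h (by positivity)
    _ = c * Em (LL n) (XX n d k) 341 530 1360 2116 * Nk n d k := by
        rw [e1, NkF_Em hN, mul_assoc, mul_assoc, Em_mul, Em_mul, hz1, hz2]
        congr 2 <;> ring

variable {ι : Type*} [Fintype ι] [DecidableEq ι] {F : Finset ι} {Z Zp Zm : Matrix ι ι ℝ} {ε : ℝ}
  {forb : ι → ι → Prop}

theorem four_le_NkF (hσ : 2000 ≤ sR n) (hk : k < k5 n d) : 4 ≤ Nk n d k := by
  have h1 := Nk_gt5 hk
  have h2 : (sR n : ℝ) ≤ (sR n : ℝ) ^ 341 := le_self_pow₀ (sR_one hσ) (by norm_num)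
  have := sR_ge hσ
  linarith

theorem card_adm_le_sq (hcard : (F.card : ℝ) = Nk n d k) :
    ((adm F forb Zp Zm).card : ℝ) ≤ Nk n d k ^ 2 := by
  have h1 := Finset.card_le_card (adm_subset F forb Zp Zm)
  rw [Finset.card_product] at h1
  have h2 : ((adm F forb Zp Zm).card : ℝ) ≤ (F.card : ℝ) * F.card := by exact_mod_cast h1
  rw [hcard] at h2
  linarith [sq (Nk n d k)]

/-! ### `T₂` -/

/-- `5 (errT + 2 ν² σ²)` -/
def eTF : Ex :=
  80 * (.v 0 * .v 2 * .v 3) + 140 * (.v 1 ^ 2 * .v 2 * .v 3) + 16 * .v 0 ^ 4 +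
    170 * (.v 4 ^ 2 * .v 0 ^ 2) + 40 * (.v 1 ^ 2 * .v 4 ^ 2 * .v 0) + 16 * .v 0 ^ 2 +
    170 * (.v 0 * .v 1 ^ 2 * .v 3) + 170 * (.v 1 ^ 4 * .v 3) + 110 * (.v 2 ^ 2 * .v 1 ^ 2) +
    120 * (.v 4 * .v 0 * .v 1 * .v 3) + 60 * (.v 0 ^ 2 * .v 1 ^ 2) +
    32 * (.v 3 * .v 1 * .v 4 * .v 0 ^ 2) + 20 * (.v 5 * .v 0 ^ 2) + 20 * (.v 6 * .v 4 ^ 2 * .v 0) +
    10 * (.v 3 ^ 2 * .v 1 ^ 2)

theorem eTF_ev : 5 * (errT (tF n d k) (sF n d k) (vF n d k) (nF n d k) (tF n d k) (GF n d k)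
      (mF n d k) + 2 * nF n d k ^ 2 * sF n d k ^ 2) = eTF.ev (rhoF n d k) := by
  simp only [eTF, Ex.ev_add, Ex.ev_mul, Ex.ev_pow, Ex.ev_ofNat, Ex.ev_v, rhoF, errT]
  push_cast
  ring

/-- **the rate of `T₂` in the final phase** -/
theorem rate_T2F (d : ℕ) : ∃ C : ℝ, ∀ (ι : Type) [Fintype ι] [DecidableEq ι] (n k : ℕ)
    (F : Finset ι) (Zp Zm : Matrix ι ι ℝ) (forb : ι → ι → Prop), 2000 ≤ sR n →
    EnvF n d k F Zp Zm forb → ∀ (ε : ℝ) (Z : Matrix ι ι ℝ), Sgn Zp Zm ε Z →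
    ∑ p ∈ adm F forb Zp Zm, (fT2F n d (k + 1) (upd Z p.1 p.2) - fT2F n d k Z) ≤
      C * rF n d k := by
  refine ⟨4 * (1 / 5 * eTF.cs (kapF d)), fun ι _ _ n k F Zp Zm forb hσ h ε Z hs => ?_⟩
  have hN := NkF_pos h.k_lt
  have R := rgF hσ h.k_ge h.k_lt
  have h1 := h.oneF hs
  have hA := h.admOK hσ hs
  have h2 := T2_drift h1.base h1.bds hA
  rw [nF_sq hN] at h2
  set E := errT (tF n d k) (sF n d k) (vF n d k) (nF n d k) (tF n d k) (GF n d k) (mF n d k) +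
    2 * nF n d k ^ 2 * sF n d k ^ 2 with hE
  have h3 : 2 * Nk n d k * ∑ a, Z a a ^ 2 ≤ 2 * nF n d k ^ 2 * sF n d k ^ 2 := by
    rw [nF_sq hN]
    exact mul_le_mul_of_nonneg_left h1.bds.S (by linarith)
  have hE0 : 0 ≤ E := by
    have := Ex.ev_nonneg (rhoF_nonneg n d k) eTF
    rw [← eTF_ev] at this
    linarith
  have h4 := lin_rate_sq (adm F forb Zp Zm) (fun p => (upd Z p.1 p.2 ^ 2).trace - 1)
    (P := (Z ^ 2).trace - 1) (E := E) (N := Nk n d k) (s := (sR n : ℝ) ^ 683)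
    (four_le_NkF hσ h.k_lt) (by positivity) (by linarith [h1.T2_ge]) (card_adm_le_sq h.card) hE0
    (by
      have e1 : ∑ p ∈ adm F forb Zp Zm, ((upd Z p.1 p.2 ^ 2).trace - 1 - ((Z ^ 2).trace - 1)) =
          ∑ p ∈ adm F forb Zp Zm, ((upd Z p.1 p.2 ^ 2).trace - (Z ^ 2).trace) :=
        Finset.sum_congr rfl fun p _ => by ring
      rw [e1]
      linarith)
  have h5 : E ≤ (1 / 5 * eTF.cs (kapF d)) * Em (LL n) (XX n d k) 341 530 1356 3624 := by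
    have := boundF R eTF (z1 := 1356) (z2 := 3624) (by decide) (by decide)
    rw [← eTF_ev] at this
    linarith
  have h6 := div_sq_le_rF hσ hN 683 (by norm_num) (by norm_num) h5
  unfold fT2F
  rw [Nk_succ]
  linarith

/-! ### `S₁` -/

/-- `5 errS` -/
def eSF : Ex :=
  10 * (.v 5 * .v 1 ^ 2) + 70 * (.v 0 * .v 1 ^ 2 * .v 3) + 70 * (.v 1 ^ 4 * .v 3) +
    20 * (.v 1 * .v 3) + 20 * (.v 7 * (.v 1 * .v 2)) +
    (40 * .v 0 + 40 * .v 1 ^ 2 + 32 * (.v 1 * .v 3)) * (.v 1 * .v 2) +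
    (130 + 110 * .v 1 ^ 2) * .v 2 ^ 2

theorem eSF_ev : 5 * errS (tF n d k) (sF n d k) (vF n d k) (nF n d k) (GF n d k) (LF n d k) =
    eSF.ev (rhoF n d k) := by
  simp only [eSF, Ex.ev_add, Ex.ev_mul, Ex.ev_pow, Ex.ev_ofNat, Ex.ev_v, rhoF, errS]
  push_cast
  ring

/-- the next value of `S₁` -/
theorem Sd_upd (h : ZBase F Z) {a b : ι} :
    Sd ((F.erase a).erase b) (upd Z a b) = ∑ c, upd Z a b c c ^ 2 := by
  unfold Sd
  refine Finset.sum_subset (Finset.subset_univ _) fun c _ hc => ?_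
  have : upd Z a b c c = 0 := by
    rw [Finset.mem_erase, Finset.mem_erase] at hc
    unfold upd
    simp only [Matrix.of_apply]
    by_cases h1 : c = a ∨ c = b ∨ c = a ∨ c = b
    · rw [if_pos h1]
    · rw [if_neg h1]
      have h2 : c ∉ F := by tauto
      rw [h.supp c c h2, h.supp c a h2, h.supp c b h2]
      ring
  rw [this]; norm_num

theorem Sd_eq (h : ZBase F Z) : Sd F Z = ∑ c, Z c c ^ 2 := by
  unfold Sd
  refine Finset.sum_subset (Finset.subset_univ F) fun x _ hx => ?_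
  rw [h.supp x x hx]; norm_num

/-- **the rate of `S₁` in the final phase** -/
theorem rate_SF (d : ℕ) : ∃ C : ℝ, ∀ (ι : Type) [Fintype ι] [DecidableEq ι] (n k : ℕ)
    (F : Finset ι) (Zp Zm : Matrix ι ι ℝ) (forb : ι → ι → Prop), 2000 ≤ sR n →
    EnvF n d k F Zp Zm forb → ∀ (ε : ℝ) (Z : Matrix ι ι ℝ), Sgn Zp Zm ε Z →
    ∑ p ∈ adm F forb Zp Zm, (fSF n d (k + 1) ((F.erase p.1).erase p.2) (upd Z p.1 p.2) -
      fSF n d k F Z) ≤ C * rF n d k := by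
  refine ⟨2 * (1 / 5 * eSF.cs (kapF d)), fun ι _ _ n k F Zp Zm forb hσ h ε Z hs => ?_⟩
  have hN := NkF_pos h.k_lt
  have R := rgF hσ h.k_ge h.k_lt
  have h1 := h.oneF hs
  have hA := h.admOK hσ hs
  have h2 := S1_drift h1.base h1.bds hA
  rw [nF_sq hN] at h2
  set E := errS (tF n d k) (sF n d k) (vF n d k) (nF n d k) (GF n d k) (LF n d k) with hE
  have hE0 : 0 ≤ E := by
    have := Ex.ev_nonneg (rhoF_nonneg n d k) eSF
    rw [← eSF_ev] at this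
    linarith
  have h4 := lin_rate_one (adm F forb Zp Zm) (fun p => ∑ c, upd Z p.1 p.2 c c ^ 2)
    (P := ∑ c, Z c c ^ 2) (E := E) (N := Nk n d k) (s := (sR n : ℝ) ^ 540)
    (four_le_NkF hσ h.k_lt) (by positivity) (Finset.sum_nonneg fun _ _ => sq_nonneg _)
    (card_adm_le_sq h.card) hE0 h2
  have h5 : E ≤ (1 / 5 * eSF.cs (kapF d)) * Em (LL n) (XX n d k) 341 530 564 2076 := by
    have := boundF R eSF (z1 := 564) (z2 := 2076) (by decide) (by decide)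
    rw [← eSF_ev] at this
    linarith
  have h6 := div_le_rF hσ hN 540 (by norm_num) (by norm_num) h5
  unfold fSF
  rw [Nk_succ]
  have e1 : ∑ p ∈ adm F forb Zp Zm, (Sd ((F.erase p.1).erase p.2) (upd Z p.1 p.2) *
      (sR n : ℝ) ^ 540 / (Nk n d k - 2) - Sd F Z * (sR n : ℝ) ^ 540 / Nk n d k) =
      ∑ p ∈ adm F forb Zp Zm, ((∑ c, upd Z p.1 p.2 c c ^ 2) *
      (sR n : ℝ) ^ 540 / (Nk n d k - 2) - (∑ c, Z c c ^ 2) * (sR n : ℝ) ^ 540 / Nk n d k) := by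
    refine Finset.sum_congr rfl fun p _ => ?_
    rw [Sd_upd h1.base, Sd_eq h1.base]
  rw [e1]
  linarith

end Vale.Agent.P049.TS.Asm
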