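import Vale.Agent.P049.TS.Asm.StepA

/-!
The rate of `W = tr Z₊² Z₋²` in the phase I from its drift: the sign facts for
`κ = tr Z₊ Z₋`, `e = tr Z₊² Z₋`, `e' = tr Z₋² Z₊` and the bookkeeping of the scale `σ^60 N`.
-/

set_option linter.unusedSectionVars false
set_option exponentiation.threshold 3000

namespace Vale.Agent.P049.TS.Asm

open Matrix Finset

variable {n d k : ℕ}
variable {ι : Type*} [Fintype ι] [DecidableEq ι]
variable {F : Finset ι} {Zp Zm : Matrix ι ι ℝ} {forb : ι → ι → Prop}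

theorem k1_lt (h : EnvA n d k F Zp Zm forb) (hk : k < k1 n d) (hσ : 1 ≤ sR n) :
    (sR n : ℝ) ^ 802 < Nk n d k := Nk_gt1 hk

theorem mu_sq_le_half (hd : 3 ≤ d) : ((√((d : ℝ) - 1))⁻¹) ^ 2 ≤ 1 / 2 := by
  obtain ⟨h0, h1, h2⟩ := mu_facts hd
  have hd' : (3 : ℝ) ≤ d := by exact_mod_cast hd
  nlinarith [sq_nonneg ((√((d : ℝ) - 1))⁻¹)]

/-- `κ = tr Z₊ Z₋ ≤ N / 2 + 3 σ^377` -/
theorem kappa_le (h : EnvA n d k F Zp Zm forb) (hσ : 2000 ≤ sR n) :
    (Zp * Zm).trace ≤ Nk n d k / 2 + 3 * (sR n : ℝ) ^ 377 := by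
  have hs1 := sR_one hσ
  have hN := Nk_pos (by omega) h.k_lt
  have h1 := h.p.sg.trace_mul_le h.m.sg
  rw [h.card] at h1
  obtain ⟨m0, m1, -⟩ := mu_facts h.d3
  have m2 := mu_sq_le_half h.d3
  have ht := t1_nonpos hσ h.d3 k
  have a1 := (abs_le.1 h.p.d1).2
  have a2 := (abs_le.1 h.m.d1).2
  have hp1 : (1 : ℝ) ≤ (sR n : ℝ) ^ 377 := one_le_pow₀ hs1
  generalize (√((d : ℝ) - 1))⁻¹ = m at *
  have a3 : Zp.trace - Zm.trace ≤ 2 * (sR n : ℝ) ^ 377 := by linarith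
  have a4 : m * (Zp.trace - Zm.trace) ≤ 2 * (sR n : ℝ) ^ 377 := by
    calc m * (Zp.trace - Zm.trace) ≤ m * (2 * (sR n : ℝ) ^ 377) :=
          mul_le_mul_of_nonneg_left a3 m0.le
      _ ≤ 1 * (2 * (sR n : ℝ) ^ 377) := mul_le_mul_of_nonneg_right m1.le (by positivity)
      _ = _ := one_mul _
  have a5 : m ^ 2 * Nk n d k ≤ 1 / 2 * Nk n d k := mul_le_mul_of_nonneg_right m2 hN.le
  have a6 : 0 ≤ m ^ 2 := sq_nonneg m
  linarith

theorem frob_mul_le_cP (h : EnvA n d k F Zp Zm forb) (hk : k < k1 n d) :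
    Mat.frob (Zp * Zm) ≤ cP n d k ^ 2 := by
  rw [Tilt.frob_mul_eq_W h.p.symm h.m.symm]
  exact h.Wc hk

/-- `|tr Z₊² Z₋| ≤ t cw`, `|tr Z₋² Z₊| ≤ t cw` -/
theorem abs_e_le (h : EnvA n d k F Zp Zm forb) (hk : k < k1 n d) :
    |(Zm * Zp ^ 2).trace| ≤ tP n d k * cP n d k ∧ |(Zp * Zm ^ 2).trace| ≤ tP n d k * cP n d k := by
  have hc := frob_mul_le_cP h hk
  have ht := tP_nonneg n d k
  have hc0 := cP_nonneg n d k
  have key : ∀ {A B : Matrix ι ι ℝ}, Mat.frob A ≤ tP n d k ^ 2 → Mat.frob B ≤ cP n d k ^ 2 →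
      |(A * B).trace| ≤ tP n d k * cP n d k := by
    intro A B hA hB
    have h1 := Mat.trace_mul_sq_le A B
    have h2 : Mat.frob A * Mat.frob B ≤ tP n d k ^ 2 * cP n d k ^ 2 :=
      mul_le_mul hA hB (Mat.frob_nonneg _) (by positivity)
    apply abs_le_of_sq_le_sq _ (by positivity)
    rw [mul_pow]
    linarith
  have fp : Mat.frob Zp ≤ tP n d k ^ 2 := by
    rw [Mat.frob_eq_trace_sq h.p.symm]; exact h.p.T2
  have fm : Mat.frob Zm ≤ tP n d k ^ 2 := by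
    rw [Mat.frob_eq_trace_sq h.m.symm]; exact h.m.T2
  constructor
  · have e : (Zm * Zp ^ 2).trace = (Zp * (Zp * Zm)).trace := by
      rw [Matrix.trace_mul_comm, sq, Matrix.mul_assoc]
    rw [e]
    exact key fp hc
  · have e : (Zp * Zm ^ 2).trace = (Zm * (Zp * Zm)).trace := by
      rw [sq, ← Matrix.mul_assoc, Matrix.trace_mul_comm]
    rw [e]
    exact key fm hc

/-- `e e' ≤ 5 σ^30 N²` -/
theorem ee_le (h : EnvA n d k F Zp Zm forb) (hk : k < k1 n d) (hσ : 2000 ≤ sR n) :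
    (Zm * Zp ^ 2).trace * (Zp * Zm ^ 2).trace ≤ 6 * (sR n : ℝ) ^ 30 * Nk n d k ^ 2 := by
  have hs1 := sR_one hσ
  have hN := Nk_pos (by omega) h.k_lt
  have hN4 := four_le_Nk hσ h.k_lt
  obtain ⟨m0, m1, -⟩ := mu_facts h.d3
  have b1 := h.p.sg.trace_mul_sq_mp h.m.sg
  have b2 := h.p.sg.trace_mul_sq_pm h.m.sg
  obtain ⟨c1, c2⟩ := abs_e_le h hk
  have t1 := h.p.T2
  have t2 := h.m.T2
  rw [tP_sq hN] at t1 t2
  have q1 : 0 ≤ (Zp ^ 2).trace := by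
    rw [← Mat.frob_eq_trace_sq h.p.symm]; exact Mat.frob_nonneg _
  have q2 : 0 ≤ (Zm ^ 2).trace := by
    rw [← Mat.frob_eq_trace_sq h.m.symm]; exact Mat.frob_nonneg _
  generalize (√((d : ℝ) - 1))⁻¹ = m at *
  have e1 : (Zm * Zp ^ 2).trace ≤ 3 * Nk n d k := by nlinarith
  have e2 : -(3 * Nk n d k) ≤ (Zp * Zm ^ 2).trace := by nlinarith
  have htc : tP n d k * cP n d k ≤ 2 * (sR n : ℝ) ^ 30 * Nk n d k := by
    apply le_of_sq_le_sq _ (by positivity)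
    rw [mul_pow, tP_sq hN, cP_sq hN (by omega), mul_pow, mul_pow, ← pow_mul]
    have : 0 ≤ (sR n : ℝ) ^ 60 * (Nk n d k) ^ 2 := by positivity
    norm_num
    nlinarith
  have f1 := (abs_le.1 (c1.trans htc))
  have f2 := (abs_le.1 (c2.trans htc))
  have hx : 0 ≤ (sR n : ℝ) ^ 30 * Nk n d k := by positivity
  generalize (Zm * Zp ^ 2).trace = x at *
  generalize (Zp * Zm ^ 2).trace = y at *
  have hgoal : 6 * (sR n : ℝ) ^ 30 * Nk n d k ^ 2 =
      (3 * Nk n d k) * (2 * (sR n : ℝ) ^ 30 * Nk n d k) := by ring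
  rw [hgoal]
  rcases le_total 0 x with h0 | h0
  · rcases le_total 0 y with h1 | h1
    · exact mul_le_mul e1 f2.2 h1 (by linarith)
    · have : x * y ≤ 0 := mul_nonpos_of_nonneg_of_nonpos h0 h1
      have : 0 ≤ (3 * Nk n d k) * (2 * (sR n : ℝ) ^ 30 * Nk n d k) := by positivity
      linarith
  · rcases le_total 0 y with h1 | h1
    · have : x * y ≤ 0 := mul_nonpos_of_nonpos_of_nonneg h0 h1
      have : 0 ≤ (3 * Nk n d k) * (2 * (sR n : ℝ) ^ 30 * Nk n d k) := by positivity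
      linarith
    · have e : x * y = (-y) * (-x) := by ring
      rw [e]
      exact mul_le_mul (by linarith) (by linarith [f1.1]) (by linarith) (by linarith)

/-- **the rate of `W` from the drift of `W`**, phase I.  `M` bounds the drift. -/
theorem fW_of_drift (h : EnvA n d k F Zp Zm forb) (hk : k < k1 n d) (hσ : 2000 ≤ sR n) {M C : ℝ}
    (hM : ∑ p ∈ adm F forb Zp Zm, (1 - hA n d k F forb Zp Zm p.1 p.2) *
      ((upd Zp p.1 p.2 ^ 2 * upd Zm p.1 p.2 ^ 2).trace - (Zp ^ 2 * Zm ^ 2).trace) ≤ M)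
    (hMC : M + 2 * (Zp ^ 2 * Zm ^ 2).trace * (Nk n d k + ((d : ℝ) + 25) ^ 2 + HP n d k) ≤
      C * ((sR n : ℝ) ^ 59 * Nk n d k ^ 2)) (hC : 0 ≤ C) :
    ∑ p ∈ adm F forb Zp Zm, (1 - hA n d k F forb Zp Zm p.1 p.2) *
      (fW n d (k + 1) (upd Zp p.1 p.2) (upd Zm p.1 p.2) - fW n d k Zp Zm) ≤
      2 * C * rT n d k := by
  have hs0 := sR_pos hσ
  have hN := Nk_pos (by omega) h.k_lt
  have hN4 := four_le_Nk hσ h.k_lt
  have hW := trW_nonneg h.p.symm h.m.symm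
  set A := adm F forb Zp Zm with hA'
  set om : ι × ι → ℝ := fun p => 1 - hA n d k F forb Zp Zm p.1 p.2 with hom
  set N := Nk n d k with hNd
  set P := (Zp ^ 2 * Zm ^ 2).trace with hP
  set P' : ι × ι → ℝ := fun p => (upd Zp p.1 p.2 ^ 2 * upd Zm p.1 p.2 ^ 2).trace with hP'
  have om0 : ∀ p, 0 ≤ om p := fun p => weight_nonneg h p.1 p.2
  have hc : (0 : ℝ) < (sR n : ℝ) ^ 60 := by positivity
  have hN2 : 0 < N - 2 := by linarith
  have hS : ∑ p ∈ A, om p ≤ N ^ 2 + ((d : ℝ) + 25) ^ 2 * N + N * HP n d k := by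
    have := h.abs_sum_weight_sub_le (by omega : 1 ≤ sR n)
    rw [eP_sq hN] at this
    have := (abs_le.1 this).2
    linarith
  have h1 : ∀ p ∈ A, om p * (fW n d (k + 1) (upd Zp p.1 p.2) (upd Zm p.1 p.2) - fW n d k Zp Zm) ≤
      om p * (P' p - P) / ((sR n : ℝ) ^ 60 * (N - 2)) +
        om p * (2 * P / ((sR n : ℝ) ^ 60 * (N * (N - 2)))) := by
    intro p _
    have h2 : fW n d (k + 1) (upd Zp p.1 p.2) (upd Zm p.1 p.2) ≤
        P' p / ((sR n : ℝ) ^ 60 * (N - 2)) := by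
      have h3 : 0 ≤ P' p := trW_nonneg (upd_isSymm h.p.symm) (upd_isSymm h.m.symm)
      unfold fW
      rw [Nk_succ]
      split_ifs
      · exact le_rfl
      · positivity
    have h3 : fW n d k Zp Zm = P / ((sR n : ℝ) ^ 60 * N) := by
      unfold fW
      rw [if_pos hk]
    rw [h3]
    calc om p * (fW n d (k + 1) (upd Zp p.1 p.2) (upd Zm p.1 p.2) - P / ((sR n : ℝ) ^ 60 * N))
        ≤ om p * (P' p / ((sR n : ℝ) ^ 60 * (N - 2)) - P / ((sR n : ℝ) ^ 60 * N)) :=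
          mul_le_mul_of_nonneg_left (by linarith) (om0 p)
      _ = _ := by
          field_simp
          ring
  refine (Finset.sum_le_sum h1).trans ?_
  rw [Finset.sum_add_distrib, ← Finset.sum_div, ← Finset.sum_mul, rT_eq (by omega) hN]
  have h4 : (∑ p ∈ A, om p * (P' p - P)) / ((sR n : ℝ) ^ 60 * (N - 2)) ≤
      M / ((sR n : ℝ) ^ 60 * (N - 2)) := div_le_div_of_nonneg_right hM (by positivity)
  have h5 : (∑ p ∈ A, om p) * (2 * P / ((sR n : ℝ) ^ 60 * (N * (N - 2)))) ≤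
      (N ^ 2 + ((d : ℝ) + 25) ^ 2 * N + N * HP n d k) *
        (2 * P / ((sR n : ℝ) ^ 60 * (N * (N - 2)))) :=
    mul_le_mul_of_nonneg_right hS (by positivity)
  have h6 : (N ^ 2 + ((d : ℝ) + 25) ^ 2 * N + N * HP n d k) *
        (2 * P / ((sR n : ℝ) ^ 60 * (N * (N - 2)))) =
      2 * P * (N + ((d : ℝ) + 25) ^ 2 + HP n d k) / ((sR n : ℝ) ^ 60 * (N - 2)) := by
    field_simp
  have h7 : (M + 2 * P * (N + ((d : ℝ) + 25) ^ 2 + HP n d k)) / ((sR n : ℝ) ^ 60 * (N - 2)) ≤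
      C * ((sR n : ℝ) ^ 59 * N ^ 2) / ((sR n : ℝ) ^ 60 * (N - 2)) :=
    div_le_div_of_nonneg_right hMC (by positivity)
  have h8 : C * ((sR n : ℝ) ^ 59 * N ^ 2) / ((sR n : ℝ) ^ 60 * (N - 2)) ≤
      2 * C * (N / sR n) := by
    rw [div_le_iff₀ (by positivity)]
    have e : 2 * C * (N / sR n) * ((sR n : ℝ) ^ 60 * (N - 2)) =
        C * ((sR n : ℝ) ^ 59 * (N * (2 * (N - 2)))) := by
      have e60 : (sR n : ℝ) ^ 60 = sR n * (sR n : ℝ) ^ 59 := by rw [← pow_succ']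
      rw [e60]
      field_simp
    rw [e]
    have : N ^ 2 ≤ N * (2 * (N - 2)) := by nlinarith
    gcongr
  have h9 : M / ((sR n : ℝ) ^ 60 * (N - 2)) +
      2 * P * (N + ((d : ℝ) + 25) ^ 2 + HP n d k) / ((sR n : ℝ) ^ 60 * (N - 2)) =
      (M + 2 * P * (N + ((d : ℝ) + 25) ^ 2 + HP n d k)) / ((sR n : ℝ) ^ 60 * (N - 2)) := by
    rw [add_div]
  linarith

end Vale.Agent.P049.TS.Asm
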