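import Vale.Agent.P049.TS.Asm.ErrW

/-!
The rate of `W = tr Z₊² Z₋²`, phases I and II, from the drift inequality (`W/Drift`).
-/

set_option linter.unusedSectionVars false
set_option exponentiation.threshold 3000

namespace Vale.Agent.P049.TS.Asm.RW

open Matrix Finset Vale.Agent.P049.TS.Asm Vale.Agent.P049.TS.Wd

variable {n d k : ℕ}

/-- `ν = √N` -/
noncomputable def nP (n d k : ℕ) : ℝ := mo (LL n) (XX n d k) 0 (1 / 2)
/-- `τ ≥ |T₁|` -/
noncomputable def τP (n d : ℕ) : ℝ := 5 * (d : ℝ) ^ 2 * (sR n : ℝ) ^ 384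
/-- excluded partners -/
noncomputable def GP (n d k : ℕ) : ℝ :=
  1 + (d : ℝ) * (d + 1) + 128 * (1 + vP n d k) + 128 * sP n d k ^ 4
/-- rows of the tilt -/
noncomputable def HrP (n d k : ℕ) : ℝ := 4 * lam n * nP n d k
/-- operator norm of the tilt -/
noncomputable def rhP (n d k : ℕ) : ℝ :=
  lam n * (2 * bP n d k + 9 / 4 * vP n d k) + Tilt.rbs (lam n) ((d : ℝ) * (d + 1)) (sP n d k)

theorem nP_nonneg (n d k : ℕ) : 0 ≤ nP n d k := mo_nonneg _ _ _ _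

theorem nP_sq (h : 0 < Nk n d k) : nP n d k ^ 2 = Nk n d k := by
  unfold nP
  rw [mo_pow, Nk_eq_mo h (LL n)]
  norm_num

/-- constants -/
noncomputable def κW (d : ℕ) : ℕ → ℝ := env 1 2 1 1 2 1 (d + 25) ((d : ℝ) * (d + 1) + 385) 4
  (300 + 4 * ((d : ℝ) * (d + 1))) 1 (5 * (d : ℝ) ^ 2) 1 1 6 6 1 4 (((d : ℝ) + 25) ^ 2) 1

theorem κW_nonneg (d : ℕ) : ∀ i, 0 ≤ κW d i := by
  intro i
  unfold κW env
  split <;> positivity

/-- the environment of the phase I -/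
noncomputable def ρW (n d k : ℕ) : ℕ → ℝ :=
  env (bP n d k) (tP n d k) (sP n d k) (vP n d k) (wP n d k) (cP n d k) (eP n d k) (GP n d k)
    (HrP n d k) (rhP n d k) (nP n d k) (τP n d) (sR n : ℝ)⁻¹ (sR n : ℝ)
    (cP n d k + 2 * tP n d k + nP n d k) (2 * wP n d k + 2 * nP n d k) ((sR n : ℝ) ^ 683)
    (HP n d k) (((d : ℝ) + 25) ^ 2) ((sR n : ℝ) ^ 30)

/-- `Em` in the phase I -/
noncomputable abbrev E1 (n d k : ℕ) (y1 y2 : ℤ) : ℝ := Em (LL n) (XX n d k) 802 1001 y1 y2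

theorem E1_pos (n d k : ℕ) (y1 y2 : ℤ) : 0 < E1 n d k y1 y2 := Em_pos _ _ _ _ _ _

theorem nP_E (n d k : ℕ) : nP n d k = E1 n d k 1604 2002 := moN_I

theorem one_le_E (R : Rg (LL n) (XX n d k) 802 1001) {y1 y2 : ℤ} (h1 : 0 ≤ y1) (h2 : 0 ≤ y2) :
    1 ≤ E1 n d k y1 y2 := by
  have := Em_le R h1 h2
  rwa [Em_zero] at this

theorem GP_le (R : Rg (LL n) (XX n d k) 802 1001) (hk : k < k1 n d) :
    GP n d k ≤ ((d : ℝ) * (d + 1) + 385) * E1 n d k 1220 1220 := by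
  have h1 := one_le_E R (show (0 : ℤ) ≤ 1220 by norm_num) (show (0 : ℤ) ≤ 1220 by norm_num)
  have h2 : sP n d k ^ 4 ≤ E1 n d k 1220 1220 := by
    rw [sP_I, Em_pow]
    exact Em_le R (by norm_num) (by norm_num)
  unfold GP
  rw [vP_I hk]
  have h3 : 0 ≤ (d : ℝ) * (d + 1) := by positivity
  nlinarith

theorem HrP_le (hσ : 2000 ≤ sR n) : HrP n d k ≤ 4 * E1 n d k 2348 2746 := by
  unfold HrP
  rw [nP_E, lam_I (d := d) (k := k) hσ, mul_assoc, Em_mul]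
  norm_num

theorem rhP_le (hσ : 2000 ≤ sR n) (R : Rg (LL n) (XX n d k) 802 1001) (hk : k < k1 n d) :
    rhP n d k ≤ (300 + 4 * ((d : ℝ) * (d + 1))) * E1 n d k 1964 1964 := by
  have h3 : 0 ≤ (d : ℝ) * (d + 1) := by positivity
  have e1 : lam n * bP n d k ≤ E1 n d k 1964 1964 := by
    rw [bP_I, lam_I (d := d) (k := k) hσ, Em_mul]
    exact Em_le R (by norm_num) (by norm_num)
  have e2 : lam n * vP n d k ≤ E1 n d k 1964 1964 := by
    rw [vP_I hk, lam_I (d := d) (k := k) hσ, Em_mul]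
    exact Em_le R (by norm_num) (by norm_num)
  have e3 : lam n ^ 2 ≤ E1 n d k 1964 1964 := by
    rw [lam_I (d := d) (k := k) hσ, Em_pow]
    exact Em_le R (by norm_num) (by norm_num)
  have e4 : lam n ≤ E1 n d k 1964 1964 := by
    rw [lam_I (d := d) (k := k) hσ]
    exact Em_le R (by norm_num) (by norm_num)
  have e5 : sP n d k ^ 2 * lam n ≤ E1 n d k 1964 1964 := by
    rw [sP_I, lam_I (d := d) (k := k) hσ, Em_pow, Em_mul]
    exact Em_le R (by norm_num) (by norm_num)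
  have e6 := E1_pos n d k 1964 1964
  unfold rhP Tilt.rbs
  nlinarith

theorem τP_E (hσ : 2000 ≤ sR n) : τP n d = 5 * (d : ℝ) ^ 2 * E1 n d k 1536 1536 := by
  unfold τP
  rw [sR_pow_Em hσ (X := XX n d k) (show (802 : ℝ) < 1001 by norm_num) 384]
  norm_num

theorem sR_E (hσ : 2000 ≤ sR n) : (sR n : ℝ) = E1 n d k 4 4 := by
  have h := sR_pow_Em hσ (X := XX n d k) (show (802 : ℝ) < 1001 by norm_num) 1
  rw [pow_one] at h
  rw [h]
  norm_num

theorem sR_inv_E (hσ : 2000 ≤ sR n) : (sR n : ℝ)⁻¹ = E1 n d k (-4) (-4) := by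
  apply inv_eq_of_mul_eq_one_right
  rw [sR_E (d := d) (k := k) hσ, Em_mul]
  norm_num
  exact Em_zero _ _ _ _

theorem xW_le (R : Rg (LL n) (XX n d k) 802 1001) :
    cP n d k + 2 * tP n d k + nP n d k ≤ 6 * E1 n d k 1724 2122 := by
  have h1 := tP_I (n := n) (d := d) (k := k)
  have h2 : E1 n d k 1604 2002 ≤ E1 n d k 1724 2122 := Em_le R (by norm_num) (by norm_num)
  rw [cP_I, nP_E]
  linarith

theorem xdW_le : 2 * wP n d k + 2 * nP n d k ≤ 6 * E1 n d k 1604 2002 := by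
  rw [wP_I, nP_E]
  linarith

theorem ρW_le (hσ : 2000 ≤ sR n) (R : Rg (LL n) (XX n d k) 802 1001) (hk : k < k1 n d) :
    ∀ i : ℕ, ρW n d k i ≤ κW d i * E1 n d k (z1 i) (z2 i)
  | 0 => show bP n d k ≤ 1 * E1 n d k 1201 1002 by rw [bP_I, one_mul]
  | 1 => show tP n d k ≤ 2 * E1 n d k 1604 2002 from tP_I
  | 2 => show sP n d k ≤ 1 * E1 n d k 160 160 by rw [sP_I, one_mul]
  | 3 => show vP n d k ≤ 1 * E1 n d k 1220 1220 by rw [vP_I hk, one_mul]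
  | 4 => show wP n d k ≤ 2 * E1 n d k 1604 2002 from le_of_eq wP_I
  | 5 => show cP n d k ≤ 1 * E1 n d k 1724 2122 by rw [cP_I, one_mul]
  | 6 => show eP n d k ≤ (d + 25) * E1 n d k 1604 2002 from le_of_eq eP_I
  | 7 => show GP n d k ≤ ((d : ℝ) * (d + 1) + 385) * E1 n d k 1220 1220 from GP_le R hk
  | 8 => show HrP n d k ≤ 4 * E1 n d k 2348 2746 from HrP_le hσ
  | 9 => show rhP n d k ≤ (300 + 4 * ((d : ℝ) * (d + 1))) * E1 n d k 1964 1964 from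
      rhP_le hσ R hk
  | 10 => show nP n d k ≤ 1 * E1 n d k 1604 2002 by rw [nP_E, one_mul]
  | 11 => show τP n d ≤ 5 * (d : ℝ) ^ 2 * E1 n d k 1536 1536 from le_of_eq (τP_E hσ)
  | 12 => show (sR n : ℝ)⁻¹ ≤ 1 * E1 n d k (-4) (-4) by rw [one_mul]; exact le_of_eq (sR_inv_E hσ)
  | 13 => show (sR n : ℝ) ≤ 1 * E1 n d k 4 4 by rw [one_mul]; exact le_of_eq (sR_E hσ)
  | 14 => show cP n d k + 2 * tP n d k + nP n d k ≤ 6 * E1 n d k 1724 2122 from xW_le R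
  | 15 => show 2 * wP n d k + 2 * nP n d k ≤ 6 * E1 n d k 1604 2002 from xdW_le
  | 16 => show (sR n : ℝ) ^ 683 ≤ 1 * E1 n d k 2732 2732 by
      rw [one_mul]; exact le_of_eq (sR_pow_Em hσ (by norm_num) 683)
  | 17 => show HP n d k ≤ 4 * E1 n d k 2348 2746 from HP_I hσ hk
  | 18 => show ((d : ℝ) + 25) ^ 2 ≤
      ((d : ℝ) + 25) ^ 2 * Em (LL n) (XX n d k) 802 1001 0 0 by rw [Em_zero, mul_one]
  | 19 => show (sR n : ℝ) ^ 30 ≤ 1 * E1 n d k 120 120 by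
      rw [one_mul]; exact le_of_eq (sR_pow_Em hσ (by norm_num) 30)
  | (i + 20) => show (0 : ℝ) ≤ 0 * E1 n d k 0 0 by rw [zero_mul]

theorem GP_nonneg (n d k : ℕ) : 0 ≤ GP n d k := by
  unfold GP
  have := vP_nonneg n d k
  positivity

theorem lam_nn (n : ℕ) : 0 ≤ lam n := by unfold lam; positivity

theorem rhP_nonneg (n d k : ℕ) : 0 ≤ rhP n d k := by
  have h1 := lam_nn n
  have h2 := bP_nonneg n d k
  have h3 := vP_nonneg n d k
  have h4 : (0 : ℝ) ≤ (d : ℝ) * (d + 1) := by positivity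
  unfold rhP Tilt.rbs
  generalize (d : ℝ) * (d + 1) = D at *
  generalize sP n d k = s at *
  generalize lam n = l at *
  generalize bP n d k = b at *
  generalize vP n d k = v at *
  positivity

theorem ρW_nonneg (n d k : ℕ) : ∀ i, 0 ≤ ρW n d k i
  | 0 => bP_nonneg n d k
  | 1 => tP_nonneg n d k
  | 2 => sP_nonneg n d k
  | 3 => vP_nonneg n d k
  | 4 => wP_nonneg n d k
  | 5 => cP_nonneg n d k
  | 6 => eP_nonneg n d k
  | 7 => GP_nonneg n d k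
  | 8 => mul_nonneg (mul_nonneg (by norm_num) (lam_nn n)) (nP_nonneg n d k)
  | 9 => rhP_nonneg n d k
  | 10 => nP_nonneg n d k
  | 11 => show 0 ≤ 5 * (d : ℝ) ^ 2 * (sR n : ℝ) ^ 384 by positivity
  | 12 => show 0 ≤ (sR n : ℝ)⁻¹ by positivity
  | 13 => show 0 ≤ (sR n : ℝ) by positivity
  | 14 => add_nonneg (add_nonneg (cP_nonneg n d k) (mul_nonneg (by norm_num) (tP_nonneg n d k)))
      (nP_nonneg n d k)
  | 15 => add_nonneg (mul_nonneg (by norm_num) (wP_nonneg n d k))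
      (mul_nonneg (by norm_num) (nP_nonneg n d k))
  | 16 => show 0 ≤ (sR n : ℝ) ^ 683 by positivity
  | 17 => HP_nonneg n d k
  | 18 => show 0 ≤ ((d : ℝ) + 25) ^ 2 by positivity
  | 19 => show 0 ≤ (sR n : ℝ) ^ 30 by positivity
  | (i + 20) => le_refl (0 : ℝ)

/-- **all errors together** -/
theorem err_le (hσ : 2000 ≤ sR n) (R : Rg (LL n) (XX n d k) 802 1001) (hk : k < k1 n d)
    (hN : 0 < Nk n d k) :
    errW (bP n d k) (tP n d k) (sP n d k) (vP n d k) (wP n d k) (cP n d k) (eP n d k) (GP n d k)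
      (HrP n d k) (rhP n d k) (nP n d k) (τP n d) (sR n : ℝ)⁻¹ (sR n : ℝ) +
      (16 * ((sR n : ℝ) ^ 683 * cP n d k ^ 2) + 2 * (cP n d k ^ 2 * (((d : ℝ) + 25) ^ 2 + HP n d k))
        + 40 * nP n d k ^ 4 + 24 * ((sR n : ℝ) ^ 30 * nP n d k ^ 4)
        + 8 * (tP n d k * cP n d k * τP n d) + 4 * τP n d ^ 2) ≤
      exW.cs (κW d) * ((sR n : ℝ) ^ 59 * Nk n d k ^ 2) := by
  have h1 := Ex.bound exW R z1 z2 exW_1 exW_2 (ρW_nonneg n d k) (κW_nonneg d) (ρW_le hσ R hk)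
  have h2 : exW.ev (ρW n d k) = _ := exW_ev (bP n d k) (tP n d k) (sP n d k) (vP n d k) (wP n d k)
    (cP n d k) (eP n d k) (GP n d k) (HrP n d k) (rhP n d k) (nP n d k) (τP n d) (sR n : ℝ)⁻¹
    (sR n : ℝ) ((sR n : ℝ) ^ 683) (HP n d k) (((d : ℝ) + 25) ^ 2) ((sR n : ℝ) ^ 30)
  rw [h2] at h1
  have h3 : (sR n : ℝ) ^ 59 * Nk n d k ^ 2 = Em (LL n) (XX n d k) 802 1001 6652 8244 := by
    rw [sR_pow_Em hσ (X := XX n d k) (show (802 : ℝ) < 1001 by norm_num) 59, Nk_I hN, Em_pow,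
      Em_mul]
    norm_num
  rw [h3]
  have h4 := Ex.ev_nonneg (ρW_nonneg n d k) exW
  rw [h2] at h4
  linarith

theorem csW_nonneg (d : ℕ) : 0 ≤ exW.cs (κW d) :=
  (Ex.ev_le (L := 1) (X := 1) (xl := 0) (xh := 2) ⟨by norm_num, by norm_num, by norm_num⟩
    (ρ := fun _ => 0) (κ := κW d) (y1 := fun _ => 0) (y2 := fun _ => 0) (fun _ => le_rfl)
    (fun i => mul_nonneg (κW_nonneg d i) (Em_pos _ _ _ _ _ _).le) (κW_nonneg d) exW).1

variable {ι : Type*} [Fintype ι] [DecidableEq ι]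
variable {F : Finset ι} {Zp Zm Z : Matrix ι ι ℝ} {forb : ι → ι → Prop} {ε : ℝ}

/-- `|T₁| ≤ 5 d² σ^384` -/
theorem abs_T1_leP (hσ : 2000 ≤ sR n) (hd : 3 ≤ d) (c : OneA n d k ε F Z) (hε : |ε| = 1) :
    |Z.trace| ≤ τP n d := by
  have h1 := c.d1
  have h2 := abs_t1_le (k := k) hσ hd
  have h3 : (sR n : ℝ) ^ 377 ≤ (sR n : ℝ) ^ 384 := pow_le_pow_right₀ (sR_one hσ) (by norm_num)
  have hd' : (3 : ℝ) ≤ d := by exact_mod_cast hd
  have h4 : (1 : ℝ) ≤ (d : ℝ) ^ 2 := by nlinarith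
  have h5 : (0 : ℝ) ≤ (sR n : ℝ) ^ 384 := by positivity
  have h6 : |ε * Z.trace| ≤ |ε * Z.trace - t1 n d k| + |t1 n d k| := by
    have := abs_add_le (ε * Z.trace - t1 n d k) (t1 n d k)
    simpa using this
  rw [abs_mul, hε, one_mul] at h6
  unfold τP
  nlinarith

/-- the main part -/
theorem main_le (h : EnvA n d k F Zp Zm forb) (hk : k < k1 n d) (hσ : 2000 ≤ sR n) :
    mainW (nP n d k ^ 2) (Zp * Zm).trace (Zp ^ 2).trace (Zm ^ 2).trace
      ((Zp ^ 2 * Zm).trace - Zp.trace) ((Zm ^ 2 * Zp).trace - Zm.trace)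
      (Zp ^ 2 * Zm ^ 2).trace +
      2 * (Zp ^ 2 * Zm ^ 2).trace * (Nk n d k + ((d : ℝ) + 25) ^ 2 + HP n d k) ≤
    16 * ((sR n : ℝ) ^ 683 * cP n d k ^ 2) + 2 * (cP n d k ^ 2 * (((d : ℝ) + 25) ^ 2 + HP n d k))
        + 40 * nP n d k ^ 4 + 24 * ((sR n : ℝ) ^ 30 * nP n d k ^ 4)
        + 8 * (tP n d k * cP n d k * τP n d) + 4 * τP n d ^ 2 := by
  have hN := Nk_pos (by omega) h.k_lt
  have hs1 := sR_one hσ
  have hW := trW_nonneg h.p.symm h.m.symm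
  have hWc := h.Wc hk
  have hκ := kappa_le h hσ
  have hee := ee_le h hk hσ
  obtain ⟨e1, e2⟩ := abs_e_le h hk
  have c1 : (Zp ^ 2 * Zm).trace = (Zm * Zp ^ 2).trace := Matrix.trace_mul_comm _ _
  have c2 : (Zm ^ 2 * Zp).trace = (Zp * Zm ^ 2).trace := Matrix.trace_mul_comm _ _
  have q1 : 0 ≤ (Zp ^ 2).trace := by
    rw [← Mat.frob_eq_trace_sq h.p.symm]; exact Mat.frob_nonneg _
  have q2 : 0 ≤ (Zm ^ 2).trace := by
    rw [← Mat.frob_eq_trace_sq h.m.symm]; exact Mat.frob_nonneg _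
  have a1 := abs_T1_leP hσ h.d3 h.p (by norm_num)
  have a2 := abs_T1_leP hσ h.d3 h.m (by norm_num)
  have t1 := h.p.T2
  have t2 := h.m.T2
  have hκ2 : |(Zp * Zm).trace| ≤ 2 * Nk n d k := by
    have k1 := Mat.trace_mul_sq_le Zp Zm
    rw [Mat.frob_eq_trace_sq h.p.symm, Mat.frob_eq_trace_sq h.m.symm] at k1
    have k2 : (Zp ^ 2).trace * (Zm ^ 2).trace ≤ tP n d k ^ 2 * tP n d k ^ 2 :=
      mul_le_mul t1 t2 q2 (sq_nonneg _)
    rw [tP_sq hN] at k2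
    apply abs_le_of_sq_le_sq _ (by positivity)
    linarith
  rw [tP_sq hN] at t1 t2
  have d1 := (abs_le.1 h.p.dD).2
  have d2 := (abs_le.1 h.m.dD).2
  rw [tD_of_le hk.le] at d1 d2
  have hp := HP_nonneg n d k
  have hσ3 : (sR n : ℝ) ^ 377 ≤ (sR n : ℝ) ^ 683 := pow_le_pow_right₀ hs1 (by norm_num)
  have hn2 := nP_sq hN
  have hn4 : nP n d k ^ 4 = Nk n d k ^ 2 := by rw [← hn2]; ring
  rw [hn4, hn2, c1, c2]
  unfold mainW
  have hs683 : (0 : ℝ) ≤ (sR n : ℝ) ^ 683 := by positivity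
  have hs377 : (0 : ℝ) ≤ (sR n : ℝ) ^ 377 := by positivity
  have hs30 : (0 : ℝ) ≤ (sR n : ℝ) ^ 30 := by positivity
  have ht0 := tP_nonneg n d k
  have hc0 := cP_nonneg n d k
  have hτ0 : 0 ≤ τP n d := by unfold τP; positivity
  generalize (Zp ^ 2 * Zm ^ 2).trace = W at *
  generalize (Zm * Zp ^ 2).trace = e at *
  generalize (Zp * Zm ^ 2).trace = e' at *
  generalize Zp.trace = a at *
  generalize Zm.trace = a' at *
  generalize (Zp * Zm).trace = κ at *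
  generalize (Zp ^ 2).trace = T at *
  generalize (Zm ^ 2).trace = T' at *
  generalize (sR n : ℝ) ^ 683 = u at *
  generalize (sR n : ℝ) ^ 377 = u' at *
  generalize (sR n : ℝ) ^ 30 = y at *
  generalize Nk n d k = N at *
  generalize HP n d k = hp' at *
  generalize cP n d k ^ 2 = c2' at *
  generalize τP n d = τ at *
  generalize tP n d k * cP n d k = tc at *
  -- the `W` terms
  have m1 : 2 * (T + T') * W ≤ (4 * N + 4 * u) * W := by
    refine mul_le_mul_of_nonneg_right ?_ hW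
    linarith
  have m2 : 2 * (T + T') * (N - 2 * κ) ≤ 40 * N ^ 2 := by
    have b1 : |N - 2 * κ| ≤ 5 * N := by
      have := abs_le.1 hκ2
      rw [abs_le]; constructor <;> linarith [this.1, this.2]
    have b2 : 2 * (T + T') ≤ 8 * N := by linarith
    calc 2 * (T + T') * (N - 2 * κ) ≤ 2 * (T + T') * |N - 2 * κ| :=
          mul_le_mul_of_nonneg_left (le_abs_self _) (by linarith)
      _ ≤ 8 * N * (5 * N) := mul_le_mul b2 b1 (abs_nonneg _) (by positivity)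
      _ = _ := by ring
  have m3 : (4 * κ - 2 * N) * W ≤ 12 * u * W := by
    refine mul_le_mul_of_nonneg_right ?_ hW
    linarith
  have m4 : u * W ≤ u * c2' := mul_le_mul_of_nonneg_left hWc hs683
  have hd0 : (0 : ℝ) ≤ ((d : ℝ) + 25) ^ 2 + hp' := by positivity
  have m5 : W * (((d : ℝ) + 25) ^ 2 + hp') ≤ c2' * (((d : ℝ) + 25) ^ 2 + hp') :=
    mul_le_mul_of_nonneg_right hWc hd0
  -- the `e` terms
  have tc0 : 0 ≤ tc := (abs_nonneg _).trans e1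
  have n1 : |e * a'| ≤ tc * τ := by
    rw [abs_mul]; exact mul_le_mul e1 a2 (abs_nonneg _) tc0
  have n2 : |a * e'| ≤ tc * τ := by
    rw [abs_mul, mul_comm tc]; exact mul_le_mul a1 e2 (abs_nonneg _) hτ0
  have n3 : |a * a'| ≤ τ * τ := by
    rw [abs_mul]; exact mul_le_mul a1 a2 (abs_nonneg _) hτ0
  have n1' := (abs_le.1 n1).1
  have n2' := (abs_le.1 n2).1
  have n3' := (abs_le.1 n3).2
  have e9 : -4 * N * W + 4 * (κ - N) * W + 2 * (T + T') * (W - 2 * κ + N) +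
      4 * ((e - a) * (e' - a')) + 2 * W * (N + ((d : ℝ) + 25) ^ 2 + hp') =
      2 * (T + T') * W - (4 * N + 4 * u) * W + 2 * (T + T') * (N - 2 * κ) +
      (4 * κ - 2 * N) * W + 4 * (u * W) + 2 * (W * (((d : ℝ) + 25) ^ 2 + hp')) +
      4 * (e * e') - 4 * (e * a') - 4 * (a * e') + 4 * (a * a') := by ring
  rw [e9]
  have m3' : (4 * κ - 2 * N) * W ≤ 12 * (u * W) := by linarith
  have hee' : e * e' ≤ 6 * (y * N ^ 2) := by linarith
  have hτ2 : τ * τ = τ ^ 2 := by ring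
  rw [hτ2] at n3'
  linarith

/-- **the rate of `W` from the drift inequality** -/
theorem fW_rate (h : EnvA n d k F Zp Zm forb) (hk : k < k1 n d) (hσ : 2000 ≤ sR n)
    (h2d : 2 * d ≤ sR n)
    (hdrift : ∑ p ∈ adm F forb Zp Zm, (1 - Tilt.hT F forb Zp Zm (lam n) p.1 p.2) *
      ((upd Zp p.1 p.2 ^ 2 * upd Zm p.1 p.2 ^ 2).trace - (Zp ^ 2 * Zm ^ 2).trace) ≤
      mainW (nP n d k ^ 2) (Zp * Zm).trace (Zp ^ 2).trace (Zm ^ 2).trace
        ((Zp ^ 2 * Zm).trace - Zp.trace) ((Zm ^ 2 * Zp).trace - Zm.trace)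
        (Zp ^ 2 * Zm ^ 2).trace +
      errW (bP n d k) (tP n d k) (sP n d k) (vP n d k) (wP n d k) (cP n d k) (eP n d k)
        (GP n d k) (HrP n d k) (rhP n d k) (nP n d k) (τP n d) (sR n : ℝ)⁻¹ (sR n : ℝ)⁻¹⁻¹) :
    ∑ p ∈ adm F forb Zp Zm, (1 - hA n d k F forb Zp Zm p.1 p.2) *
      (fW n d (k + 1) (upd Zp p.1 p.2) (upd Zm p.1 p.2) - fW n d k Zp Zm) ≤
      2 * exW.cs (κW d) * rT n d k := by
  have R := rg1 hσ h2d h.d3 hk
  have hN := Nk_pos (by omega) h.k_lt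
  rw [inv_inv] at hdrift
  refine fW_of_drift h hk hσ (M := mainW (nP n d k ^ 2) (Zp * Zm).trace (Zp ^ 2).trace
        (Zm ^ 2).trace ((Zp ^ 2 * Zm).trace - Zp.trace) ((Zm ^ 2 * Zp).trace - Zm.trace)
        (Zp ^ 2 * Zm ^ 2).trace +
      errW (bP n d k) (tP n d k) (sP n d k) (vP n d k) (wP n d k) (cP n d k) (eP n d k)
        (GP n d k) (HrP n d k) (rhP n d k) (nP n d k) (τP n d) (sR n : ℝ)⁻¹ (sR n : ℝ))
    ?_ ?_ (csW_nonneg d)
  · refine le_trans (le_of_eq ?_) hdrift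
    refine Finset.sum_congr rfl fun p _ => ?_
    unfold hA
    rw [if_pos hk]
  · have h1 := main_le h hk hσ
    have h2 := err_le hσ R hk hN
    linarith

end Vale.Agent.P049.TS.Asm.RW
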