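import Vale.Agent.P049.TS.Asm.RateW2

/-!
`rate_W`: the rate of `W = tr Z₊² Z₋²` (phases I and II).
-/

set_option linter.unusedSectionVars false
set_option exponentiation.threshold 3000

namespace Vale.Agent.P049.TS.Asm.RW

open Matrix Finset Vale.Agent.P049.TS.Asm Vale.Agent.P049.TS.Wd

/-- the statement of the drift lemma of `W` -/
def DriftW : Prop := ∀ {ι : Type} [Fintype ι] [DecidableEq ι] {F : Finset ι}
    {Zp Zm : Matrix ι ι ℝ} {forb : ι → ι → Prop} {b t s v w cw e lam Δ ν τ δ : ℝ},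
    Tilt.Two F Zp Zm b t s v cw → Tilt.TPar F forb lam Δ →
    (∀ a ∈ F, ∑ b, Zp a b = 1) → (∀ a ∈ F, ∑ b, Zm a b = 1) →
    ∑ a ∈ F, (Zp ^ 2) a a ^ 2 ≤ w ^ 2 → ∑ a ∈ F, (Zm ^ 2) a a ^ 2 ≤ w ^ 2 →
    0 ≤ w → 0 ≤ ν → 0 ≤ e → (F.card : ℝ) = ν ^ 2 →
    ((((F ×ˢ F) \ adm F forb Zp Zm).card : ℕ) : ℝ) ≤ e ^ 2 →
    |Zp.trace| ≤ τ → |Zm.trace| ≤ τ → 0 < δ → δ ≤ 1 →
    ∑ p ∈ adm F forb Zp Zm, (1 - Tilt.hT F forb Zp Zm lam p.1 p.2) *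
      ((upd Zp p.1 p.2 ^ 2 * upd Zm p.1 p.2 ^ 2).trace - (Zp ^ 2 * Zm ^ 2).trace) ≤
    mainW (ν ^ 2) (Zp * Zm).trace (Zp ^ 2).trace (Zm ^ 2).trace
        ((Zp ^ 2 * Zm).trace - Zp.trace) ((Zm ^ 2 * Zp).trace - Zm.trace)
        (Zp ^ 2 * Zm ^ 2).trace +
      errW b t s v w cw e (1 + Δ + 128 * (1 + v) + 128 * s ^ 4) (4 * lam * ν)
        (lam * (2 * b + 9 / 4 * v) + Tilt.rbs lam Δ s) ν τ δ δ⁻¹

/-- **the rate of `W`** -/
theorem rate_W_of (hD : DriftW) (d : ℕ) : ∃ C : ℝ, ∃ s0 : ℕ,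
    ∀ (ι : Type) [Fintype ι] [DecidableEq ι] (n k : ℕ) (F : Finset ι) (Zp Zm : Matrix ι ι ℝ)
      (forb : ι → ι → Prop), s0 ≤ sR n → EnvA n d k F Zp Zm forb →
      ∑ p ∈ adm F forb Zp Zm, (1 - hA n d k F forb Zp Zm p.1 p.2) *
        (fW n d (k + 1) (upd Zp p.1 p.2) (upd Zm p.1 p.2) - fW n d k Zp Zm) ≤ C * rT n d k := by
  refine ⟨2 * exW.cs (κW d), max 2000 (2 * d), ?_⟩
  intro ι _ _ n k F Zp Zm forb hs0 h
  have hσ : 2000 ≤ sR n := le_trans (le_max_left _ _) hs0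
  have h2d : 2 * d ≤ sR n := le_trans (le_max_right _ _) hs0
  rcases lt_or_ge k (k1 n d) with hk | hk
  · have hN := Nk_pos (by omega) h.k_lt
    have hs1 := sR_one hσ
    refine fW_rate h hk hσ h2d ?_
    exact hD (h.two hk) h.tp h.p.row h.m.row h.p.W h.m.W (wP_nonneg n d k) (nP_nonneg n d k)
      (eP_nonneg n d k) (by rw [nP_sq hN]; exact h.card) (card_compl_le h (by omega))
      (abs_T1_leP hσ h.d3 h.p (by norm_num)) (abs_T1_leP hσ h.d3 h.m (by norm_num))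
      (by positivity) (inv_le_one_of_one_le₀ hs1)
  · have e : ∀ p : ι × ι, fW n d (k + 1) (upd Zp p.1 p.2) (upd Zm p.1 p.2) - fW n d k Zp Zm = 0 := by
      intro p
      unfold fW
      rw [if_neg (not_lt.2 hk), if_neg (not_lt.2 (Nat.le_succ_of_le hk)), sub_zero]
    simp only [e, mul_zero, Finset.sum_const_zero]
    exact mul_nonneg (mul_nonneg (by norm_num) (csW_nonneg d)) (mo_nonneg _ _ _ _)

end Vale.Agent.P049.TS.Asm.RW
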