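import Vale.Agent.P049.TS.Asm.RateW3
import Vale.Agent.P049.TS.W.Drift

/-!
`rate_W`, unconditional.
-/

namespace Vale.Agent.P049.TS.Asm.RW

open Matrix Finset Vale.Agent.P049.TS.Asm Vale.Agent.P049.TS.Wd

theorem driftW : DriftW :=
  fun h2 hT rp rm wp wm w0 n0 e0 hN hE tp tm d0 d1 =>
    W_drift h2 hT rp rm wp wm w0 n0 e0 hN hE tp tm d0 d1

/-- **the rate of `W`** -/
theorem rate_W (d : ℕ) : ∃ C : ℝ, ∃ s0 : ℕ,
    ∀ (ι : Type) [Fintype ι] [DecidableEq ι] (n k : ℕ) (F : Finset ι) (Zp Zm : Matrix ι ι ℝ)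
      (forb : ι → ι → Prop), s0 ≤ sR n → EnvA n d k F Zp Zm forb →
      ∑ p ∈ adm F forb Zp Zm, (1 - hA n d k F forb Zp Zm p.1 p.2) *
        (fW n d (k + 1) (upd Zp p.1 p.2) (upd Zm p.1 p.2) - fW n d k Zp Zm) ≤ C * rT n d k :=
  rate_W_of driftW d

end Vale.Agent.P049.TS.Asm.RW
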