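import Vale.Agent.P049.TS.Asm.Final
import Vale.Agent.P049.TS.Rate.RT1
import Vale.Agent.P049.TS.T34.RateT4
import Vale.Agent.P049.TS.T34.RateT3
import Vale.Agent.P049.TS.Rate3.RC12
import Vale.Agent.P049.TS.Rate3.RAF
import Vale.Agent.P049.TS.Rate3.RB1
import Vale.Agent.P049.TS.R902.A4
import Vale.Agent.P049.TS.H828.RateB
import Vale.Agent.P049.TS.S1.RateS
import Vale.Agent.P049.TS.R379.B5
import Vale.Agent.P049.TS.Rate3.RB6
import Vale.Agent.P049.TS.R950.RB2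
import Vale.Agent.P049.TS.Rate.RV
import Vale.Agent.P049.TS.Asm.RateW4
import Vale.Agent.P049.TS.T34.RateA3
import Vale.Agent.P049.TS.Avg480.A5f
import Vale.Agent.P049.TS.S1.RateA6

/-!
The landed rate lemmas in the form of `RatesA`, `RatesC`, `RatesB`.
-/

set_option linter.unusedSectionVars false
set_option exponentiation.threshold 3000

namespace Vale.Agent.P049.TS.Asm

open Finset

variable {d : ℕ}

/-! ### Phases I, II -/

theorem rA_1 (hd : 3 ≤ d) : ROne d fun n k ε _ Z => f1 n d k ε Z := by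
  obtain ⟨C, s0, h⟩ := Rate.rate_T1 d hd
  exact ⟨C, s0, fun n k F Zp Zm forb hσ e ε Z hs => h _ n k F Zp Zm forb hσ e ε Z hs⟩

theorem rA_D (hd : 3 ≤ d) : ROne d fun n k _ _ Z => fD n d k Z := by
  obtain ⟨C, s0, h⟩ := Rate.rate_D d hd
  exact ⟨C, s0, fun n k F Zp Zm forb hσ e ε Z hs => h _ n k F Zp Zm forb hσ e ε Z hs⟩

theorem rA_3 (d : ℕ) : ROne d fun n k ε _ Z => f3 n d k ε Z := by
  obtain ⟨C, _, s0, h⟩ := T34.rate_T3 d
  exact ⟨C, s0, fun n k F Zp Zm forb hσ e ε Z hs => h n k F Zp Zm forb hσ e ε Z hs⟩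

theorem rA_4 (d : ℕ) : ROne d fun n k _ _ Z => f4 n d k Z := by
  obtain ⟨C, _, s0, h⟩ := T34.rate_T4 d
  exact ⟨C, s0, fun n k F Zp Zm forb hσ e ε Z hs => h n k F Zp Zm forb hσ e ε Z hs⟩

theorem rA_S (d : ℕ) : ROne d fun n _ _ F Z => fS n F Z := by
  obtain ⟨C, _, s0, h⟩ := S1.rate_S d
  exact ⟨C, s0, fun n k F Zp Zm forb hσ e ε Z hs => h n k F Zp Zm forb hσ e ε Z hs⟩

theorem rA_V (hd : 3 ≤ d) : ROne d fun n k _ F Z => fV n d k F Z := by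
  obtain ⟨C, s0, h⟩ := RV.rate_V d hd
  exact ⟨C, s0, fun n k F Zp Zm forb hσ e ε Z hs => h _ n k F Zp Zm forb hσ e ε Z hs⟩

theorem rA_W (d : ℕ) : RTwo d fun n k _ Zp Zm => fW n d k Zp Zm := by
  obtain ⟨C, s0, h⟩ := RW.rate_W d
  exact ⟨C, s0, fun n k F Zp Zm forb hσ e => h _ n k F Zp Zm forb hσ e⟩

theorem ratesA (hd : 3 ≤ d) : RatesA d where
  r1 := rA_1 hd
  rD := rA_D hd
  r3 := rA_3 d
  r4 := rA_4 d
  rV := rA_V hd
  rS := rA_S d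
  rW := rA_W d

/-! ### Phase IIIa -/

theorem rC_1 (hd : 3 ≤ d) : RUni d (EC d) fun n k ε _ Z => A1c n d k ε Z := by
  obtain ⟨C, s0, h⟩ := R3.rate_A1 d hd
  exact ⟨C, s0, fun n k F Zp Zm forb hσ e ε Z hs => h _ n k F Zp Zm forb hσ e ε Z hs⟩

theorem rC_2 (hd : 3 ≤ d) : RUni d (EC d) fun n _ ε _ Z => A2c n d ε Z := by
  obtain ⟨C, s0, h⟩ := R3.rate_A2 d hd
  exact ⟨C, s0, fun n k F Zp Zm forb hσ e ε Z hs => h _ n k F Zp Zm forb hσ e ε Z hs⟩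

theorem rC_F (hd : 3 ≤ d) : RUni d (EC d) fun n k _ _ Z => AFc n d k Z := by
  obtain ⟨C, s0, h⟩ := RAF.rate_AF d hd
  exact ⟨C, s0, fun n k F Zp Zm forb hσ e ε Z hs => h _ n k F Zp Zm forb hσ e ε Z hs⟩

theorem rC_4 (hd : 3 ≤ d) : RUni d (EC d) fun n k _ _ Z => A4c n d k Z := by
  obtain ⟨C, s0, h⟩ := R902.rate_A4 d hd
  exact ⟨C, s0, fun n k F Zp Zm forb hσ e ε Z hs => h _ n k F Zp Zm forb hσ e ε Z hs⟩

/-! ### Phase IIIb -/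

theorem rB_1 (hd : 3 ≤ d) : RUni d (EB d) fun n k ε _ Z => g1B n d k ε Z := by
  obtain ⟨C, s0, h⟩ := R3B.rate_B1 d hd
  exact ⟨C, s0, fun n k F Zp Zm forb hσ e ε Z hs => h _ n k F Zp Zm forb hσ e ε Z hs⟩

theorem rB_F (hd : 3 ≤ d) : RUni d (EB d) fun n k _ _ Z => gFB n d k Z := by
  obtain ⟨C, s0, h⟩ := H828.rate_gFB d hd
  exact ⟨C, s0, fun n k F Zp Zm forb hσ e ε Z hs => h _ n k F Zp Zm forb hσ e ε Z hs⟩

theorem rB_4 (hd : 3 ≤ d) : RUni d (EB d) fun n k _ _ Z => g4B n d k Z := by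
  obtain ⟨C, s0, h⟩ := H828.rate_g4B d hd
  exact ⟨C, s0, fun n k F Zp Zm forb hσ e ε Z hs => h _ n k F Zp Zm forb hσ e ε Z hs⟩

theorem rB_2 (hd : 3 ≤ d) : RUni d (EB d) fun n k _ _ Z => g2B n d k Z := by
  obtain ⟨C, s0, h⟩ := R950.rate_B2 d hd
  exact ⟨C, s0, fun n k F Zp Zm forb hσ e ε Z hs => h _ n k F Zp Zm forb hσ e ε Z hs⟩

theorem rB_5 (hd : 3 ≤ d) : RUni d (EB d) fun n k _ F Z => g5B n d k F Z := by
  obtain ⟨C, s0, h⟩ := R379.rate_B5 d hd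
  exact ⟨C, s0, fun n k F Zp Zm forb hσ e ε Z hs => h _ n k F Zp Zm forb hσ e ε Z hs⟩

theorem rB_6 (hd : 3 ≤ d) : RUni d (EB d) fun n k _ F Z => g6B n d k F Z := by
  obtain ⟨C, s0, h⟩ := R402.rate_B6 d hd
  exact ⟨C, s0, fun n k F Zp Zm forb hσ e ε Z hs => h _ n k F Zp Zm forb hσ e ε Z hs⟩

theorem ratesB (hd : 3 ≤ d) : RatesB d where
  r1 := rB_1 hd
  r2 := rB_2 hd
  rF := rB_F hd
  r4 := rB_4 hd
  r5 := rB_5 hd
  r6 := rB_6 hd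

theorem rC_3 (hd : 3 ≤ d) : RUni d (EC d) fun n _ ε _ Z => A3c n d ε Z := by
  obtain ⟨C, s0, h⟩ := RA3.rate_A3 d hd
  exact ⟨C, s0, fun n k F Zp Zm forb hσ e ε Z hs => h _ n k F Zp Zm forb hσ e ε Z hs⟩

theorem rC_5 (hd : 3 ≤ d) : RUni d (EC d) fun n k _ F Z => A5c n d k F Z := by
  obtain ⟨C, s0, h⟩ := A480.rate_A5 d hd
  exact ⟨C, s0, fun n k F Zp Zm forb hσ e ε Z hs => h _ n k F Zp Zm forb hσ e ε Z hs⟩

theorem rC_6 (d : ℕ) : RUni d (EC d) fun n _ _ F Z => A6c n F Z := by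
  obtain ⟨C, s0, h⟩ := S1.rate_A6 d
  exact ⟨C, s0, fun n k F Zp Zm forb hσ e ε Z hs => h _ n k F Zp Zm forb hσ e ε Z hs⟩

theorem ratesC (hd : 3 ≤ d) : RatesC d where
  r1 := rC_1 hd
  r2 := rC_2 hd
  rF := rC_F hd
  r3 := rC_3 hd
  r4 := rC_4 hd
  r5 := rC_5 hd
  r6 := rC_6 d

/-- **The final statement.** -/
theorem final (hd : 3 ≤ d) :
    ∃ f : ℕ → List Bool,
      (∃ M : Turing.TM2ComputableInPolyTime (fun n : ℕ => List.replicate n true)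
        (id : List Bool → List Bool) f, ∀ k, Finite (M.tm.Γ k)) ∧
      ∃ n₁ : ℕ, ∀ n : ℕ, n₁ ≤ n → Even (d * n) →
        ∃ (G : SimpleGraph (Fin n)) (_ : DecidableRel G.Adj),
          IsRamanujanUpTo d 0 G ∧
          f n = (List.ofFn fun i : Fin n => List.ofFn fun j : Fin n =>
            decide (G.Adj i j)).flatten :=
  final_of_rates hd (ratesA hd) (ratesC hd) (ratesB hd)

end Vale.Agent.P049.TS.Asm
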