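import Vale.Agent.P049.TS.Asm.Glue
import Vale.Agent.P049.TS.Asm.StepA

/-!
Phases with uniform weights (IIIa, IIIb, final) from rate lemmas.
-/

set_option linter.unusedSectionVars false
set_option exponentiation.threshold 3000

namespace Vale.Agent.P049.TS.Asm

open Finset

/-- the type of hypotheses of rate lemmas -/
abbrev EnvT (d : ℕ) := ∀ n : ℕ, ℕ → Finset (Fin (n * d)) → Matrix (Fin (n * d)) (Fin (n * d)) ℝ →
    Matrix (Fin (n * d)) (Fin (n * d)) ℝ → (Fin (n * d) → Fin (n * d) → Prop) → Prop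

/-- the type of functionals of one sign -/
abbrev FunT (d : ℕ) := ∀ n : ℕ, ℕ → ℝ → Finset (Fin (n * d)) →
    Matrix (Fin (n * d)) (Fin (n * d)) ℝ → ℝ

/-- the rate statement of a functional of one sign with uniform weights -/
def RUni (d : ℕ) (E : EnvT d) (g : FunT d) : Prop :=
  ∃ C : ℝ, ∃ s0 : ℕ, ∀ (n k : ℕ) (F : Finset (Fin (n * d)))
    (Zp Zm : Matrix (Fin (n * d)) (Fin (n * d)) ℝ) (forb : Fin (n * d) → Fin (n * d) → Prop),
    s0 ≤ sR n → E n k F Zp Zm forb → ∀ (ε : ℝ) (Z : Matrix (Fin (n * d)) (Fin (n * d)) ℝ),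
    Sgn Zp Zm ε Z → ∑ p ∈ adm F forb Zp Zm,
      (g n (k + 1) ε ((F.erase p.1).erase p.2) (upd Z p.1 p.2) - g n k ε F Z) ≤ C * rT n d k

variable {d : ℕ} {E : EnvT d}

theorem RUni.add {f g : FunT d} (hf : RUni d E f) (hg : RUni d E g) :
    RUni d E fun n k ε F Z => f n k ε F Z + g n k ε F Z := by
  obtain ⟨C₁, s₁, h₁⟩ := hf
  obtain ⟨C₂, s₂, h₂⟩ := hg
  refine ⟨C₁ + C₂, max s₁ s₂, fun n k F Zp Zm forb hσ h ε Z hs => ?_⟩
  have a1 := h₁ n k F Zp Zm forb (le_trans (le_max_left _ _) hσ) h ε Z hs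
  have a2 := h₂ n k F Zp Zm forb (le_trans (le_max_right _ _) hσ) h ε Z hs
  rw [add_mul]
  refine le_trans (le_of_eq ?_) (add_le_add a1 a2)
  rw [← Finset.sum_add_distrib]
  exact Finset.sum_congr rfl fun p _ => by ring

/-- what the hypotheses of the rate lemmas have to give -/
structure EnvOK (n d k : ℕ) (F : Finset (Fin (n * d)))
    (Zp Zm : Matrix (Fin (n * d)) (Fin (n * d)) ℝ) (forb : Fin (n * d) → Fin (n * d) → Prop) :
    Prop where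
  card : (F.card : ℝ) = Nk n d k
  compl : ((((F ×ˢ F) \ adm F forb Zp Zm).card : ℕ) : ℝ) ≤ Nk n d k ^ 2 / 2
  ent : ∀ i j, |Zp i j| ≤ (n * d : ℕ) ∧ |Zm i j| ≤ (n * d : ℕ)

/-- **A phase with uniform weights.** -/
theorem phase_uniform {g : FunT d} (R : RUni d E g) (Φ : ∀ n, ℕ → RSt (Fin (n * d)) → ℝ)
    (hΦ : ∀ n k σ, Φ n k σ = g n k 1 σ.F σ.Zp + g n k (-1) σ.F σ.Zm) (ka kb : ℕ → ℕ)
    (hk : Ev d fun n => 2 * kb n ≤ n * d)
    (henv : Ev d fun n => ∀ k, ka n ≤ k → k < kb n → ∀ σ,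
      Reach (vertF n d) (start (vertF n d) d) k σ → Φ n k σ ≤ 1 →
      E n k σ.F σ.Zp σ.Zm (forbS (vertF n d) σ))
    (hok : Ev d fun n => ∀ k F Zp Zm forb, k < kb n → E n k F Zp Zm forb →
      EnvOK n d k F Zp Zm forb) :
    Ev d fun n => ∃ r, Phase n d (ka n) (kb n) (Φ n) (1 / 4) r := by
  obtain ⟨C, s₀, hC⟩ := R
  refine Ev.phase Φ ka kb hk ⟨2 * |C|, ?_⟩
  refine ((henv.and (hok.and hk)).and ((Ev.of_sR s₀).and (Ev.of_sR 1))).mono fun n _ hn => ?_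
  obtain ⟨⟨h1, h2, h2'⟩, h3, h4⟩ := hn
  intro k q1 q2 σ hr hΦ'
  have e := h1 k q1 q2 σ hr hΦ'
  have ok := h2 k _ _ _ _ q2 e
  have hN : 0 < Nk n d k := by
    have a1 : 2 * k < n * d := by omega
    have a2 : ((2 * k : ℕ) : ℝ) < ((n * d : ℕ) : ℝ) := by exact_mod_cast a1
    unfold Nk
    push_cast at a2
    linarith
  have hs : (0 : ℝ) < sR n := by exact_mod_cast h4
  refine ⟨⟨fun _ => 1, fun _ _ => zero_le_one, ?_, ?_⟩, ok.ent⟩
  · have a1 : ((σ.F ×ˢ σ.F).card : ℝ) = (((σ.F ×ˢ σ.F) \ admS (vertF n d) σ).card : ℝ) +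
        (admS (vertF n d) σ).card := by
      rw [← Nat.cast_add, Finset.card_sdiff_add_card_eq_card (admS_subset _ _)]
    have a2 : ((σ.F ×ˢ σ.F).card : ℝ) = (σ.F.card : ℝ) ^ 2 := by
      rw [Finset.card_product]; push_cast; ring
    rw [a2, ok.card] at a1
    have a3 := ok.compl
    rw [Finset.sum_const, nsmul_eq_mul, mul_one]
    have a4 : (((σ.F ×ˢ σ.F) \ admS (vertF n d) σ).card : ℝ) ≤ Nk n d k ^ 2 / 2 := a3
    nlinarith [sq_nonneg (Nk n d k)]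
  · have b1 := hC n k σ.F σ.Zp σ.Zm (forbS (vertF n d) σ) h3 e 1 σ.Zp (Or.inl ⟨rfl, rfl⟩)
    have b2 := hC n k σ.F σ.Zp σ.Zm (forbS (vertF n d) σ) h3 e (-1) σ.Zm (Or.inr ⟨rfl, rfl⟩)
    rw [rT_eq h4 hN] at b1 b2
    have b3 : C * (Nk n d k / sR n) ≤ |C| * (Nk n d k / sR n) :=
      mul_le_mul_of_nonneg_right (le_abs_self C) (by positivity)
    have b4 : ∑ p ∈ admS (vertF n d) σ, 1 * (Φ n (k + 1) (σ.join p.1 p.2) - Φ n k σ) =
        ∑ p ∈ adm σ.F (forbS (vertF n d) σ) σ.Zp σ.Zm,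
          (g n (k + 1) 1 ((σ.F.erase p.1).erase p.2) (upd σ.Zp p.1 p.2) - g n k 1 σ.F σ.Zp) +
        ∑ p ∈ adm σ.F (forbS (vertF n d) σ) σ.Zp σ.Zm,
          (g n (k + 1) (-1) ((σ.F.erase p.1).erase p.2) (upd σ.Zm p.1 p.2) -
            g n k (-1) σ.F σ.Zm) := by
      rw [← Finset.sum_add_distrib]
      refine Finset.sum_congr rfl fun p _ => ?_
      rw [hΦ, hΦ]
      simp only [RSt.join]
      ring
    rw [b4]
    linarith

/-- phases I and II in the form of `glue4` -/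
theorem evPhaseA (hd : 3 ≤ d) (R : RatesA d) :
    (Ev d fun n => ∃ r, Phase n d 0 (k2 n d) (fun k σ => PhiA n d k σ) (1 / 4) r) ∧
    Ev d fun n => PhiA n d 0 (start (vertF n d) d) ≤ 1 / 4 := by
  obtain ⟨C, s₀, h⟩ := phaseA hd R
  exact ⟨⟨s₀, fun n hn _ => ⟨_, (h n hn).1⟩⟩, ⟨s₀, fun n hn _ => (h n hn).2⟩⟩

end Vale.Agent.P049.TS.Asm
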